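import Vale.Agent.P372.R2.helper492.Ou.Cert

/-! Rotations which move a finite family of vectors away from finitely many subspaces. -/

open Matrix Kronecker
open scoped ComplexOrder MatrixOrder

set_option linter.unusedSectionVars false

namespace Vale.Agent.P372.Ou

open Vale.Agent.P372.PC (IsPr kron_sw)

variable {d : ℕ}

/-- The moment curve. -/
def mz (d : ℕ) (s : ℕ) : Fin d → ℂ := fun i => (s : ℂ) ^ (i : ℕ)

theorem finite_zeros {φ : Fin d → ℂ} (hφ : φ ≠ 0) : {s : ℕ | φ ⬝ᵥ mz d s = 0}.Finite := by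
  obtain ⟨p, hp⟩ : ∃ p : Polynomial ℂ, p = ∑ i : Fin d, Polynomial.C (φ i) * Polynomial.X ^ (i : ℕ) :=
    ⟨_, rfl⟩
  have hev : ∀ s : ℕ, p.eval (s : ℂ) = φ ⬝ᵥ mz d s := by
    intro s
    rw [hp, Polynomial.eval_finsetSum]
    simp only [Polynomial.eval_mul, Polynomial.eval_C, Polynomial.eval_pow, Polynomial.eval_X,
      dotProduct, mz]
  have hne : p ≠ 0 := by
    intro h
    apply hφ
    funext i
    have h1 : p.coeff (i : ℕ) = φ i := by
      rw [hp, Polynomial.finsetSum_coeff]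
      simp only [Polynomial.coeff_C_mul, Polynomial.coeff_X_pow]
      rw [Finset.sum_eq_single i]
      · rw [if_pos rfl, mul_one]
      · intro j _ hj
        rw [if_neg (fun e => hj (Fin.ext e.symm)), mul_zero]
      · simp
    rw [← h1, h]
    simp
  by_contra hinf
  have h1 : ((fun s : ℕ => (s : ℂ)) '' {s : ℕ | φ ⬝ᵥ mz d s = 0}).Infinite :=
    Set.Infinite.image (Nat.cast_injective.injOn) hinf
  refine hne (Polynomial.eq_zero_of_infinite_isRoot p (h1.mono ?_))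
  rintro _ ⟨s, hs, rfl⟩
  change p.eval (s : ℂ) = 0
  rw [hev]
  exact hs

theorem nq_eq_zero {E : Type} [Fintype E] {v : E → ℂ} (h : nq v = 0) : v = 0 := by
  funext i
  have h1 := (Finset.sum_eq_zero_iff_of_nonneg fun i _ => by positivity).mp h i (Finset.mem_univ i)
  have h2 : ‖v i‖ = 0 := by
    rcases pow_eq_zero_iff (two_ne_zero) |>.mp h1 with h2
    exact h2
  simpa using h2

theorem exists_orth {Q : Matrix (Fin d) (Fin d) ℂ} (hQ : IsPr Q) {q : ℝ} (hq : Q.trace = (q : ℂ))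
    (hq2 : 2 ≤ q) (b : Fin d → ℂ) : ∃ g : Fin d → ℂ, g ≠ 0 ∧ Q *ᵥ g = g ∧ star g ⬝ᵥ b = 0 := by
  by_contra hcon
  push Not at hcon
  have hcon' : ∀ g : Fin d → ℂ, Q *ᵥ g = g → star b ⬝ᵥ g = 0 → g = 0 := by
    intro g h1 h2
    by_contra h0
    refine hcon g h0 h1 ?_
    rw [star_dotProduct, h2, star_zero]
  obtain ⟨e, he⟩ : ∃ e, e = Q *ᵥ b := ⟨_, rfl⟩
  have hQe : Q *ᵥ e = e := by rw [he, mulVec_mulVec, hQ.2]
  have hbQ : ∀ x, star b ⬝ᵥ (Q *ᵥ x) = star e ⬝ᵥ x := by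
    intro x
    rw [he, IsPr.dot hQ]
  have h1 : ∀ x, (nq e : ℂ) • (Q *ᵥ x) - (star e ⬝ᵥ x) • e = 0 := by
    intro x
    refine hcon' _ ?_ ?_
    · rw [mulVec_sub, mulVec_smul, mulVec_smul, hQe, mulVec_mulVec, hQ.2]
    · rw [dotProduct_sub, dotProduct_smul, dotProduct_smul, hbQ]
      have h3 : star b ⬝ᵥ e = (nq e : ℂ) := by
        rw [he, IsPr.dot_self hQ]
      rw [h3, smul_eq_mul, smul_eq_mul]
      ring
  have h2 : (nq e : ℂ) • Q = pj e := by
    have h3 : ∀ x, ((nq e : ℂ) • Q) *ᵥ x = pj e *ᵥ x := by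
      intro x
      have h4 : pj e *ᵥ x = (star e ⬝ᵥ x) • e := by
        ext i
        simp only [mulVec, dotProduct, pj_apply, Pi.smul_apply, smul_eq_mul, Finset.sum_mul,
          Pi.star_apply]
        exact Finset.sum_congr rfl fun j _ => by ring
      rw [h4, smul_mulVec]
      exact sub_eq_zero.mp (h1 x)
    ext i j
    have := congrFun (h3 (Pi.single j 1)) i
    simpa using this
  have h3 := congrArg Matrix.trace h2
  rw [trace_smul, hq, pj_trace, dot_self, smul_eq_mul, ← Complex.ofReal_mul] at h3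
  have h4 : nq e * q = nq e := by exact_mod_cast h3
  have h5 : nq e = 0 := by
    have h6 := nq_nonneg e
    nlinarith
  have h6 : e = 0 := nq_eq_zero h5
  have h7 : Q = 0 := by
    have h8 : ∀ x, Q *ᵥ x = 0 := by
      intro x
      refine hcon' _ (by rw [mulVec_mulVec, hQ.2]) ?_
      rw [hbQ, h6]
      simp
    ext i j
    have := congrFun (h8 (Pi.single j 1)) i
    simpa using this
  rw [h7, trace_zero] at hq
  have h8 : q = 0 := by exact_mod_cast hq.symm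
  linarith

/-- The reflection. -/
noncomputable def hh (z : Fin d → ℂ) : Matrix (Fin d) (Fin d) ℂ :=
  1 - ((2 / nq z : ℝ) : ℂ) • pj z

theorem hh_herm (z : Fin d → ℂ) : (hh z)ᴴ = hh z := by
  rw [hh, conjTranspose_sub, conjTranspose_one, conjTranspose_smul, pj_herm, RCLike.star_def,
    Complex.conj_ofReal]

theorem pj_pj (z : Fin d → ℂ) : pj z * pj z = (nq z : ℂ) • pj z := by
  ext i j
  rw [Matrix.mul_apply, Matrix.smul_apply, ← dot_self]
  simp only [pj_apply, dotProduct, Pi.star_apply, smul_eq_mul, Finset.sum_mul]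
  exact Finset.sum_congr rfl fun k _ => by ring

theorem hh_mul {z : Fin d → ℂ} (hz : 0 < nq z) : hh z * hh z = 1 := by
  have hz' : (nq z : ℂ) ≠ 0 := by exact_mod_cast hz.ne'
  rw [hh, Matrix.sub_mul, Matrix.mul_sub, Matrix.mul_sub, one_mul, one_mul, mul_one,
    Matrix.mul_smul, Matrix.smul_mul, pj_pj, smul_smul, smul_smul]
  have e : ((2 / nq z : ℝ) : ℂ) * ((2 / nq z : ℝ) : ℂ) * (nq z : ℂ) =
      ((2 / nq z : ℝ) : ℂ) + ((2 / nq z : ℝ) : ℂ) := by
    push_cast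
    field_simp
    ring
  rw [e, add_smul]
  abel

theorem hh_mulVec (z v : Fin d → ℂ) :
    hh z *ᵥ v = v - (((2 / nq z : ℝ) : ℂ) * (star z ⬝ᵥ v)) • z := by
  have h1 : pj z *ᵥ v = (star z ⬝ᵥ v) • z := by
    ext i
    simp only [mulVec, dotProduct, pj_apply, Pi.smul_apply, smul_eq_mul, Finset.sum_mul,
      Pi.star_apply]
    exact Finset.sum_congr rfl fun j _ => by ring
  rw [hh, sub_mulVec, one_mulVec, smul_mulVec, h1, smul_smul]

/-- A rotation away from finitely many subspaces. -/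
theorem exists_rot {J L : Type} [Finite J] [Finite L] (hd : 0 < d)
    {P : J → Matrix (Fin d) (Fin d) ℂ} (hP : ∀ j, IsPr (P j)) {m : J → ℝ}
    (hm : ∀ j, (P j).trace = (m j : ℂ)) (hmd : ∀ j, m j ≤ d - 2) {b : L → Fin d → ℂ}
    (hb : ∀ l, star (b l) ⬝ᵥ b l = 1) :
    ∃ U : Matrix (Fin d) (Fin d) ℂ, (Uᴴ * U = 1 ∧ U * Uᴴ = 1) ∧
      ∀ j l, nq (P j *ᵥ (U *ᵥ b l)) < 1 := by
  have hg : ∀ j l, ∃ g : Fin d → ℂ, g ≠ 0 ∧ (1 - P j) *ᵥ g = g ∧ star g ⬝ᵥ b l = 0 := by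
    intro j l
    refine exists_orth (hP j).compl (q := d - m j) ?_ (by linarith [hmd j]) (b l)
    rw [trace_sub, trace_one, Fintype.card_fin, hm]
    push_cast
    rfl
  choose g hg0 hg1 hg2 using hg
  have hb0 : ∀ l, b l ≠ 0 := by
    intro l h
    have := hb l
    rw [h] at this
    simp at this
  have hfin : (⋃ j, ⋃ l, ({s : ℕ | star (g j l) ⬝ᵥ mz d s = 0} ∪
      {s : ℕ | star (b l) ⬝ᵥ mz d s = 0})).Finite := by
    refine Set.finite_iUnion fun j => Set.finite_iUnion fun l => Set.Finite.union ?_ ?_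
    · exact finite_zeros (fun h => hg0 j l (star_eq_zero.mp h))
    · exact finite_zeros (fun h => hb0 l (star_eq_zero.mp h))
  obtain ⟨s, hs⟩ := hfin.infinite_compl.nonempty
  have hs' : ∀ j l, star (g j l) ⬝ᵥ mz d s ≠ 0 ∧ star (b l) ⬝ᵥ mz d s ≠ 0 := by
    intro j l
    constructor
    · intro h
      exact hs (Set.mem_iUnion.mpr ⟨j, Set.mem_iUnion.mpr ⟨l, Or.inl h⟩⟩)
    · intro h
      exact hs (Set.mem_iUnion.mpr ⟨j, Set.mem_iUnion.mpr ⟨l, Or.inr h⟩⟩)
  have hz : 0 < nq (mz d s) := by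
    have h1 : ‖mz d s ⟨0, hd⟩‖ ^ 2 ≤ nq (mz d s) :=
      Finset.single_le_sum (f := fun i => ‖mz d s i‖ ^ 2) (fun i _ => by positivity)
        (Finset.mem_univ (⟨0, hd⟩ : Fin d))
    have h2 : mz d s ⟨0, hd⟩ = 1 := by simp [mz]
    rw [h2, norm_one, one_pow] at h1
    linarith
  refine ⟨hh (mz d s), ⟨by rw [hh_herm, hh_mul hz], by rw [hh_herm, hh_mul hz]⟩, fun j l => ?_⟩
  have hU1 : nq (hh (mz d s) *ᵥ b l) = 1 := by
    have h1 := dot_self (hh (mz d s) *ᵥ b l)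
    rw [star_mulVec, hh_herm, ← dotProduct_mulVec, mulVec_mulVec, hh_mul hz, one_mulVec, hb] at h1
    exact_mod_cast h1.symm
  have hsplit := IsPr.nq_add (hP j) (hh (mz d s) *ᵥ b l)
  rw [hU1] at hsplit
  have hpos : nq ((1 - P j) *ᵥ (hh (mz d s) *ᵥ b l)) ≠ 0 := by
    intro h0
    have h1 := nq_eq_zero h0
    have h2 : star (g j l) ⬝ᵥ ((1 - P j) *ᵥ (hh (mz d s) *ᵥ b l)) = 0 := by
      rw [h1, dotProduct_zero]
    rw [← IsPr.dot (hP j).compl, hg1, hh_mulVec, dotProduct_sub, dotProduct_smul, hg2, zero_sub,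
      neg_eq_zero, smul_eq_mul, mul_eq_zero, mul_eq_zero] at h2
    rcases h2 with (h2 | h2) | h2
    · have h3 : (2 / nq (mz d s) : ℝ) ≠ 0 := by positivity
      exact h3 (by exact_mod_cast h2)
    · apply (hs' j l).2
      rw [star_dotProduct, h2, star_zero]
    · exact (hs' j l).1 h2
  have h0 := nq_nonneg ((1 - P j) *ᵥ (hh (mz d s) *ᵥ b l))
  have h1 := lt_of_le_of_ne h0 (Ne.symm hpos)
  linarith

/-- The projections of small rank. -/
def PS (d : ℕ) : Set (Matrix (Fin d) (Fin d) ℂ) :=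
  {P | Pᴴ = P ∧ P * P = P ∧ P.trace.re ≤ d - 2}

theorem ps_compact : IsCompact (PS d) := by
  have h1 : IsCompact (Set.pi Set.univ fun _ : Fin d => Set.pi Set.univ fun _ : Fin d =>
      Metric.closedBall (0 : ℂ) 1) :=
    isCompact_univ_pi fun _ => isCompact_univ_pi fun _ => isCompact_closedBall _ _
  refine h1.of_isClosed_subset ?_ ?_
  · have e : PS d = ({P : Matrix (Fin d) (Fin d) ℂ | Pᴴ = P} ∩ {P | P * P = P}) ∩
        {P | P.trace.re ≤ d - 2} := by
      ext P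
      constructor
      · rintro ⟨a, b, c⟩
        exact ⟨⟨a, b⟩, c⟩
      · rintro ⟨⟨a, b⟩, c⟩
        exact ⟨a, b, c⟩
    rw [e]
    refine ((isClosed_eq ?_ continuous_id).inter (isClosed_eq ?_ continuous_id)).inter
      (isClosed_le ?_ continuous_const)
    · exact continuous_id.matrix_conjTranspose
    · exact continuous_id.matrix_mul continuous_id
    · exact Complex.continuous_re.comp continuous_id.matrix_trace
  · rintro P ⟨hP1, hP2, -⟩
    have hii : ∀ i, (P i i).re = ∑ k, ‖P i k‖ ^ 2 := by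
      intro i
      have h2 : ∑ k, P i k * P k i = P i i := congrFun (congrFun hP2 i) i
      rw [← h2, Complex.re_sum]
      refine Finset.sum_congr rfl fun k _ => ?_
      have h3 : P k i = star (P i k) := (congrFun (congrFun hP1 k) i).symm
      rw [h3, RCLike.star_def, RCLike.mul_conj]
      norm_cast
    have hle : ∀ i, (P i i).re ≤ 1 := by
      intro i
      have h3 : (P i i).re ^ 2 ≤ (P i i).re := by
        calc (P i i).re ^ 2 ≤ ‖P i i‖ ^ 2 := by
              rw [← sq_abs]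
              exact pow_le_pow_left₀ (abs_nonneg _) (Complex.abs_re_le_norm _) 2
          _ ≤ ∑ k, ‖P i k‖ ^ 2 := Finset.single_le_sum (f := fun k => ‖P i k‖ ^ 2)
              (fun _ _ => by positivity) (Finset.mem_univ i)
          _ = _ := (hii i).symm
      nlinarith
    rw [Set.mem_univ_pi]
    intro i
    rw [Set.mem_univ_pi]
    intro k
    rw [mem_closedBall_zero_iff]
    have h4 : ‖P i k‖ ^ 2 ≤ 1 := by
      calc ‖P i k‖ ^ 2 ≤ ∑ k, ‖P i k‖ ^ 2 := Finset.single_le_sum (f := fun k => ‖P i k‖ ^ 2)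
            (fun _ _ => by positivity) (Finset.mem_univ k)
        _ = (P i i).re := (hii i).symm
        _ ≤ 1 := hle i
    exact (sq_le_one_iff₀ (norm_nonneg _)).mp h4

theorem exists_unif (J L : Type) [Fintype J] [Fintype L] (hd : 0 < d) {b : L → Fin d → ℂ}
    (hb : ∀ l, star (b l) ⬝ᵥ b l = 1) :
    ∃ r : ℝ, 0 < r ∧ r ≤ 1 ∧ ∀ P : J → Matrix (Fin d) (Fin d) ℂ, (∀ j, P j ∈ PS d) →
      ∃ U : Matrix (Fin d) (Fin d) ℂ, (Uᴴ * U = 1 ∧ U * Uᴴ = 1) ∧
        ∀ j l, nq (P j *ᵥ (U *ᵥ b l)) ≤ 1 - r := by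
  have hK : IsCompact (Set.pi Set.univ fun _ : J => PS d) := isCompact_univ_pi fun _ => ps_compact
  obtain ⟨O, hO⟩ : ∃ O : {U : Matrix (Fin d) (Fin d) ℂ // Uᴴ * U = 1 ∧ U * Uᴴ = 1} × ℕ →
      Set (J → Matrix (Fin d) (Fin d) ℂ), ∀ x, O x = ⋂ j, ⋂ l, {P |
      nq (P j *ᵥ (x.1.1 *ᵥ b l)) < 1 - 1 / ((x.2 : ℝ) + 1)} := ⟨_, fun _ => rfl⟩
  have hopen : ∀ x, IsOpen (O x) := by
    intro x
    rw [hO]
    refine isOpen_iInter_of_finite fun j => isOpen_iInter_of_finite fun l => ?_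
    refine isOpen_lt ?_ continuous_const
    have : (fun P : J → Matrix (Fin d) (Fin d) ℂ => nq (P j *ᵥ (x.1.1 *ᵥ b l))) =
        fun P => ∑ i, ‖∑ k, P j i k * (x.1.1 *ᵥ b l) k‖ ^ 2 := rfl
    rw [this]
    refine continuous_finsetSum _ fun i _ => ?_
    refine (Continuous.norm (continuous_finsetSum _ fun k _ => ?_)).pow 2
    refine Continuous.mul ?_ continuous_const
    exact (continuous_apply k).comp ((continuous_apply i).comp (continuous_apply j))
  have hcov : (Set.pi Set.univ fun _ : J => PS d) ⊆ ⋃ x, O x := by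
    intro P hP
    have hP' : ∀ j, P j ∈ PS d := Set.mem_univ_pi.mp hP
    have htr : ∀ j, (P j).trace = ((P j).trace.re : ℂ) := by
      intro j
      have h1 : star (P j).trace = (P j).trace := by
        rw [← trace_conjTranspose, (hP' j).1]
      exact (Complex.conj_eq_iff_re.mp h1).symm
    obtain ⟨U, hU, hlt⟩ := exists_rot hd (fun j => ⟨(hP' j).1, (hP' j).2.1⟩) htr
      (fun j => (hP' j).2.2) hb
    have hn : ∃ n : ℕ, ∀ j l, nq (P j *ᵥ (U *ᵥ b l)) < 1 - 1 / ((n : ℝ) + 1) := by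
      have h1 : ∀ x : J × L, ∃ n : ℕ, 1 / ((n : ℝ) + 1) < 1 - nq (P x.1 *ᵥ (U *ᵥ b x.2)) :=
        fun x => exists_nat_one_div_lt (sub_pos.mpr (hlt x.1 x.2))
      choose f hf using h1
      refine ⟨Finset.univ.sup f, fun j l => ?_⟩
      have h2 := hf (j, l)
      have h3 : f (j, l) ≤ Finset.univ.sup f := Finset.le_sup (Finset.mem_univ _)
      have h4 : (f (j, l) : ℝ) ≤ ((Finset.univ.sup f : ℕ) : ℝ) := by exact_mod_cast h3
      have h5 : 1 / (((Finset.univ.sup f : ℕ) : ℝ) + 1) ≤ 1 / ((f (j, l) : ℝ) + 1) :=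
        one_div_le_one_div_of_le (by positivity) (by linarith)
      linarith
    obtain ⟨n, hn⟩ := hn
    refine Set.mem_iUnion.mpr ⟨(⟨U, hU⟩, n), ?_⟩
    rw [hO]
    exact Set.mem_iInter.mpr fun j => Set.mem_iInter.mpr fun l => hn j l
  obtain ⟨t, ht⟩ := hK.elim_finite_subcover O hopen hcov
  refine ⟨1 / ((t.sup Prod.snd : ℕ) + 1 : ℝ), by positivity, ?_, fun P hP => ?_⟩
  · rw [div_le_one (by positivity)]
    have : (0 : ℝ) ≤ ((t.sup Prod.snd : ℕ) : ℝ) := Nat.cast_nonneg _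
    linarith
  · have h1 := ht (Set.mem_univ_pi.mpr hP)
    obtain ⟨x, h1⟩ := Set.mem_iUnion.mp h1
    obtain ⟨hx, h1⟩ := Set.mem_iUnion.mp h1
    rw [hO] at h1
    refine ⟨x.1.1, x.1.2, fun j l => ?_⟩
    have h2 : nq (P j *ᵥ (x.1.1 *ᵥ b l)) < 1 - 1 / ((x.2 : ℝ) + 1) :=
      Set.mem_iInter.mp (Set.mem_iInter.mp h1 j) l
    have h3 : x.2 ≤ t.sup Prod.snd := Finset.le_sup (f := Prod.snd) hx
    have h4 : (x.2 : ℝ) ≤ ((t.sup Prod.snd : ℕ) : ℝ) := by exact_mod_cast h3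
    have h5 : 1 / (((t.sup Prod.snd : ℕ) : ℝ) + 1) ≤ 1 / ((x.2 : ℝ) + 1) :=
      one_div_le_one_div_of_le (by positivity) (by linarith)
    linarith

end Vale.Agent.P372.Ou
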