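import Vale.Agent.P372.TestDefs

open Matrix
open scoped ComplexOrder

namespace Vale.Agent.P372

/-- The tensor product of the operators `X i`, `i : Fin n`. -/
def tens {A : Type} {n : ℕ} (X : Fin n → Matrix A A ℂ) : Matrix (Fin n → A) (Fin n → A) ℂ :=
  fun a b => ∏ i, X i (a i) (b i)

/-- The operators `P k` on `n` systems are possible effects after a measurement, with a menu of at
most `M` Kraus operators of rank at most `r`, of each of the systems in `S`: there are operators
`V i j` (`i` is a system and `j = 1, …, M`) of rank at most `r` and positive operators `Z k w` with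
`P k = ∑ w, V_w* (Z k w) V_w`, where `w` runs over the choices of `w i ∈ {1, …, M}` for all systems
and `V_w` is the tensor product of the `V i (w i)` on the systems `i` in `S` and of the identity on
the others. -/
def Menu {A κ : Type} [Fintype A] [DecidableEq A] {n : ℕ} (M r : ℕ) (S : Finset (Fin n))
    (P : κ → Matrix (Fin n → A) (Fin n → A) ℂ) : Prop :=
  ∃ V : Fin n → Fin M → Matrix A A ℂ, (∀ i j, (V i j).rank ≤ r) ∧
    ∀ k, ∃ Z : (Fin n → Fin M) → Matrix (Fin n → A) (Fin n → A) ℂ, (∀ w, (Z w).PosSemidef) ∧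
      P k = ∑ w, (tens fun i => if i ∈ S then V i (w i) else 1)ᴴ * Z w *
        (tens fun i => if i ∈ S then V i (w i) else 1)

/-- No protocol on any number `n` of copies of the state `ρ` makes a key (even of one bit) with
error at most `1/64`, provided that for every transcript `t` there is a set `S` of copies such that
Alice's effects `f t k` are effects after a measurement, with at most `M` Kraus operators of rank at
most `r`, of each of the copies in `S`, and so are Bob's effects `g t k` for the other copies. -/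
def NoKeyMenu {A B : Type} [Fintype A] [DecidableEq A] [Fintype B] [DecidableEq B]
    (ρ : Matrix (A × B) (A × B) ℂ) (M r : ℕ) : Prop :=
  ∀ (E : Type) [Fintype E] [DecidableEq E] (Ψ : Matrix (A × B) E ℂ), Ψ * Ψᴴ = ρ →
  ∀ (n ℓ : ℕ), 0 < ℓ → ∀ (T : Type) [Fintype T]
    (f : T → (Fin ℓ → Bool) → Matrix (Fin n → A) (Fin n → A) ℂ)
    (g : T → (Fin ℓ → Bool) → Matrix (Fin n → B) (Fin n → B) ℂ),
    LOCC (Fin ℓ → Bool) (Fin n → A) (Fin n → B) T f g →
    (∀ t, ∃ S : Finset (Fin n), Menu M r S (f t) ∧ Menu M r Sᶜ (g t)) →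
    ¬ KeyError f g (copies n Ψ) (1 / 64)

/-- The operators `P x` are a measurement (POVM). -/
def IsMeas {X E : Type} [Fintype X] [DecidableEq E] (P : X → Matrix E E ℂ) : Prop :=
  (∀ x, (P x).PosSemidef) ∧ ∑ x, P x = 1

/-- The operator `Q` on `n` systems is an effect of the classical data which one obtains by the
measurement `P` of each of the systems. -/
def FromData {X E : Type} [Fintype X] {n : ℕ} (P : X → Matrix E E ℂ)
    (Q : Matrix (Fin n → E) (Fin n → E) ℂ) : Prop :=
  ∃ q : (Fin n → X) → ℝ, (∀ w, 0 ≤ q w) ∧ Q = ∑ w, (q w : ℂ) • tens fun i => P (w i)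

/-- The data of the measurements `P` of Alice and `Q` of Bob on the state `ρ` are bound information:
if Eve holds any purification `Ψ` of `ρ`, then
* no measurement `F` of Eve makes the outcomes `x` of Alice and `y` of Bob independent, given her
  outcome: for some `z` the probability of `x`, `y`, `z` is not of the form `a x * b y`;
* no protocol on any number `n` of copies makes a key (even of one bit) with error at most `1/64`,
  if for every transcript Alice's effects, or Bob's effects, are effects of the data. -/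
def BoundInfo {A B X Y : Type} [Fintype A] [DecidableEq A] [Fintype B] [DecidableEq B]
    [Fintype X] [Fintype Y] (ρ : Matrix (A × B) (A × B) ℂ) (P : X → Matrix A A ℂ)
    (Q : Y → Matrix B B ℂ) : Prop :=
  ∀ (E : Type) [Fintype E] [DecidableEq E] (Ψ : Matrix (A × B) E ℂ), Ψ * Ψᴴ = ρ →
    (∀ (Z : Type) [Fintype Z] (F : Z → Matrix E E ℂ), IsMeas F →
      ∃ z, ∀ (a : X → ℂ) (b : Y → ℂ), ∃ x y, (F z * eve Ψ (P x) (Q y)).trace ≠ a x * b y) ∧
    ∀ (n ℓ : ℕ), 0 < ℓ → ∀ (T : Type) [Fintype T]
      (f : T → (Fin ℓ → Bool) → Matrix (Fin n → A) (Fin n → A) ℂ)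
      (g : T → (Fin ℓ → Bool) → Matrix (Fin n → B) (Fin n → B) ℂ),
      LOCC (Fin ℓ → Bool) (Fin n → A) (Fin n → B) T f g →
      (∀ t, (∀ k, FromData P (f t k)) ∨ ∀ k, FromData Q (g t k)) →
      ¬ KeyError f g (copies n Ψ) (1 / 64)

/-- The operator on `(C^g ⊗ C^k) ⊗ (C^g ⊗ C^k)` which swaps Alice's and Bob's systems `C^k`. -/
def swapK (g k : ℕ) :
    Matrix ((Fin g × Fin k) × (Fin g × Fin k)) ((Fin g × Fin k) × (Fin g × Fin k)) ℂ :=
  fun p q => if p.1.1 = q.1.1 ∧ p.2.1 = q.2.1 ∧ p.1.2 = q.2.2 ∧ p.2.2 = q.1.2 then 1 else 0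

/-- The separable state `(k - swapK) / (g² k (k² - 1))` of two systems `C^g ⊗ C^k`. -/
noncomputable def sepState (g k : ℕ) :
    Matrix ((Fin g × Fin k) × (Fin g × Fin k)) ((Fin g × Fin k) × (Fin g × Fin k)) ℂ :=
  ((((g : ℝ) ^ 2 * k * (k ^ 2 - 1))⁻¹ : ℝ) : ℂ) • ((k : ℂ) • 1 - swapK g k)

/-- The swap of `C^d ⊗ C^d`. -/
def swapD (d : ℕ) : Matrix (Fin d × Fin d) (Fin d × Fin d) ℂ :=
  fun p q => if p.1 = q.2 ∧ p.2 = q.1 then 1 else 0

/-- The Werner state `(1 - t F) / (d² - t d)` of `C^d ⊗ C^d`, where `F` is the swap. -/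
noncomputable def wernerState (d : ℕ) (t : ℝ) : Matrix (Fin d × Fin d) (Fin d × Fin d) ℂ :=
  ((((d : ℝ) ^ 2 - t * d)⁻¹ : ℝ) : ℂ) • (1 - (t : ℂ) • swapD d)

/-- The partial transpose (on Bob's system). -/
def parTranspose {A B : Type} (ρ : Matrix (A × B) (A × B) ℂ) : Matrix (A × B) (A × B) ℂ :=
  fun p q => ρ (p.1, q.2) (q.1, p.2)

end Vale.Agent.P372
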