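import Vale.Agent.P372.R2.helper492.Ou.Many
import Vale.Agent.P372.R2.helper492.Ou.Avoid
import Vale.Agent.P372.R2.helper492.Ou.Defs
import Vale.Agent.P372.R2.helper492.SiteFinal

/-! From the certificates to protocols. -/

open Matrix Kronecker
open scoped ComplexOrder MatrixOrder

set_option linter.unusedSectionVars false

namespace Vale.Agent.P372.Ou

open Vale.Agent.P372.Half (tf)
open Vale.Agent.P372.PC (IsPr)

theorem fcalc_trace {E : Type} [Fintype E] [DecidableEq E] {A : Matrix E E ℂ} (hA : A.IsHermitian)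
    (f : ℝ → ℝ) : (fcalc hA f).trace = ∑ i, (f (hA.eigenvalues i) : ℂ) := by
  rw [fcalc, trace_mul_comm, ← Matrix.mul_assoc, eigU_mul' hA, one_mul]
  simp only [Matrix.trace, Matrix.diag, diagonal_apply_eq]

/-- The projection on the support of an operator. -/
theorem exists_supp {A : Type} [Fintype A] [DecidableEq A] (V : Matrix A A ℂ) :
    ∃ P : Matrix A A ℂ, IsPr P ∧ V * P = V ∧ P.trace = ((V.rank : ℝ) : ℂ) := by
  have hX : (Vᴴ * V).IsHermitian := isHermitian_conjTranspose_mul_self V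
  obtain ⟨P, hP⟩ : ∃ P, P = fcalc hX (fun x => if x = 0 then 0 else 1) := ⟨_, rfl⟩
  have hPH : Pᴴ = P := by rw [hP]; exact (fcalc_isHermitian hX _).eq
  have hPP : P * P = P := by
    rw [hP, fcalc_mul]
    refine fcalc_congr hX fun i => ?_
    split_ifs <;> norm_num
  have hXP : Vᴴ * V * P = Vᴴ * V := by
    rw [hP, self_mul_fcalc]
    refine fcalc_eq_self hX fun i => ?_
    split_ifs with h
    · rw [h, mul_zero]
    · rw [mul_one]
  refine ⟨P, ⟨hPH, hPP⟩, ?_, ?_⟩
  · have h1 : (V * (1 - P))ᴴ * (V * (1 - P)) = 0 := by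
      rw [conjTranspose_mul, Matrix.mul_assoc, ← Matrix.mul_assoc Vᴴ, Matrix.mul_sub, mul_one, hXP,
        sub_self, Matrix.mul_zero]
    have h2 := conjTranspose_mul_self_eq_zero.mp h1
    rw [Matrix.mul_sub, mul_one] at h2
    exact (sub_eq_zero.mp h2).symm
  · have h1 : P.trace = ∑ i, (if hX.eigenvalues i = 0 then (0 : ℂ) else 1) := by
      rw [hP, fcalc_trace]
      refine Finset.sum_congr rfl fun i _ => ?_
      split_ifs <;> simp
    rw [h1, ← rank_conjTranspose_mul_self V, hX.rank_eq_card_non_zero_eigs]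
    simp only [Fintype.card_subtype]
    rw [Finset.sum_ite, Finset.sum_const_zero, zero_add, Finset.sum_const, nsmul_eq_mul, mul_one]
    simp

variable {A B : Type} [Fintype A] [DecidableEq A] [Fintype B] [DecidableEq B]

theorem isPr_one {E : Type} [Fintype E] [DecidableEq E] : IsPr (1 : Matrix E E ℂ) :=
  ⟨conjTranspose_one, one_mul 1⟩

theorem menu_supp {κ : Type} {n M r : ℕ} {S : Finset (Fin n)}
    {P : κ → Matrix (Fin n → A) (Fin n → A) ℂ} (h : Menu M r S P) :
    ∃ p : Fin n → Fin M → Matrix A A ℂ, (∀ i j, IsPr (p i j)) ∧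
      (∀ i ∈ S, ∀ j, (p i j).trace.re ≤ r) ∧ (∀ i ∉ S, ∀ j, p i j = 1) ∧
      ∀ k, Supp p (P k) := by
  obtain ⟨V, hV, hP⟩ := h
  choose q hq1 hq2 hq3 using fun i j => exists_supp (V i j)
  refine ⟨fun i j => if i ∈ S then q i j else 1, fun i j => ?_, fun i hi j => ?_,
    fun i hi j => if_neg hi, fun k => ?_⟩
  · beta_reduce
    split_ifs
    · exact hq1 i j
    · exact isPr_one
  · beta_reduce
    rw [if_pos hi, hq3, Complex.ofReal_re]
    exact_mod_cast hV i j
  · obtain ⟨Z, hZ, hZP⟩ := hP k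
    refine ⟨_, hZP, fun w => ⟨?_, ?_⟩⟩
    · exact (hZ w).conjTranspose_mul_mul_same _
    · have e1 : (tens fun i => if i ∈ S then V i (w i) else 1) *
          piT (fun i => if i ∈ S then q i (w i) else 1) =
          (tens fun i => if i ∈ S then V i (w i) else 1) := by
        change piT (fun i => if i ∈ S then V i (w i) else 1) * _ =
          piT (fun i => if i ∈ S then V i (w i) else 1)
        rw [← piT_mul]
        congr 1
        funext i
        split_ifs
        · exact hq2 i (w i)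
        · exact one_mul 1
      have e2 : piT (fun i => if i ∈ S then q i (w i) else 1) *
          (tens fun i => if i ∈ S then V i (w i) else 1)ᴴ =
          (tens fun i => if i ∈ S then V i (w i) else 1)ᴴ := by
        have h2 := congrArg conjTranspose e1
        rw [conjTranspose_mul] at h2
        rw [← h2]
        congr 1
        rw [piT_conjTranspose]
        congr 1
        funext i
        split_ifs
        · exact (hq1 i (w i)).1.symm
        · exact conjTranspose_one.symm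
      calc _ = (piT (fun i => if i ∈ S then q i (w i) else 1) *
            (tens fun i => if i ∈ S then V i (w i) else 1)ᴴ) * Z w *
            ((tens fun i => if i ∈ S then V i (w i) else 1) *
              piT (fun i => if i ∈ S then q i (w i) else 1)) := by
            simp only [Matrix.mul_assoc]
        _ = _ := by rw [e1, e2]

theorem Supp.zero {ι E J : Type} [Fintype ι] [DecidableEq ι] [Fintype E] [DecidableEq E]
    [Fintype J] (p : ι → J → Matrix E E ℂ) : Supp p (0 : Matrix (ι → E) (ι → E) ℂ) :=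
  ⟨fun _ => 0, by simp, fun w => ⟨PosSemidef.zero, by simp⟩⟩

theorem Supp.sum {ι E J κ : Type} [Fintype ι] [DecidableEq ι] [Fintype E] [DecidableEq E]
    [Fintype J] {p : ι → J → Matrix E E ℂ} (s : Finset κ) {P : κ → Matrix (ι → E) (ι → E) ℂ}
    (h : ∀ k ∈ s, Supp p (P k)) : Supp p (∑ k ∈ s, P k) := by
  classical
  induction s using Finset.induction_on with
  | empty =>
    rw [Finset.sum_empty]
    exact Supp.zero p
  | insert a s ha ih =>
    rw [Finset.sum_insert ha]
    exact (h a (Finset.mem_insert_self a s)).add (ih fun k hk => h k (Finset.mem_insert_of_mem hk))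

/-- Labelled decompositions which exclude key when Alice's effects have the supports `p`. -/
def DatA {J L : Type} [Fintype L] [DecidableEq L] (R : Matrix (A × B) (A × B) ℂ)
    (p : J → Matrix A A ℂ) (α : L → Matrix A A ℂ) (β : L → Matrix B B ℂ)
    (K : L → Matrix (A × B) (A × B) ℂ) : Prop :=
  (∀ l, (α l)ᴴ = α l) ∧ (∀ l, (β l).PosSemidef) ∧ ∑ l, α l ⊗ₖ β l = R ∧
    (∀ l, R * K l = α l ⊗ₖ β l) ∧ (∀ l j, (p j * α l * p j).PosSemidef) ∧
    ∀ j, Ct (fun l => α l ⊗ₖ β l) K (p j ⊗ₖ 1)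

/-- The same for Bob. -/
def DatB {J L : Type} [Fintype L] [DecidableEq L] (R : Matrix (A × B) (A × B) ℂ)
    (p : J → Matrix B B ℂ) (α : L → Matrix A A ℂ) (β : L → Matrix B B ℂ)
    (K : L → Matrix (A × B) (A × B) ℂ) : Prop :=
  (∀ l, (α l).PosSemidef) ∧ (∀ l, (β l)ᴴ = β l) ∧ ∑ l, α l ⊗ₖ β l = R ∧
    (∀ l, R * K l = α l ⊗ₖ β l) ∧ (∀ l j, (p j * β l * p j).PosSemidef) ∧
    ∀ j, Ct (fun l => α l ⊗ₖ β l) K (1 ⊗ₖ p j)

/-- From labelled decompositions to protocols. -/
theorem noKey_of_dat {L : Type} [Fintype L] [DecidableEq L] {R : Matrix (A × B) (A × B) ℂ}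
    {c : ℝ} (hc : 0 ≤ c) (hR : R.PosSemidef) (M r : ℕ)
    (hA : ∀ p : Fin M → Matrix A A ℂ, (∀ j, IsPr (p j) ∧ (p j).trace.re ≤ r) →
      ∃ (α : L → Matrix A A ℂ) (β : L → Matrix B B ℂ) (K : L → Matrix (A × B) (A × B) ℂ),
        DatA R p α β K)
    (hB : ∀ p : Fin M → Matrix B B ℂ, (∀ j, IsPr (p j) ∧ (p j).trace.re ≤ r) →
      ∃ (α : L → Matrix A A ℂ) (β : L → Matrix B B ℂ) (K : L → Matrix (A × B) (A × B) ℂ),
        DatB R p α β K) : NoKeyMenu ((c : ℂ) • R) M r := by
  intro E _ _ Ψ hΨ n ℓ hℓ T _ f g hL hS herr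
  obtain ⟨hf, hg⟩ := PC.locc_psd hL
  obtain ⟨t, X, Y, hX, hY, hlt⟩ := PC.test_of_keyError (copies n Ψ) ⟨0, hℓ⟩ f g hf hg herr
  rw [PC.copies_mul, hΨ, PC.tpow_smul] at hlt
  obtain ⟨S, hSA, hSB⟩ := hS t
  obtain ⟨p, hp1, hp2, hp3, hp4⟩ := menu_supp hSA
  obtain ⟨q, hq1, hq2, hq3, hq4⟩ := menu_supp hSB
  have hex : ∀ i, ∃ (α : L → Matrix A A ℂ) (β : L → Matrix B B ℂ)
      (K : L → Matrix (A × B) (A × B) ℂ), (∀ l, (α l)ᴴ = α l) ∧ (∀ l, (β l)ᴴ = β l) ∧
      ∑ l, α l ⊗ₖ β l = R ∧ (∀ l, R * K l = α l ⊗ₖ β l) ∧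
      (∀ l j, (p i j * α l * p i j).PosSemidef) ∧ (∀ l j, (q i j * β l * q i j).PosSemidef) ∧
      ∀ j j', Ct (fun l => α l ⊗ₖ β l) K (p i j ⊗ₖ q i j') := by
    intro i
    by_cases hi : i ∈ S
    · obtain ⟨α, β, K, h1, h2, h3, h4, h5, h6⟩ := hA (p i) fun j => ⟨hp1 i j, hp2 i hi j⟩
      have hi' : i ∉ Sᶜ := fun h => Finset.mem_compl.mp h hi
      refine ⟨α, β, K, h1, fun l => (h2 l).isHermitian.eq, h3, h4, h5, fun l j => ?_,
        fun j j' => ?_⟩
      · rw [hq3 i hi' j, one_mul, mul_one]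
        exact h2 l
      · rw [hq3 i hi' j']
        exact h6 j
    · have hi' : i ∈ Sᶜ := Finset.mem_compl.mpr hi
      obtain ⟨α, β, K, h1, h2, h3, h4, h5, h6⟩ := hB (q i) fun j => ⟨hq1 i j, hq2 i hi' j⟩
      refine ⟨α, β, K, fun l => (h1 l).isHermitian.eq, h2, h3, h4, fun l j => ?_, h5,
        fun j j' => ?_⟩
      · rw [hp3 i hi j, one_mul, mul_one]
        exact h1 l
      · rw [hp3 i hi j]
        exact h6 j'
  choose α β K h1 h2 h3 h4 h5 h6 h7 using hex
  have hXs : ∀ b, Supp p ((X b)ᴴ * X b) := by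
    intro b
    rw [hX b]
    refine Supp.sum _ fun k _ => ?_
    split_ifs
    · exact hp4 k
    · exact Supp.zero p
  have hYs : ∀ b, Supp q ((Y b)ᴴ * Y b) := by
    intro b
    rw [hY b]
    refine Supp.sum _ fun k _ => ?_
    split_ifs
    · exact hq4 k
    · exact Supp.zero q
  have hRn : (tf fun _ : Fin n => R).PosSemidef := PC.tf_posSemidef fun _ => hR
  have hTT : PC.TT (tf fun _ : Fin n => R) (X false) (X true) (Y false) (Y true) := by
    refine TT_of_SO hRn _ _ _ _ fun a b ha hb => ?_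
    exact so_sites h1 h2 h3 h4 h5 h6 h7 ((hXs false).smul ha.le)
      ((hXs true).smul (inv_nonneg.mpr ha.le)) ((hYs false).smul hb.le)
      ((hYs true).smul (inv_nonneg.mpr hb.le))
  exact absurd hlt (not_lt.mpr (PC.TT_smul (pow_nonneg hc n) hTT))

end Vale.Agent.P372.Ou
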