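import Vale.Agent.P372.R2.helper492.Ou.Final

/-! Bound information. -/

open Matrix Kronecker
open scoped ComplexOrder MatrixOrder

set_option linter.unusedSectionVars false

namespace Vale.Agent.P372.Ou

open Vale.Agent.P372.Half (tf)
open Vale.Agent.P372.PC (IsPr pa pa_psd)

section reindex

variable {A B A' B' : Type} [Fintype A] [DecidableEq A] [Fintype B] [DecidableEq B]
  [Fintype A'] [DecidableEq A'] [Fintype B'] [DecidableEq B']

theorem dat_reindex {J L : Type} [Fintype L] [DecidableEq L] {R : Matrix (A × B) (A × B) ℂ}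
    {p : J → Matrix A A ℂ} {a : L → Matrix A A ℂ} {b : L → Matrix B B ℂ}
    {K : L → Matrix (A × B) (A × B) ℂ} (e : A' ≃ A) (f : B' ≃ B) (h : DatA R p a b K) :
    DatA (R.submatrix (e.prodCongr f) (e.prodCongr f)) (fun j => (p j).submatrix e e)
      (fun l => (a l).submatrix e e) (fun l => (b l).submatrix f f)
      (fun l => (K l).submatrix (e.prodCongr f) (e.prodCongr f)) := by
  obtain ⟨h1, h2, h3, h4, h5, h6⟩ := h
  have hmul : ∀ X Y : Matrix (A × B) (A × B) ℂ, (X * Y).submatrix (e.prodCongr f) (e.prodCongr f) =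
      X.submatrix (e.prodCongr f) (e.prodCongr f) * Y.submatrix (e.prodCongr f) (e.prodCongr f) :=
    fun X Y => (submatrix_mul_equiv X Y (e.prodCongr f) (e.prodCongr f) (e.prodCongr f)).symm
  have hmulA : ∀ X Y : Matrix A A ℂ, (X * Y).submatrix e e =
      X.submatrix e e * Y.submatrix e e :=
    fun X Y => (submatrix_mul_equiv X Y e e e).symm
  have hkr : ∀ (X : Matrix A A ℂ) (Y : Matrix B B ℂ),
      (X ⊗ₖ Y).submatrix (e.prodCongr f) (e.prodCongr f) =
        X.submatrix e e ⊗ₖ Y.submatrix f f := by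
    intro X Y
    ext x y
    rfl
  have hone : (1 : Matrix B B ℂ).submatrix f f = 1 := submatrix_one f f.injective
  refine ⟨fun l => ?_, fun l => (h2 l).submatrix _, ?_, fun l => ?_, fun l j => ?_, fun j => ?_⟩
  · rw [conjTranspose_submatrix, h1]
  · rw [← h3]
    ext x y
    simp only [submatrix_apply, Matrix.sum_apply, kroneckerMap_apply]
    rfl
  · rw [← hmul, h4, hkr]
  · rw [← hmulA, ← hmulA]
    exact (h5 l j).submatrix _
  · obtain ⟨k1, k2⟩ := h6 j
    have e1 : ∀ l l' : L, ((p j).submatrix e e ⊗ₖ (1 : Matrix B' B' ℂ)) *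
        (((a l).submatrix e e ⊗ₖ (b l).submatrix f f) *
          (K l').submatrix (e.prodCongr f) (e.prodCongr f)) *
        ((p j).submatrix e e ⊗ₖ (1 : Matrix B' B' ℂ)) =
        ((p j ⊗ₖ 1) * ((a l ⊗ₖ b l) * K l') * (p j ⊗ₖ 1)).submatrix (e.prodCongr f)
          (e.prodCongr f) := by
      intro l l'
      rw [hmul, hmul, hmul, hkr, hkr, hone]
    have e2 : ∀ l : L, ((p j).submatrix e e ⊗ₖ (1 : Matrix B' B' ℂ)) *
        ((a l).submatrix e e ⊗ₖ (b l).submatrix f f) *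
        ((p j).submatrix e e ⊗ₖ (1 : Matrix B' B' ℂ)) =
        ((p j ⊗ₖ 1) * (a l ⊗ₖ b l) * (p j ⊗ₖ 1)).submatrix (e.prodCongr f) (e.prodCongr f) := by
      intro l
      rw [hmul, hmul, hkr, hkr, hone]
    have e3 : Hm (fun l => (a l).submatrix e e ⊗ₖ (b l).submatrix f f)
        (fun l => (K l).submatrix (e.prodCongr f) (e.prodCongr f)) ((p j).submatrix e e ⊗ₖ 1) =
        (Hm (fun l => a l ⊗ₖ b l) K (p j ⊗ₖ 1)).submatrix
        (fun x => (x.1, e.prodCongr f x.2)) (fun x => (x.1, e.prodCongr f x.2)) := by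
      ext x y
      rw [submatrix_apply, Hm, Hm, e1]
      rfl
    have e4 : Dm (fun l => (a l).submatrix e e ⊗ₖ (b l).submatrix f f)
        ((p j).submatrix e e ⊗ₖ 1) = (Dm (fun l => a l ⊗ₖ b l)
        (p j ⊗ₖ 1)).submatrix (fun x => (x.1, e.prodCongr f x.2))
          (fun x => (x.1, e.prodCongr f x.2)) := by
      ext x y
      rw [submatrix_apply, Dm, Dm, e2]
      rfl
    refine ⟨?_, ?_⟩
    · rw [e3]
      exact k1.submatrix _
    · rw [e3, e4]
      exact k2.submatrix (fun x : L × (A' × B') => ((x.1, e.prodCongr f x.2) : L × (A × B)))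

end reindex

variable {g k : ℕ}

/-- The neighbourhood theorem for single copies. -/
theorem nb_single (g k m M : ℕ) (hg : 0 < g) (hk : 2 * m + 2 ≤ k) :
    ∃ ε : ℝ, 0 < ε ∧ ∀ R, Bd (R - base g k) ε → ∀ c : ℝ, 0 ≤ c →
      NoKeyMenu ((c : ℂ) • R) M m := by
  obtain ⟨ε, hε, key⟩ := nb_dat g k m M 1 hg hk
  obtain ⟨e, he⟩ : ∃ e : Fin g × Fin k ≃ (Fin 1 → Fin g × Fin k),
      e = (Equiv.funUnique (Fin 1) (Fin g × Fin k)).symm := ⟨_, rfl⟩
  have he0 : ∀ x i, e x i = x := by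
    intro x i
    rw [he]
    rfl
  have key' : ∀ R : Matrix ((Fin g × Fin k) × (Fin g × Fin k))
        ((Fin g × Fin k) × (Fin g × Fin k)) ℂ, Bd (R - base g k) ε →
      R.PosSemidef ∧
      ∀ P : Fin M → Matrix (Fin g × Fin k) (Fin g × Fin k) ℂ,
        (∀ j, IsPr (P j) ∧ (P j).trace.re ≤ m) →
        ∃ (a b : LL g k 1 → Matrix (Fin g × Fin k) (Fin g × Fin k) ℂ)
          (K : LL g k 1 → Matrix ((Fin g × Fin k) × (Fin g × Fin k))
            ((Fin g × Fin k) × (Fin g × Fin k)) ℂ), DatA R P a b K := by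
    intro R hR
    obtain ⟨hpd, hA⟩ := key R hR
    have hRe : (tf fun _ : Fin 1 => R).submatrix (e.prodCongr e) (e.prodCongr e) = R := by
      ext x y
      rw [submatrix_apply, PC.tf_apply, Fin.prod_univ_one]
      change R (e x.1 0, e x.2 0) (e y.1 0, e y.2 0) = R x y
      rw [he0, he0, he0, he0]
    refine ⟨?_, fun P hP => ?_⟩
    · have := hpd.posSemidef.submatrix (e.prodCongr e)
      rwa [hRe] at this
    · have hP' : ∀ j, IsPr ((P j).submatrix e.symm e.symm) ∧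
          ((P j).submatrix e.symm e.symm).trace.re ≤ m := by
        intro j
        refine ⟨⟨?_, ?_⟩, ?_⟩
        · rw [conjTranspose_submatrix, (hP j).1.1]
        · rw [submatrix_mul_equiv, (hP j).1.2]
        · have : ((P j).submatrix e.symm e.symm).trace = (P j).trace := by
            simp only [Matrix.trace, Matrix.diag, submatrix_apply]
            exact e.symm.sum_comp fun x => P j x x
          rw [this]
          exact (hP j).2
      obtain ⟨a, b, K, h⟩ := hA _ hP'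
      have h' := dat_reindex e e h
      rw [hRe] at h'
      have hPe : (fun j => ((P j).submatrix e.symm e.symm).submatrix e e) = P := by
        funext j
        ext x y
        simp only [submatrix_apply, Equiv.symm_apply_apply]
      rw [hPe] at h'
      exact ⟨_, _, _, h'⟩
  refine ⟨ε, hε, fun R hR c hc => ?_⟩
  obtain ⟨hpd, hA⟩ := key' R hR
  have hRs : Bd (R.submatrix Prod.swap Prod.swap - base g k) ε := by
    have h1 := hR.subm (Y := (Fin g × Fin k) × (Fin g × Fin k)) (e := Prod.swap)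
      Prod.swap_injective
    have e : (R - base g k).submatrix Prod.swap Prod.swap =
        R.submatrix Prod.swap Prod.swap - base g k := by
      conv_rhs => rw [← base_swap]
      rfl
    rwa [e] at h1
  obtain ⟨-, hB⟩ := key' _ hRs
  refine noKey_of_dat (L := LL g k 1) hc hpd M m hA fun p hp => ?_
  obtain ⟨a, b, K, h⟩ := hB p hp
  exact ⟨b, a, _, dat_swap h⟩

section sep

variable {A B : Type} [Fintype A] [DecidableEq A] [Fintype B] [DecidableEq B]

theorem psd_zero {X : Type} [Fintype X] [DecidableEq X] {W : Matrix X X ℂ} (h : W.PosSemidef)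
    (ht : W.trace = 0) : W = 0 := by
  obtain ⟨C, rfl⟩ := exists_eq_conjTranspose_mul_self h
  rw [trace_conjTranspose_mul_self] at ht
  have h1 : hs C = 0 := by exact_mod_cast ht
  have h2 : C = 0 := by
    ext i j
    have h3 := (Finset.sum_eq_zero_iff_of_nonneg (fun i _ => Finset.sum_nonneg fun j _ =>
      by positivity)).mp h1 i (Finset.mem_univ i)
    have h4 := (Finset.sum_eq_zero_iff_of_nonneg (fun j _ => by positivity)).mp h3 j
      (Finset.mem_univ j)
    have h5 : ‖C i j‖ = 0 := pow_eq_zero_iff (two_ne_zero) |>.mp h4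
    simpa using h5
  rw [h2, Matrix.mul_zero]

theorem prod_psd {α : Matrix A A ℂ} {β : Matrix B B ℂ} (h : (α ⊗ₖ β).PosSemidef) :
    ∃ (α' : Matrix A A ℂ) (β' : Matrix B B ℂ), α'.PosSemidef ∧ β'.PosSemidef ∧
      α ⊗ₖ β = α' ⊗ₖ β' := by
  have ht : (α ⊗ₖ β).trace = α.trace * β.trace := trace_kronecker _ _
  obtain ⟨h0, h0'⟩ := re_nonneg h.trace_nonneg
  have e1 : pa (1 : Matrix A A ℂ) (α ⊗ₖ β) = α.trace • β := by
    rw [pa_kron, one_mul]
  have e2 : pa (1 : Matrix B B ℂ) ((α ⊗ₖ β).submatrix Prod.swap Prod.swap) = β.trace • α := by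
    have : (α ⊗ₖ β).submatrix Prod.swap Prod.swap = β ⊗ₖ α := by
      ext x y
      simp only [submatrix_apply, kroneckerMap_apply, Prod.fst_swap, Prod.snd_swap]
      exact mul_comm _ _
    rw [this, pa_kron, one_mul]
  have p1 := pa_psd (v := (1 : Matrix A A ℂ)) PosSemidef.one h
  have p2 := pa_psd (v := (1 : Matrix B B ℂ)) PosSemidef.one (h.submatrix Prod.swap)
  rw [e1] at p1
  rw [e2] at p2
  by_cases hz : (α ⊗ₖ β).trace = 0
  · refine ⟨0, 0, PosSemidef.zero, PosSemidef.zero, ?_⟩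
    rw [psd_zero h hz, zero_kronecker]
  · refine ⟨β.trace • α, (((α ⊗ₖ β).trace.re⁻¹ : ℝ) : ℂ) • (α.trace • β), p2,
      p1.smul (Complex.zero_le_real.mpr (inv_nonneg.mpr h0)), ?_⟩
    have hz' : ((α ⊗ₖ β).trace.re : ℂ) ≠ 0 := by rw [← h0']; exact hz
    rw [smul_kronecker, kronecker_smul, kronecker_smul, smul_smul, smul_smul, Complex.ofReal_inv,
      ← h0', ht]
    have hz2 : α.trace * β.trace ≠ 0 := by rw [← ht]; exact hz
    have : β.trace * (α.trace * β.trace)⁻¹ * α.trace = 1 := by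
      rw [mul_right_comm, mul_comm β.trace, mul_inv_cancel₀ hz2]
    rw [this, one_smul]

theorem prod_of_data {X Y : Type} [Fintype X] [Fintype Y] {P D : X → Matrix A A ℂ}
    {Q D' : Y → Matrix B B ℂ}
    (hP : ∀ z z' y y', ∑ x, P x z z' * D x y y' = if y = z' ∧ z = y' then 1 else 0)
    (hQ : ∀ z z' y y', ∑ x, Q x z z' * D' x y y' = if y = z' ∧ z = y' then 1 else 0)
    {R : Matrix (A × B) (A × B) ℂ} {a : X → ℂ} {b : Y → ℂ}
    (h : ∀ x y, ((P x ⊗ₖ Q y) * R).trace = a x * b y) :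
    R = (∑ x, a x • D x) ⊗ₖ (∑ y, b y • D' y) := by
  ext ⟨y₁, y₂⟩ ⟨y₁', y₂'⟩
  have e1 : ((∑ x, a x • D x) ⊗ₖ (∑ y, b y • D' y)) (y₁, y₂) (y₁', y₂') =
      ∑ x, ∑ y, ((P x ⊗ₖ Q y) * R).trace * (D x y₁ y₁' * D' y y₂ y₂') := by
    rw [kroneckerMap_apply, Matrix.sum_apply, Matrix.sum_apply, Finset.sum_mul_sum]
    refine Finset.sum_congr rfl fun x _ => Finset.sum_congr rfl fun y _ => ?_
    rw [h, Matrix.smul_apply, Matrix.smul_apply, smul_eq_mul, smul_eq_mul]
    ring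
  have e2 : ∀ x y, ((P x ⊗ₖ Q y) * R).trace * (D x y₁ y₁' * D' y y₂ y₂') =
      ∑ p : A × B, ∑ q : A × B, R q p * ((P x p.1 q.1 * D x y₁ y₁') *
        (Q y p.2 q.2 * D' y y₂ y₂')) := by
    intro x y
    simp only [Matrix.trace, Matrix.diag, Matrix.mul_apply, kroneckerMap_apply, Finset.sum_mul]
    refine Finset.sum_congr rfl fun p _ => Finset.sum_congr rfl fun q _ => ?_
    ring
  have e3 : ∑ x, ∑ y, ∑ p : A × B, ∑ q : A × B, R q p * ((P x p.1 q.1 * D x y₁ y₁') *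
        (Q y p.2 q.2 * D' y y₂ y₂')) = ∑ p : A × B, ∑ q : A × B, R q p *
        ((∑ x, P x p.1 q.1 * D x y₁ y₁') * (∑ y, Q y p.2 q.2 * D' y y₂ y₂')) := by
    have e4 : ∀ x, ∑ y, ∑ p : A × B, ∑ q : A × B, R q p * ((P x p.1 q.1 * D x y₁ y₁') *
        (Q y p.2 q.2 * D' y y₂ y₂')) = ∑ p : A × B, ∑ q : A × B, R q p *
        ((P x p.1 q.1 * D x y₁ y₁') * (∑ y, Q y p.2 q.2 * D' y y₂ y₂')) := by
      intro x
      rw [Finset.sum_comm]
      refine Finset.sum_congr rfl fun p _ => ?_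
      rw [Finset.sum_comm]
      refine Finset.sum_congr rfl fun q _ => ?_
      rw [Finset.mul_sum, Finset.mul_sum]
    simp only [e4]
    rw [Finset.sum_comm]
    refine Finset.sum_congr rfl fun p _ => ?_
    rw [Finset.sum_comm]
    refine Finset.sum_congr rfl fun q _ => ?_
    rw [Finset.sum_mul, Finset.mul_sum]
  rw [e1]
  simp only [e2]
  rw [e3]
  simp only [hP, hQ]
  rw [Finset.sum_eq_single (y₁', y₂'), Finset.sum_eq_single (y₁, y₂)]
  · simp
  · rintro ⟨c₁, c₂⟩ _ hne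
    by_cases h1 : y₁ = c₁
    · by_cases h2 : y₂ = c₂
      · exact absurd (by rw [h1, h2]) hne
      · simp [h2]
    · simp [h1]
  · simp
  · rintro ⟨c₁, c₂⟩ _ hne
    refine Finset.sum_eq_zero fun q _ => ?_
    by_cases h1 : c₁ = y₁'
    · by_cases h2 : c₂ = y₂'
      · exact absurd (by rw [h1, h2]) hne
      · simp [h2]
    · simp [h1]
  · simp

theorem eve_trace {E : Type} [Fintype E] [DecidableEq E] (Ψ : Matrix (A × B) E ℂ)
    (F : Matrix E E ℂ) (M : Matrix A A ℂ) (N : Matrix B B ℂ) :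
    (F * eve Ψ M N).trace = ((M ⊗ₖ N) * (Ψ * Fᵀ * Ψᴴ)).trace := by
  have e1 : (F * eve Ψ M N).trace = ∑ e', ∑ e, ∑ p : A × B, ∑ q : A × B,
      (M q.1 p.1 * N q.2 p.2) * (Ψ p e * F e' e * star (Ψ q e')) := by
    simp only [Matrix.trace, Matrix.diag, Matrix.mul_apply, eve, Finset.mul_sum]
    refine Finset.sum_congr rfl fun e' _ => Finset.sum_congr rfl fun e _ =>
      Finset.sum_congr rfl fun p _ => Finset.sum_congr rfl fun q _ => ?_
    ring
  have e2 : ((M ⊗ₖ N) * (Ψ * Fᵀ * Ψᴴ)).trace = ∑ q : A × B, ∑ p : A × B, ∑ e', ∑ e,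
      (M q.1 p.1 * N q.2 p.2) * (Ψ p e * F e' e * star (Ψ q e')) := by
    simp only [Matrix.trace, Matrix.diag, Matrix.mul_apply, kroneckerMap_apply, Finset.mul_sum,
      Finset.sum_mul, transpose_apply, conjTranspose_apply]
  rw [e1, e2]
  calc _ = ∑ w : E × E, ∑ v : (A × B) × (A × B), (M v.2.1 v.1.1 * N v.2.2 v.1.2) *
        (Ψ v.1 w.2 * F w.1 w.2 * star (Ψ v.2 w.1)) := by
        rw [Fintype.sum_prod_type]
        refine Finset.sum_congr rfl fun e' _ => Finset.sum_congr rfl fun e _ => ?_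
        exact (Fintype.sum_prod_type (f := fun v : (A × B) × (A × B) =>
          (M v.2.1 v.1.1 * N v.2.2 v.1.2) * (Ψ v.1 e * F e' e * star (Ψ v.2 e')))).symm
    _ = ∑ v : (A × B) × (A × B), ∑ w : E × E, (M v.2.1 v.1.1 * N v.2.2 v.1.2) *
        (Ψ v.1 w.2 * F w.1 w.2 * star (Ψ v.2 w.1)) := Finset.sum_comm
    _ = ∑ p : A × B, ∑ q : A × B, ∑ e', ∑ e, (M q.1 p.1 * N q.2 p.2) *
        (Ψ p e * F e' e * star (Ψ q e')) := by
        rw [Fintype.sum_prod_type]
        refine Finset.sum_congr rfl fun p _ => Finset.sum_congr rfl fun q _ => ?_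
        rw [Fintype.sum_prod_type]
    _ = _ := Finset.sum_comm

/-- If some measurement of Eve makes informationally complete data independent, the state is
separable. -/
theorem sep_of_indep {X Y : Type} [Fintype X] [Fintype Y] {P D : X → Matrix A A ℂ}
    {Q D' : Y → Matrix B B ℂ}
    (hP : ∀ z z' y y', ∑ x, P x z z' * D x y y' = if y = z' ∧ z = y' then 1 else 0)
    (hQ : ∀ z z' y y', ∑ x, Q x z z' * D' x y y' = if y = z' ∧ z = y' then 1 else 0)
    {E : Type} [Fintype E] [DecidableEq E] {Ψ : Matrix (A × B) E ℂ} {Z : Type} [Fintype Z]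
    {F : Z → Matrix E E ℂ} (hF : IsMeas F)
    (h : ∀ z, ∃ (a : X → ℂ) (b : Y → ℂ), ∀ x y,
      (F z * eve Ψ (P x) (Q y)).trace = a x * b y) : IsSep (Ψ * Ψᴴ) := by
  have h1 : ∀ z, ∃ (α : Matrix A A ℂ) (β : Matrix B B ℂ), α.PosSemidef ∧ β.PosSemidef ∧
      Ψ * (F z)ᵀ * Ψᴴ = α ⊗ₖ β := by
    intro z
    obtain ⟨a, b, hab⟩ := h z
    have h2 := prod_of_data hP hQ (R := Ψ * (F z)ᵀ * Ψᴴ) (a := a) (b := b) fun x y => by
      rw [← eve_trace, hab]
    have h3 : (Ψ * (F z)ᵀ * Ψᴴ).PosSemidef :=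
      (hF.1 z).transpose.mul_mul_conjTranspose_same Ψ
    rw [h2] at h3
    obtain ⟨α, β, hα, hβ, e⟩ := prod_psd h3
    exact ⟨α, β, hα, hβ, h2.trans e⟩
  choose α β hα hβ hαβ using h1
  obtain ⟨e⟩ : Nonempty (Z ≃ Fin (Fintype.card Z)) := ⟨Fintype.equivFin Z⟩
  refine ⟨_, fun r => α (e.symm r), fun r => β (e.symm r), fun r => hα _, fun r => hβ _, ?_⟩
  have e1 : Ψ * Ψᴴ = ∑ z, Ψ * (F z)ᵀ * Ψᴴ := by
    rw [← Matrix.sum_mul, ← Matrix.mul_sum, ← transpose_sum, hF.2, transpose_one, Matrix.mul_one]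
  rw [e1, ← e.symm.sum_comp]
  exact Finset.sum_congr rfl fun r _ => hαβ _

end sep

section menu

variable {A : Type} [Fintype A] [DecidableEq A]

theorem menu_trivial {κ : Type} {n M r : ℕ} (hM : 0 < M)
    {P : κ → Matrix (Fin n → A) (Fin n → A) ℂ} (h : ∀ k, (P k).PosSemidef) :
    Menu M r ∅ P := by
  classical
  refine ⟨fun _ _ => 0, fun _ _ => by simp, fun k => ⟨fun w => if w = fun _ => ⟨0, hM⟩ then P k
    else 0, fun w => ?_, ?_⟩⟩
  · beta_reduce
    split_ifs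
    · exact h k
    · exact PosSemidef.zero
  · have e' : (tens fun i : Fin n => if i ∈ (∅ : Finset (Fin n)) then
        (0 : Matrix A A ℂ) else 1) = 1 := piT_one
    rw [Finset.sum_eq_single (fun _ => ⟨0, hM⟩)]
    · beta_reduce
      rw [if_pos rfl, e', conjTranspose_one, one_mul, mul_one]
    · intro w _ hw
      beta_reduce
      rw [if_neg hw, Matrix.mul_zero, Matrix.zero_mul]
    · simp

theorem menu_data {κ : Type} {n M r : ℕ} {P C : Fin M → Matrix A A ℂ}
    (hC : ∀ j, P j = (C j)ᴴ * C j) (hr : ∀ j, (C j).rank ≤ r)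
    {Q : κ → Matrix (Fin n → A) (Fin n → A) ℂ} (h : ∀ k, FromData P (Q k)) :
    Menu M r Finset.univ Q := by
  refine ⟨fun _ j => C j, fun _ j => hr j, fun k => ?_⟩
  obtain ⟨q, hq, hQ⟩ := h k
  refine ⟨fun w => (q w : ℂ) • 1, fun w => PosSemidef.one.smul (Complex.zero_le_real.mpr (hq w)), ?_⟩
  rw [hQ]
  refine Finset.sum_congr rfl fun w _ => ?_
  simp only [Finset.mem_univ, if_true]
  rw [Matrix.mul_smul, Matrix.smul_mul, mul_one]
  congr 1
  change piT (fun i => P (w i)) = (piT fun i => C (w i))ᴴ * piT fun i => C (w i)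
  rw [piT_conjTranspose, ← piT_mul]
  congr 1
  funext i
  exact hC (w i)

end menu

theorem pj_kron {g k : ℕ} (u : Fin g → ℂ) (v : Fin k → ℂ) :
    pj u ⊗ₖ pj v = pj (fun p : Fin g × Fin k => u p.1 * v p.2) := by
  ext p q
  simp only [kroneckerMap_apply, pj_apply, star_mul']
  ring

theorem rank_smul_pj {X : Type} [Fintype X] [DecidableEq X] (c : ℂ) (v : X → ℂ) :
    (c • pj v).rank ≤ 1 := by
  have e : c • pj v = vecMulVec (c • v) (star v) := by
    ext i j
    simp only [Matrix.smul_apply, pj_apply, vecMulVec_apply, Pi.smul_apply, smul_eq_mul,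
      Pi.star_apply]
    ring
  rw [e]
  exact rank_vecMulVec_le _ _

/-- The measurement. -/
noncomputable def mea (g k : ℕ) (l : (Fin k ⊕ (Fin k → Fin 4)) × (Fin g ⊕ (Fin g → Fin 4))) :
    Matrix (Fin g × Fin k) (Fin g × Fin k) ℂ :=
  ((dw k l.1 * dw g l.2 / ((g + 1) * (k + 1)) : ℝ) : ℂ) • (pj (dv g l.2) ⊗ₖ pj (dv k l.1))

theorem mea_meas {g k : ℕ} (hg : 0 < g) (hk : 0 < k) : IsMeas (mea g k) := by
  have hd := isDes hk
  have hd' := isDes hg
  have hk1 : ((k : ℂ) + 1) ≠ 0 := by exact_mod_cast Nat.succ_ne_zero k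
  refine ⟨fun l => ((pj_psd _).kronecker (pj_psd _)).smul (Complex.zero_le_real.mpr
    (div_nonneg (mul_nonneg (hd.nn _) (hd'.nn _)) (by positivity))), ?_⟩
  have h := (lay (g := g) hd hd').one
  have e : ∀ l, mea g k l = ((k : ℂ) + 1)⁻¹ •
      (((dw k l.1 * (dw g l.2 / (g + 1)) : ℝ) : ℂ) • (pj (dv g l.2) ⊗ₖ pj (dv k l.1))) := by
    intro l
    rw [mea, smul_smul]
    congr 1
    push_cast
    rw [div_mul_eq_div_div]
    ring
  simp only [e]
  rw [← Finset.smul_sum, h, smul_smul]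
  push_cast
  rw [inv_mul_cancel₀ hk1, one_smul]

theorem mea_dual {g k : ℕ} (hg : 0 < g) (hk : 0 < k) (z z' y y' : Fin g × Fin k) :
    ∑ l, mea g k l z z' * ((((g + 1) * (k + 1) : ℝ) : ℂ) • du g k (dv g l.2) (dv k l.1)) y y' =
      if y = z' ∧ z = y' then 1 else 0 := by
  have hd := isDes hk
  have hd' := isDes hg
  have hgk : (((g : ℂ) + 1) * ((k : ℂ) + 1)) ≠ 0 := by
    refine mul_ne_zero ?_ ?_
    · exact_mod_cast Nat.succ_ne_zero g
    · exact_mod_cast Nat.succ_ne_zero k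
  obtain ⟨c, j⟩ := z
  obtain ⟨c', j'⟩ := z'
  obtain ⟨s, i⟩ := y
  obtain ⟨s', i'⟩ := y'
  have e : ∀ l : (Fin k ⊕ (Fin k → Fin 4)) × (Fin g ⊕ (Fin g → Fin 4)),
      mea g k l (c, j) (c', j') * ((((g + 1) * (k + 1) : ℝ) : ℂ) •
        du g k (dv g l.2) (dv k l.1)) (s, i) (s', i') =
      ((dw k l.1 : ℂ) * ((pj (dv k l.1) - ((1 / (k + 1) : ℝ) : ℂ) •
        (1 : Matrix (Fin k) (Fin k) ℂ)) i i' * pj (dv k l.1) j j')) *
      ((dw g l.2 : ℂ) * ((pj (dv g l.2) - ((1 / (g + 1) : ℝ) : ℂ) •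
        (1 : Matrix (Fin g) (Fin g) ℂ)) s s' * pj (dv g l.2) c c')) := by
    intro l
    simp only [mea, du, Matrix.smul_apply, kroneckerMap_apply, smul_eq_mul]
    push_cast
    field_simp
  simp only [e]
  rw [Fintype.sum_prod_type]
  simp only [← Finset.mul_sum, ← Finset.sum_mul]
  rw [hd.dual, hd'.dual]
  by_cases h1 : i = j' <;> by_cases h2 : j = i' <;> by_cases h3 : s = c' <;>
    by_cases h4 : c = s' <;> simp [h1, h2, h3, h4]

/-- Bound information near the separable boundary state. -/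
theorem bound_info (g k : ℕ) (hg : 0 < g) (hk : 4 ≤ k) :
    ∃ (M : ℕ) (P : Fin M → Matrix (Fin g × Fin k) (Fin g × Fin k) ℂ), IsMeas P ∧
      ∃ δ : ℝ, 0 < δ ∧ ∀ ρ : Matrix ((Fin g × Fin k) × (Fin g × Fin k))
        ((Fin g × Fin k) × (Fin g × Fin k)) ℂ, ρ.PosSemidef → ρ.trace = 1 →
        (∀ p q, ‖ρ p q - sepState g k p q‖ ≤ δ) → ¬ IsSep ρ → BoundInfo ρ P P := by
  have hk0 : 0 < k := by omega
  obtain ⟨M, hM⟩ : ∃ M : ℕ, M = Fintype.card ((Fin k ⊕ (Fin k → Fin 4)) ×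
    (Fin g ⊕ (Fin g → Fin 4))) := ⟨_, rfl⟩
  obtain ⟨e⟩ : Nonempty (Fin M ≃ (Fin k ⊕ (Fin k → Fin 4)) × (Fin g ⊕ (Fin g → Fin 4))) :=
    ⟨(hM ▸ (Fintype.equivFin _).symm)⟩
  have hM0 : 0 < M := by
    rw [hM]
    exact Fintype.card_pos_iff.mpr ⟨(Sum.inl ⟨0, hk0⟩, Sum.inl ⟨0, hg⟩)⟩
  have hmeas := mea_meas hg hk0
  refine ⟨M, fun j => mea g k (e j), ⟨fun j => hmeas.1 _, ?_⟩, ?_⟩
  · rw [e.sum_comp fun l => mea g k l, hmeas.2]
  · obtain ⟨ε, hε, h⟩ := nb_single g k 1 M hg (by omega)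
    obtain ⟨δ, hδ, hδ'⟩ := close_bd (g := g) (k := k) hg (by omega) hε
    refine ⟨δ, hδ, fun ρ hρ _ hc hns => ?_⟩
    obtain ⟨c, R, hc0, hR, hcR⟩ := hδ' ρ hρ hc
    have hno : NoKeyMenu ρ M 1 := by
      rw [hcR]
      exact h R hR c hc0
    intro E _ _ Ψ hΨ
    refine ⟨fun Z _ F hF => ?_, fun n ℓ hℓ T _ f g' hL hS herr => ?_⟩
    · by_contra hcon
      push Not at hcon
      apply hns
      rw [← hΨ]
      have hdual : ∀ z z' y y', ∑ j : Fin M, mea g k (e j) z z' *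
          ((((g + 1) * (k + 1) : ℝ) : ℂ) • du g k (dv g (e j).2) (dv k (e j).1)) y y' =
          if y = z' ∧ z = y' then 1 else 0 := by
        intro z z' y y'
        rw [e.sum_comp fun l => mea g k l z z' *
          ((((g + 1) * (k + 1) : ℝ) : ℂ) • du g k (dv g l.2) (dv k l.1)) y y']
        exact mea_dual hg hk0 z z' y y'
      exact sep_of_indep hdual hdual hF hcon
    · obtain ⟨hf, hg'⟩ := PC.locc_psd hL
      have hC : ∀ j : Fin M, mea g k (e j) = (((√(dw k (e j).1 * dw g (e j).2 /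
          ((g + 1) * (k + 1))) : ℝ) : ℂ) • (pj (dv g (e j).2) ⊗ₖ pj (dv k (e j).1)))ᴴ *
          (((√(dw k (e j).1 * dw g (e j).2 / ((g + 1) * (k + 1))) : ℝ) : ℂ) •
            (pj (dv g (e j).2) ⊗ₖ pj (dv k (e j).1))) := by
        intro j
        have hp := kron_pr (pj_pr ((isDes hg).unit (e j).2)) (pj_pr ((isDes hk0).unit (e j).1))
        have h0 : 0 ≤ dw k (e j).1 * dw g (e j).2 / ((g + 1 : ℝ) * (k + 1)) :=
          div_nonneg (mul_nonneg ((isDes hk0).nn _) ((isDes hg).nn _)) (by positivity)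
        rw [conjTranspose_smul, hp.1, RCLike.star_def, Complex.conj_ofReal, Matrix.smul_mul,
          Matrix.mul_smul, hp.2, smul_smul, ← Complex.ofReal_mul, Real.mul_self_sqrt h0, mea]
      have hr : ∀ j : Fin M, (((√(dw k (e j).1 * dw g (e j).2 / ((g + 1) * (k + 1))) : ℝ) : ℂ) •
            (pj (dv g (e j).2) ⊗ₖ pj (dv k (e j).1))).rank ≤ 1 := by
        intro j
        rw [pj_kron]
        exact rank_smul_pj _ _
      refine hno E Ψ hΨ n ℓ hℓ T f g' hL (fun t => ?_) herr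
      rcases hS t with h1 | h1
      · refine ⟨Finset.univ, menu_data hC hr h1, ?_⟩
        rw [Finset.compl_univ]
        exact menu_trivial hM0 fun k => hg' t k
      · refine ⟨∅, menu_trivial hM0 fun k => hf t k, ?_⟩
        rw [Finset.compl_empty]
        exact menu_data hC hr h1

end Vale.Agent.P372.Ou
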