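import Vale.Agent.P372.R2.helper492.Ou.Lift

/-! Blocks of copies: the labelled decomposition of a perturbed state. -/

open Matrix Kronecker
open scoped ComplexOrder MatrixOrder

set_option linter.unusedSectionVars false

namespace Vale.Agent.P372.Ou

open Vale.Agent.P372.Half (tf)
open Vale.Agent.P372.PC (IsPr at1 tf_apply tf_kron tf_sum)

section bd

variable {X Y : Type} [Fintype X] [DecidableEq X] [Fintype Y] [DecidableEq Y]

/-- `-a ≤ Z ≤ a`. -/
def Bd (Z : Matrix X X ℂ) (a : ℝ) : Prop :=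
  ((a : ℂ) • 1 - Z).PosSemidef ∧ ((a : ℂ) • 1 + Z).PosSemidef

theorem Bd.add {Z W : Matrix X X ℂ} {a b : ℝ} (h : Bd Z a) (h' : Bd W b) : Bd (Z + W) (a + b) := by
  refine ⟨?_, ?_⟩
  · convert h.1.add h'.1 using 1
    push_cast
    module
  · convert h.2.add h'.2 using 1
    push_cast
    module

theorem half_psd {Z : Matrix X X ℂ} (h : ((2 : ℂ) • Z).PosSemidef) : Z.PosSemidef := by
  have h1 := h.smul (Complex.zero_le_real.mpr (by norm_num : (0 : ℝ) ≤ 1 / 2))
  have e : Z = ((1 / 2 : ℝ) : ℂ) • ((2 : ℂ) • Z) := by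
    rw [smul_smul]
    push_cast
    norm_num
  rw [e]
  exact h1

theorem Bd.kron {Z : Matrix X X ℂ} {W : Matrix Y Y ℂ} {a b : ℝ} (h : Bd Z a) (h' : Bd W b) :
    Bd (Z ⊗ₖ W) (a * b) := by
  refine ⟨half_psd ?_, half_psd ?_⟩
  · have e : (2 : ℂ) • (((a * b : ℝ) : ℂ) • 1 - Z ⊗ₖ W) =
        ((a : ℂ) • 1 - Z) ⊗ₖ ((b : ℂ) • 1 + W) + ((a : ℂ) • 1 + Z) ⊗ₖ ((b : ℂ) • 1 - W) := by
      rw [← one_kronecker_one]
      ext p q
      simp only [Matrix.smul_apply, Matrix.sub_apply, Matrix.add_apply, kroneckerMap_apply,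
        smul_eq_mul]
      push_cast
      ring
    rw [e]
    exact (h.1.kronecker h'.2).add (h.2.kronecker h'.1)
  · have e : (2 : ℂ) • (((a * b : ℝ) : ℂ) • 1 + Z ⊗ₖ W) =
        ((a : ℂ) • 1 - Z) ⊗ₖ ((b : ℂ) • 1 - W) + ((a : ℂ) • 1 + Z) ⊗ₖ ((b : ℂ) • 1 + W) := by
      rw [← one_kronecker_one]
      ext p q
      simp only [Matrix.smul_apply, Matrix.sub_apply, Matrix.add_apply, kroneckerMap_apply,
        smul_eq_mul]
      push_cast
      ring
    rw [e]
    exact (h.1.kronecker h'.1).add (h.2.kronecker h'.2)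

theorem Bd.subm {Z : Matrix X X ℂ} {a : ℝ} (h : Bd Z a) {e : Y → X} (he : Function.Injective e) :
    Bd (Z.submatrix e e) a := by
  have h1 : (1 : Matrix X X ℂ).submatrix e e = 1 := submatrix_one e he
  refine ⟨?_, ?_⟩
  · convert h.1.submatrix e using 1
    rw [submatrix_sub, submatrix_smul]
    simp only [Pi.sub_apply, Pi.smul_apply]
    rw [h1]
  · convert h.2.submatrix e using 1
    rw [submatrix_add, submatrix_smul]
    simp only [Pi.add_apply, Pi.smul_apply]
    rw [h1]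

theorem IsPr.bd {P : Matrix X X ℂ} (h : IsPr P) : Bd P 1 := by
  refine ⟨?_, ?_⟩
  · simpa using h.compl.psd
  · simpa using PosSemidef.one.add h.psd

theorem Bd.herm {Z : Matrix X X ℂ} {a : ℝ} (h : Bd Z a) : Zᴴ = Z := by
  have h1 := h.2.isHermitian.eq
  rw [conjTranspose_add, conjTranspose_smul, conjTranspose_one, RCLike.star_def,
    Complex.conj_ofReal] at h1
  exact add_left_cancel h1

theorem piT_succ {n : ℕ} (A : Fin (n + 1) → Matrix X X ℂ) :
    piT A = (A 0 ⊗ₖ piT (fun j : Fin n => A j.succ)).submatrix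
      (fun f : Fin (n + 1) → X => (f 0, fun j : Fin n => f j.succ)) (fun f => (f 0, fun j : Fin n => f j.succ)) := by
  ext p q
  simp only [piT_apply, submatrix_apply, kroneckerMap_apply, Fin.prod_univ_succ]

theorem split_inj {n : ℕ} : Function.Injective
    (fun f : Fin (n + 1) → X => (f 0, fun j : Fin n => f j.succ)) := by
  intro f g h
  rw [Prod.mk.injEq] at h
  funext i
  refine Fin.cases h.1 (fun j => congrFun h.2 j) i

theorem bd_piT_one : ∀ (n : ℕ) (A : Fin n → Matrix X X ℂ), (∀ i, Bd (A i) 1) →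
    Bd (piT A) 1 := by
  intro n
  induction n with
  | zero =>
    intro A _
    have : piT A = 1 := by
      ext p q
      rw [Subsingleton.elim p q, Matrix.one_apply_eq]
      simp [piT_apply]
    rw [this]
    exact IsPr.bd isPr_one
  | succ n ih =>
    intro A h
    rw [piT_succ]
    have := (h 0).kron (ih (fun j : Fin n => A j.succ) fun j : Fin n => h j.succ)
    rw [one_mul] at this
    exact this.subm split_inj

theorem bd_piT {ε : ℝ} (hε : 0 ≤ ε) : ∀ (n : ℕ) (A A' : Fin n → Matrix X X ℂ),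
    (∀ i, Bd (A i) 1) → (∀ i, Bd (A' i - A i) ε) → Bd (piT A' - piT A) ((1 + ε) ^ n - 1) := by
  intro n
  induction n with
  | zero =>
    intro A A' _ _
    have : piT A' - piT A = 0 := by
      ext p q
      rw [Matrix.sub_apply, piT_apply, piT_apply]
      simp
    rw [this, pow_zero, sub_self]
    refine ⟨?_, ?_⟩ <;> simp [PosSemidef.zero]
  | succ n ih =>
    intro A A' h1 h2
    have e : piT A' - piT A = (A' 0 ⊗ₖ (piT (fun j : Fin n => A' j.succ) - piT (fun j : Fin n => A j.succ)) +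
        (A' 0 - A 0) ⊗ₖ piT (fun j : Fin n => A j.succ)).submatrix
      (fun f : Fin (n + 1) → X => (f 0, fun j : Fin n => f j.succ)) (fun f => (f 0, fun j : Fin n => f j.succ)) := by
      rw [piT_succ, piT_succ]
      ext p q
      simp only [Matrix.sub_apply, submatrix_apply, Matrix.add_apply, kroneckerMap_apply]
      ring
    rw [e]
    have k1 : Bd (A' 0) (1 + ε) := by
      have := (h1 0).add (h2 0)
      rwa [add_sub_cancel] at this
    have k2 := ih (fun j : Fin n => A j.succ) (fun j : Fin n => A' j.succ) (fun j : Fin n => h1 j.succ) fun j : Fin n => h2 j.succ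
    have k3 := bd_piT_one n (fun j : Fin n => A j.succ) fun j : Fin n => h1 j.succ
    have k4 := (k1.kron k2).add ((h2 0).kron k3)
    have e2 : (1 + ε) ^ (n + 1) - 1 = (1 + ε) * ((1 + ε) ^ n - 1) + ε * 1 := by ring
    rw [e2]
    exact k4.subm split_inj

theorem pow_le_three {ε : ℝ} (hε : 0 ≤ ε) (h1 : ε ≤ 1) (n : ℕ) :
    (1 + ε) ^ n ≤ 1 + 3 ^ n * ε := by
  induction n with
  | zero => simp; exact hε
  | succ n ih =>
    have h3 : (1 : ℝ) ≤ 3 ^ n := one_le_pow₀ (by norm_num)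
    have h4 : 0 ≤ (3 : ℝ) ^ n * ε := by positivity
    calc (1 + ε) ^ (n + 1) = (1 + ε) ^ n * (1 + ε) := pow_succ _ _
      _ ≤ (1 + 3 ^ n * ε) * (1 + ε) := mul_le_mul_of_nonneg_right ih (by linarith)
      _ = 1 + 3 ^ n * ε + 1 * ε + 3 ^ n * ε * ε := by ring
      _ ≤ 1 + 3 ^ n * ε + 3 ^ n * ε + 3 ^ n * ε * 1 := by
        have := mul_le_mul_of_nonneg_left h1 h4
        have := mul_le_mul_of_nonneg_right h3 hε
        linarith
      _ = 1 + 3 ^ (n + 1) * ε := by ring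

end bd

section dat

variable {X Y : Type} [Fintype X] [DecidableEq X] [Fintype Y] [DecidableEq Y] {N : ℕ}
variable {L : Type} [Fintype L] [DecidableEq L]

theorem piT_smul' {ι : Type} [Fintype ι] [DecidableEq ι] (c : ι → ℂ) (Z : ι → Matrix X X ℂ) :
    piT (fun i => c i • Z i) = (∏ i, c i) • piT Z := by
  ext e f
  simp only [piT_apply, Matrix.smul_apply, smul_eq_mul, Finset.prod_mul_distrib]

theorem psd_piT_pr {P : Fin N → Matrix X X ℂ} (h : ∀ i, IsPr (P i)) : IsPr (piT P) := by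
  refine ⟨?_, ?_⟩
  · rw [piT_conjTranspose]
    congr 1
    funext i
    exact (h i).1
  · rw [← piT_mul]
    congr 1
    funext i
    exact (h i).2

/-- The labelled decomposition for a block of copies. -/
theorem block_dat {κ m r ε : ℝ} (hκ : 1 ≤ κ - 2 * m - 2) (hκ0 : 0 ≤ κ) {α α' : Fin N → L → Matrix X X ℂ}
    {c : Fin N → L → Matrix Y Y ℂ} {ν : Fin N → L → ℝ} {R : Matrix (X × Y) (X × Y) ℂ}
    (hl : ∀ i, Lay (α i) (c i) (ν i) κ) (hr : 0 < r) (hε : 0 ≤ ε)
    (hb : ∀ z : Fin N → L, Bd (piT (fun i => α' i (z i)) - piT (fun i => α i (z i))) ε)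
    (hα' : ∀ i l, (α' i l)ᴴ = α' i l)
    (hsum : ∀ i, ∑ l, ((ν i l : ℂ) • α' i l) ⊗ₖ c i l = R)
    (hR : (tf fun _ : Fin N => R).PosDef) (hδ : (2 * ε / r + ε) * κ ^ N ≤ 1 - 2 * ε / r)
    {J : Type} {P : J → Matrix (Fin N → X) (Fin N → X) ℂ} (hP : ∀ j, IsPr (P j))
    (hm : ∀ j, (P j).trace.re ≤ m)
    (hPr : ∀ j (z : Fin N → L), (P j * piT (fun i => α i (z i)) * P j -
      (r : ℂ) • P j).PosSemidef) :
    ∃ (a : (Fin N → L) → Matrix (Fin N → X) (Fin N → X) ℂ)
      (b : (Fin N → L) → Matrix (Fin N → Y) (Fin N → Y) ℂ)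
      (K : (Fin N → L) → Matrix ((Fin N → X) × (Fin N → Y)) ((Fin N → X) × (Fin N → Y)) ℂ),
      DatA (tf fun _ : Fin N => R) P a b K := by
  obtain ⟨δ, hδ'⟩ : ∃ δ, δ = 2 * ε / r := ⟨_, rfl⟩
  rw [← hδ'] at hδ
  have hδ0 : 0 ≤ δ := by rw [hδ']; positivity
  have hκN : 0 ≤ κ ^ N := pow_nonneg hκ0 N
  have hδ1 : δ ≤ 1 := by
    have : 0 ≤ (δ + ε) * κ ^ N := mul_nonneg (by linarith) hκN
    linarith
  -- the corrections
  choose S hS1 hS2 hS3 using fun j => chainT (by linarith : 0 ≤ κ - 2 * m - 2) hl (hP j) (hm j)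
  obtain ⟨S', hS'⟩ : ∃ S' : J → (Fin N → L) → Matrix (Fin N → X) (Fin N → X) ℂ, ∀ j z,
      S' j z = ((1 - δ : ℝ) : ℂ) • S j z - ((δ + ε : ℝ) : ℂ) • (1 - P j) := ⟨_, fun _ _ => rfl⟩
  have hαp : ∀ z : Fin N → L, IsPr (piT fun i => α i (z i)) := fun z =>
    psd_piT_pr fun i => (hl i).pr (z i)
  have hcp : ∀ z : Fin N → L, IsPr (piT fun i => c i (z i)) := fun z =>
    psd_piT_pr fun i => (hl i).pc (z i)
  have hνp : ∀ z : Fin N → L, 0 ≤ ∏ i, ν i (z i) := fun z =>
    Finset.prod_nonneg fun i _ => (hl i).nn (z i)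
  have k1 : ∀ j z, (piT (fun i => α' i (z i)) - S' j z).PosSemidef := by
    intro j z
    rw [hS', hδ']
    refine pert (hαp z) (hP j) hr hε ?_ (hPr j z) (hS1 j z) (by rw [← hδ']; exact hδ1)
    have := (hb z).2
    rwa [add_comm] at this
  have k2 : ∀ j z, S' j z * P j = 0 := by
    intro j z
    rw [hS', Matrix.sub_mul, Matrix.smul_mul, Matrix.smul_mul, hS2, Matrix.sub_mul, one_mul,
      (hP j).2, sub_self, smul_zero, smul_zero, sub_zero]
  have hone : ∑ z : Fin N → L, ((∏ i, ν i (z i) : ℝ) : ℂ) • piT (fun i => c i (z i)) =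
      ((κ ^ N : ℝ) : ℂ) • (1 : Matrix (Fin N → Y) (Fin N → Y) ℂ) := by
    have h1 : (fun i : Fin N => ∑ l, (ν i l : ℂ) • c i l) = fun _ => (κ : ℂ) • 1 := by
      funext i
      exact (hl i).one
    have h2 := piT_sum fun (i : Fin N) l => (ν i l : ℂ) • c i l
    rw [h1, piT_smul', piT_one] at h2
    rw [Finset.prod_const, Finset.card_univ, Fintype.card_fin] at h2
    push_cast
    rw [h2]
    refine Finset.sum_congr rfl fun z _ => ?_
    rw [piT_smul']
  have k3 : ∀ j, (∑ z : Fin N → L, ((∏ i, ν i (z i) : ℝ) : ℂ) •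
      (S' j z ⊗ₖ piT (fun i => c i (z i)))).PosSemidef := by
    intro j
    have h1 : ∑ z : Fin N → L, ((∏ i, ν i (z i) : ℝ) : ℂ) • (S' j z ⊗ₖ piT (fun i => c i (z i))) =
        ((1 - δ : ℝ) : ℂ) • ∑ z : Fin N → L, ((∏ i, ν i (z i) : ℝ) : ℂ) •
          (S j z ⊗ₖ piT (fun i => c i (z i))) -
        ((δ + ε : ℝ) : ℂ) • ((1 - P j) ⊗ₖ ∑ z : Fin N → L, ((∏ i, ν i (z i) : ℝ) : ℂ) •
          piT (fun i => c i (z i))) := by
      rw [kron_sum_right, Finset.smul_sum, Finset.smul_sum, ← Finset.sum_sub_distrib]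
      refine Finset.sum_congr rfl fun z _ => ?_
      rw [hS']
      ext p q
      simp only [Matrix.smul_apply, Matrix.sub_apply, kroneckerMap_apply, smul_eq_mul]
      ring
    rw [h1, hone]
    have h2 := (hS3 j).smul (Complex.zero_le_real.mpr (sub_nonneg.mpr hδ1))
    have h3 : ((1 : Matrix (Fin N → X) (Fin N → X) ℂ) - P j).PosSemidef := (hP j).compl.psd
    have h4 : 0 ≤ (1 - δ) * (κ - 2 * m - 2) ^ N - (δ + ε) * κ ^ N := by
      have h5 : 1 ≤ (κ - 2 * m - 2) ^ N := one_le_pow₀ hκ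
      have h6 : (1 - δ) * 1 ≤ (1 - δ) * (κ - 2 * m - 2) ^ N :=
        mul_le_mul_of_nonneg_left h5 (by linarith)
      linarith
    have h5 := h2.add ((h3.kronecker (PosSemidef.one (n := Fin N → Y) (R := ℂ))).smul
      (Complex.zero_le_real.mpr h4))
    convert h5 using 1
    rw [kronecker_smul]
    push_cast
    module
  have hσ : ∀ z : Fin N → L, (((∏ i, ν i (z i) : ℝ) : ℂ) • piT (fun i => α' i (z i)))ᴴ =
      ((∏ i, ν i (z i) : ℝ) : ℂ) • piT (fun i => α' i (z i)) := by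
    intro z
    rw [conjTranspose_smul, RCLike.star_def, Complex.conj_ofReal, piT_conjTranspose]
    congr 2
    funext i
    exact hα' i (z i)
  have hsum' : ∑ z : Fin N → L, (((∏ i, ν i (z i) : ℝ) : ℂ) • piT (fun i => α' i (z i))) ⊗ₖ
      piT (fun i => c i (z i)) = tf fun _ : Fin N => R := by
    have h1 : (fun _ : Fin N => R) = fun i => ∑ l, ((ν i l : ℂ) • α' i l) ⊗ₖ c i l := by
      funext i
      exact (hsum i).symm
    rw [h1, tf_sum (κ := fun _ => L) fun i l => ((ν i l : ℂ) • α' i l) ⊗ₖ c i l]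
    refine Finset.sum_congr rfl fun z _ => ?_
    rw [tf_kron, piT_smul']
    push_cast
    rfl
  have hdet : IsUnit (tf fun _ : Fin N => R).det :=
    (Matrix.isUnit_iff_isUnit_det _).mp hR.isUnit
  refine ⟨fun z => ((∏ i, ν i (z i) : ℝ) : ℂ) • piT (fun i => α' i (z i)),
    fun z => piT (fun i => c i (z i)), fun z => (tf fun _ : Fin N => R)⁻¹ *
      ((((∏ i, ν i (z i) : ℝ) : ℂ) • piT (fun i => α' i (z i))) ⊗ₖ piT (fun i => c i (z i))),
    hσ, fun z => (hcp z).psd, hsum', fun z => ?_, fun z j => ?_, fun j => ?_⟩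
  · rw [← Matrix.mul_assoc, Matrix.mul_nonsing_inv _ hdet, one_mul]
  · have h1 := (k1 j z).mul_mul_conjTranspose_same (P j)
    rw [(hP j).1, Matrix.mul_sub, Matrix.sub_mul, Matrix.mul_assoc (P j) (S' j z), k2,
      Matrix.mul_zero, sub_zero] at h1
    rw [Matrix.mul_smul, Matrix.smul_mul]
    exact h1.smul (Complex.zero_le_real.mpr (hνp z))
  · refine ct_of hR (τ := fun z => ((∏ i, ν i (z i) : ℝ) : ℂ) •
      (S' j z ⊗ₖ piT (fun i => c i (z i)))) (fun z => ?_) hsum' ?_ (fun z => ?_) (fun z => ?_)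
      (k3 j)
    · rw [conjTranspose_kronecker, hσ, (hcp z).1]
    · rw [conjTranspose_kronecker, (hP j).1, conjTranspose_one]
    · rw [Matrix.smul_mul, ← mul_kronecker_mul, k2, zero_kronecker, smul_zero]
    · have e : (((∏ i, ν i (z i) : ℝ) : ℂ) • piT (fun i => α' i (z i))) ⊗ₖ
          piT (fun i => c i (z i)) - ((∏ i, ν i (z i) : ℝ) : ℂ) •
          (S' j z ⊗ₖ piT (fun i => c i (z i))) = ((∏ i, ν i (z i) : ℝ) : ℂ) •
          ((piT (fun i => α' i (z i)) - S' j z) ⊗ₖ piT (fun i => c i (z i))) := by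
        ext p q
        simp only [Matrix.smul_apply, Matrix.sub_apply, kroneckerMap_apply, smul_eq_mul]
        ring
      rw [e]
      exact ((k1 j z).kronecker (hcp z).psd).smul (Complex.zero_le_real.mpr (hνp z))

end dat

end Vale.Agent.P372.Ou
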