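import Vale.Agent.P372.R2.helper492.Ou.Des

/-! The certificate for one copy. -/

open Matrix Kronecker
open scoped ComplexOrder MatrixOrder

set_option linter.unusedSectionVars false

namespace Vale.Agent.P372.Ou

open Vale.Agent.P372.PC (IsPr kron_sw)

section vec

variable {E : Type} [Fintype E] [DecidableEq E]

/-- The square of the length. -/
noncomputable def nq (v : E → ℂ) : ℝ := ∑ i, ‖v i‖ ^ 2

theorem nq_nonneg (v : E → ℂ) : 0 ≤ nq v := Finset.sum_nonneg fun _ _ => by positivity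

theorem dot_self (v : E → ℂ) : star v ⬝ᵥ v = (nq v : ℂ) := by
  simp only [dotProduct, Pi.star_apply, nq]
  push_cast
  refine Finset.sum_congr rfl fun i _ => ?_
  rw [RCLike.star_def, RCLike.conj_mul]
  norm_cast

theorem cs (u v : E → ℂ) : ‖star u ⬝ᵥ v‖ ^ 2 ≤ nq u * nq v := by
  have h1 : ‖star u ⬝ᵥ v‖ ≤ ∑ i, ‖u i‖ * ‖v i‖ := by
    refine (norm_sum_le _ _).trans (le_of_eq (Finset.sum_congr rfl fun i _ => ?_))
    rw [norm_mul, Pi.star_apply, norm_star]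
  exact (pow_le_pow_left₀ (norm_nonneg _) h1 2).trans (Finset.sum_mul_sq_le_sq_mul_sq _ _ _)

theorem IsPr.dot {P : Matrix E E ℂ} (h : IsPr P) (x y : E → ℂ) :
    star (P *ᵥ x) ⬝ᵥ y = star x ⬝ᵥ (P *ᵥ y) := by
  rw [star_mulVec, h.1, dotProduct_mulVec]

theorem IsPr.dot_self {P : Matrix E E ℂ} (h : IsPr P) (x : E → ℂ) :
    star x ⬝ᵥ (P *ᵥ x) = (nq (P *ᵥ x) : ℂ) := by
  rw [← Ou.dot_self, IsPr.dot h, mulVec_mulVec, h.2]

theorem IsPr.dot2 {P : Matrix E E ℂ} (h : IsPr P) (x y : E → ℂ) :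
    star x ⬝ᵥ (P *ᵥ y) = star (P *ᵥ x) ⬝ᵥ (P *ᵥ y) := by
  rw [IsPr.dot h, mulVec_mulVec, h.2]

theorem IsPr.nq_add {P : Matrix E E ℂ} (h : IsPr P) (x : E → ℂ) :
    nq x = nq (P *ᵥ x) + nq ((1 - P) *ᵥ x) := by
  have h1 : ((nq x : ℝ) : ℂ) = ((nq (P *ᵥ x) + nq ((1 - P) *ᵥ x) : ℝ) : ℂ) := by
    rw [Complex.ofReal_add, ← IsPr.dot_self h, ← IsPr.dot_self h.compl, ← dotProduct_add,
      ← add_mulVec, add_sub_cancel, one_mulVec, Ou.dot_self]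
  exact_mod_cast h1

theorem dot_pj (b x : E → ℂ) : star x ⬝ᵥ (pj b *ᵥ x) = ((‖star b ⬝ᵥ x‖ ^ 2 : ℝ) : ℂ) := by
  have h1 : pj b *ᵥ x = (star b ⬝ᵥ x) • b := by
    ext i
    simp only [mulVec, dotProduct, pj_apply, Pi.smul_apply, smul_eq_mul, Finset.sum_mul,
      Pi.star_apply]
    exact Finset.sum_congr rfl fun j _ => by ring
  have h2 : star x ⬝ᵥ b = star (star b ⬝ᵥ x) := star_dotProduct _ _
  rw [h1, dotProduct_smul, h2, smul_eq_mul, RCLike.star_def, RCLike.mul_conj]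
  norm_cast

theorem psd_of {M : Matrix E E ℂ} (hM : M.IsHermitian) (f : (E → ℂ) → ℝ)
    (hf : ∀ x, star x ⬝ᵥ (M *ᵥ x) = (f x : ℂ)) (h0 : ∀ x, 0 ≤ f x) : M.PosSemidef :=
  PosSemidef.of_dotProduct_mulVec_nonneg hM fun x => by
    rw [hf]
    exact Complex.zero_le_real.mpr (h0 x)

end vec

theorem real_a {A B q s u η r : ℝ} (hA : 0 ≤ A) (hq : 0 ≤ q)
    (hs : s ^ 2 ≤ q * A) (hu : u ^ 2 ≤ (1 - q) * B) (hr : 0 < r) (hqr : q ≤ 1 - r)
    (hη0 : 0 ≤ η) (hη : η ≤ r ^ 2 / 4) : (1 + η) * (s + u) ^ 2 ≤ A + q * B + 3 / 2 * u ^ 2 := by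
  have hr1 : r ≤ 1 := by linarith
  obtain ⟨X, hX⟩ : ∃ X, X = 1 - q := ⟨_, rfl⟩
  obtain ⟨D, hD⟩ : ∃ D, D = 1 - (1 + η) * q := ⟨_, rfl⟩
  have hXr : r ≤ X := by linarith
  have hX0 : 0 < X := by linarith
  have hq1 : q ≤ 1 := by linarith
  have hηq : η * q ≤ η := by nlinarith
  have hr2 : r ^ 2 ≤ r := by nlinarith
  have hDr : 3 / 4 * r ≤ D := by
    rw [hD]
    linarith
  have hD0 : 0 < D := by linarith
  have hDX : η ≤ D * X / 2 := by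
    have h1 : (3 / 4 * r) * r ≤ D * X := mul_le_mul hDr hXr hr.le hD0.le
    have h2 : (3 / 4 * r) * r = 3 / 4 * r ^ 2 := by ring
    have h3 : 0 ≤ r ^ 2 := by positivity
    linarith
  have h1 : 0 ≤ D * (A - (1 + η) * (s + u) ^ 2) + (1 + η) * u ^ 2 := by
    rcases hq.eq_or_lt with h | h
    · have hs0 : s = 0 := by
        rw [← h, zero_mul] at hs
        exact pow_eq_zero_iff (two_ne_zero) |>.mp (le_antisymm hs (sq_nonneg s))
      have hD1 : D = 1 := by rw [hD, ← h]; ring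
      rw [hs0, hD1]
      linarith
    · have h2 : 0 ≤ q * (D * (A - (1 + η) * (s + u) ^ 2) + (1 + η) * u ^ 2) := by
        have e : q * (D * (A - (1 + η) * (s + u) ^ 2) + (1 + η) * u ^ 2) =
            D * (q * A - s ^ 2) + (D * s - (1 - D) * u) ^ 2 := by
          rw [hD]
          ring
        rw [e]
        exact add_nonneg (mul_nonneg hD0.le (sub_nonneg.mpr hs)) (sq_nonneg _)
      exact nonneg_of_mul_nonneg_right h2 h
  have h2 : (1 + η) * u ^ 2 ≤ D * (q * B + 3 / 2 * u ^ 2) := by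
    have e : X * (D * (q * B + 3 / 2 * u ^ 2) - (1 + η) * u ^ 2) =
        D * q * (X * B - u ^ 2) + (D * X / 2 - η) * u ^ 2 := by
      rw [hD, hX]
      ring
    have h3 : 0 ≤ X * (D * (q * B + 3 / 2 * u ^ 2) - (1 + η) * u ^ 2) := by
      rw [e]
      refine add_nonneg (mul_nonneg (mul_nonneg hD0.le hq) ?_)
        (mul_nonneg (sub_nonneg.mpr hDX) (sq_nonneg _))
      rw [hX]
      exact sub_nonneg.mpr hu
    have h4 := nonneg_of_mul_nonneg_right h3 hX0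
    linarith
  have h3 : 0 ≤ D * (A + q * B + 3 / 2 * u ^ 2 - (1 + η) * (s + u) ^ 2) := by linarith
  have h4 := nonneg_of_mul_nonneg_right h3 hD0
  linarith

variable {d : ℕ}

/-- The correction. -/
noncomputable def sh (P : Matrix (Fin d) (Fin d) ℂ) (b : Fin d → ℂ) : Matrix (Fin d) (Fin d) ℂ :=
  ((1 - nq (P *ᵥ b) : ℝ) : ℂ) • (1 - P) - ((3 / 2 : ℝ) : ℂ) • ((1 - P) * pj b * (1 - P))

/-- Alice's operator of the label `b`. -/
noncomputable def al (η : ℝ) (b : Fin d → ℂ) : Matrix (Fin d) (Fin d) ℂ :=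
  1 - ((1 + η : ℝ) : ℂ) • pj b

theorem sh_herm {P : Matrix (Fin d) (Fin d) ℂ} (h : IsPr P) (b : Fin d → ℂ) :
    (sh P b)ᴴ = sh P b := by
  rw [sh, conjTranspose_sub, conjTranspose_smul, conjTranspose_smul, conjTranspose_mul,
    conjTranspose_mul, h.compl.1, pj_herm, RCLike.star_def, Complex.conj_ofReal,
    Complex.conj_ofReal, Matrix.mul_assoc]

theorem al_herm (η : ℝ) (b : Fin d → ℂ) : (al η b)ᴴ = al η b := by
  rw [al, conjTranspose_sub, conjTranspose_one, conjTranspose_smul, pj_herm, RCLike.star_def,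
    Complex.conj_ofReal]

theorem sh_mul {P : Matrix (Fin d) (Fin d) ℂ} (h : IsPr P) (b : Fin d → ℂ) : sh P b * P = 0 := by
  rw [sh, Matrix.sub_mul, Matrix.smul_mul, Matrix.smul_mul, Matrix.mul_assoc, PC.compl_mul h,
    Matrix.mul_zero, smul_zero, smul_zero, sub_zero]

theorem mul_sh {P : Matrix (Fin d) (Fin d) ℂ} (h : IsPr P) (b : Fin d → ℂ) : P * sh P b = 0 := by
  rw [sh, Matrix.mul_sub, Matrix.mul_smul, Matrix.mul_smul, ← Matrix.mul_assoc, ← Matrix.mul_assoc,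
    PC.mul_compl h, Matrix.zero_mul, Matrix.zero_mul, smul_zero, smul_zero, sub_zero]

theorem mat_a {P : Matrix (Fin d) (Fin d) ℂ} (h : IsPr P) {b : Fin d → ℂ}
    (hb : star b ⬝ᵥ b = 1) {η r : ℝ} (hr : 0 < r) (hqr : nq (P *ᵥ b) ≤ 1 - r)
    (hη0 : 0 ≤ η) (hη : η ≤ r ^ 2 / 4) : (al η b - sh P b).PosSemidef := by
  have hb1 : nq b = 1 := by
    have := dot_self b
    rw [hb] at this
    exact_mod_cast this.symm
  have hq2 : nq ((1 - P) *ᵥ b) = 1 - nq (P *ᵥ b) := by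
    have := IsPr.nq_add h b
    rw [hb1] at this
    linarith
  refine psd_of (M := al η b - sh P b) ?_ (fun x => nq (P *ᵥ x) + nq (P *ᵥ b) * nq ((1 - P) *ᵥ x) +
    3 / 2 * ‖star b ⬝ᵥ ((1 - P) *ᵥ x)‖ ^ 2 - (1 + η) * ‖star b ⬝ᵥ x‖ ^ 2) (fun x => ?_)
    (fun x => ?_)
  · rw [IsHermitian, conjTranspose_sub, al_herm, sh_herm h]
  · have e1 : star x ⬝ᵥ ((al η b - sh P b) *ᵥ x) = star x ⬝ᵥ x -
        ((1 + η : ℝ) : ℂ) * (star x ⬝ᵥ (pj b *ᵥ x)) - (((1 - nq (P *ᵥ b) : ℝ) : ℂ) *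
        (star x ⬝ᵥ ((1 - P) *ᵥ x)) - ((3 / 2 : ℝ) : ℂ) *
        (star ((1 - P) *ᵥ x) ⬝ᵥ (pj b *ᵥ ((1 - P) *ᵥ x)))) := by
      rw [al, sh, sub_mulVec, sub_mulVec, sub_mulVec, one_mulVec, smul_mulVec, smul_mulVec,
        smul_mulVec, dotProduct_sub, dotProduct_sub, dotProduct_sub, dotProduct_smul,
        dotProduct_smul, dotProduct_smul, IsPr.dot h.compl, mulVec_mulVec, mulVec_mulVec]
      rfl
    rw [e1, dot_pj, dot_pj, IsPr.dot_self h.compl, dot_self, IsPr.nq_add h x]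
    push_cast
    ring
  · have hs : ‖star b ⬝ᵥ (P *ᵥ x)‖ ^ 2 ≤ nq (P *ᵥ b) * nq (P *ᵥ x) := by
      rw [IsPr.dot2 h]
      exact cs _ _
    have hu : ‖star b ⬝ᵥ ((1 - P) *ᵥ x)‖ ^ 2 ≤ (1 - nq (P *ᵥ b)) * nq ((1 - P) *ᵥ x) := by
      rw [IsPr.dot2 h.compl, ← hq2]
      exact cs _ _
    have h1 := real_a (nq_nonneg _) (nq_nonneg _) hs hu hr hqr hη0 hη
    have h2 : ‖star b ⬝ᵥ x‖ ≤ ‖star b ⬝ᵥ (P *ᵥ x)‖ + ‖star b ⬝ᵥ ((1 - P) *ᵥ x)‖ := by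
      have : star b ⬝ᵥ x = star b ⬝ᵥ (P *ᵥ x) + star b ⬝ᵥ ((1 - P) *ᵥ x) := by
        rw [← dotProduct_add, ← add_mulVec, add_sub_cancel, one_mulVec]
      rw [this]
      exact norm_add_le _ _
    have h3 : (1 + η) * ‖star b ⬝ᵥ x‖ ^ 2 ≤
        (1 + η) * (‖star b ⬝ᵥ (P *ᵥ x)‖ + ‖star b ⬝ᵥ ((1 - P) *ᵥ x)‖) ^ 2 :=
      mul_le_mul_of_nonneg_left (pow_le_pow_left₀ (norm_nonneg _) h2 2) (by linarith)
    linarith

/-- The compression of Alice's operator to the range of `P`. -/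
theorem comp_psd {P : Matrix (Fin d) (Fin d) ℂ} (h : IsPr P) {b : Fin d → ℂ}
    (hb : star b ⬝ᵥ b = 1) {η r : ℝ} (hr : 0 < r) (hqr : nq (P *ᵥ b) ≤ 1 - r)
    (hη0 : 0 ≤ η) (hη : η ≤ r ^ 2 / 4) : (P * al η b * P).PosSemidef := by
  have h1 := (mat_a h hb hr hqr hη0 hη).mul_mul_conjTranspose_same P
  rw [h.1, Matrix.mul_sub, mul_sh h, sub_zero] at h1
  exact h1

variable {L : Type} [Fintype L] [DecidableEq L] {ν : L → ℝ} {b : L → Fin d → ℂ}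

theorem tr_pj {P : Matrix (Fin d) (Fin d) ℂ} (h : IsPr P) (v : Fin d → ℂ) :
    (P * pj v).trace = (nq (P *ᵥ v) : ℂ) := by
  rw [← IsPr.dot_self h]
  simp only [Matrix.trace, Matrix.diag, Matrix.mul_apply, pj_apply, dotProduct, mulVec,
    Pi.star_apply, Finset.mul_sum]
  exact Finset.sum_congr rfl fun i _ => Finset.sum_congr rfl fun j _ => by ring

theorem mat_b (hD : IsDes ν b) {P : Matrix (Fin d) (Fin d) ℂ} (h : IsPr P) {m : ℝ}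
    (hm : P.trace = (m : ℂ)) (hmd : m ≤ d - 2) :
    (∑ l, (ν l : ℂ) • (sh P (b l) ⊗ₖ pj (b l))).PosSemidef := by
  obtain ⟨Q, hQ⟩ : ∃ Q, Q = 1 - P := ⟨_, rfl⟩
  have hQp : IsPr Q := hQ ▸ h.compl
  have e1 : ∑ l, (ν l : ℂ) • (sh P (b l) ⊗ₖ pj (b l)) =
      Q ⊗ₖ (∑ l, (ν l : ℂ) • pj (b l) - ∑ l, ((ν l : ℂ) * (P * pj (b l)).trace) • pj (b l)) -
        ((3 / 2 : ℝ) : ℂ) • ((Q ⊗ₖ 1) * (∑ l, (ν l : ℂ) • (pj (b l) ⊗ₖ pj (b l))) * (Q ⊗ₖ 1)) := by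
    rw [← Finset.sum_sub_distrib, Matrix.mul_sum, Matrix.sum_mul, Finset.smul_sum]
    have e2 : ∀ (N : L → Matrix (Fin d) (Fin d) ℂ), Q ⊗ₖ (∑ l, N l) = ∑ l, Q ⊗ₖ N l := by
      intro N
      ext p q
      simp only [kroneckerMap_apply, Matrix.sum_apply, Finset.mul_sum]
    rw [e2, ← Finset.sum_sub_distrib]
    refine Finset.sum_congr rfl fun l _ => ?_
    rw [Matrix.mul_smul, Matrix.smul_mul, ← mul_kronecker_mul, ← mul_kronecker_mul, one_mul,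
      mul_one, tr_pj h, sh, hQ]
    ext p q
    simp only [Matrix.smul_apply, kroneckerMap_apply, Matrix.sub_apply, smul_eq_mul]
    push_cast
    ring
  have e3 : (Q ⊗ₖ (1 : Matrix (Fin d) (Fin d) ℂ)) * Near.flip d * (Q ⊗ₖ 1) =
      (Q ⊗ₖ Q) * Near.flip d := by
    rw [Matrix.mul_assoc, ← kron_sw, ← Matrix.mul_assoc, ← mul_kronecker_mul, one_mul, mul_one]
  have e4 : (Q ⊗ₖ Q) * (1 - Near.flip d) * (Q ⊗ₖ Q)ᴴ = Q ⊗ₖ Q - (Q ⊗ₖ Q) * Near.flip d := by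
    rw [conjTranspose_kronecker, hQp.1, Matrix.mul_sub, mul_one, Matrix.sub_mul, Matrix.mul_assoc,
      ← kron_sw, ← Matrix.mul_assoc, ← mul_kronecker_mul, hQp.2]
  have e5 : ∑ l, (ν l : ℂ) • (sh P (b l) ⊗ₖ pj (b l)) =
      ((d - 2 - m : ℝ) : ℂ) • (Q ⊗ₖ (1 : Matrix (Fin d) (Fin d) ℂ)) +
      ((1 / 2 : ℝ) : ℂ) • (Q ⊗ₖ P) +
      ((3 / 2 : ℝ) : ℂ) • ((Q ⊗ₖ Q) * (1 - Near.flip d) * (Q ⊗ₖ Q)ᴴ) := by
    rw [e1, hD.one, hD.pt, hD.two, hm, Matrix.mul_add, Matrix.add_mul, e3, mul_one,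
      ← mul_kronecker_mul, hQp.2, one_mul, e4]
    have hP : P = 1 - Q := by rw [hQ]; abel
    rw [hP]
    ext p q
    simp only [Matrix.smul_apply, kroneckerMap_apply, Matrix.sub_apply, Matrix.add_apply,
      smul_eq_mul]
    push_cast
    ring
  rw [e5]
  have n1 : (0 : ℂ) ≤ ((d - 2 - m : ℝ) : ℂ) := Complex.zero_le_real.mpr (by linarith)
  have n2 : (0 : ℂ) ≤ ((1 / 2 : ℝ) : ℂ) := Complex.zero_le_real.mpr (by norm_num)
  have n3 : (0 : ℂ) ≤ ((3 / 2 : ℝ) : ℂ) := Complex.zero_le_real.mpr (by norm_num)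
  exact (((hQp.psd.kronecker PosSemidef.one).smul n1).add ((hQp.psd.kronecker h.psd).smul n2)).add
    (((Near.one_sub_flip d).mul_mul_conjTranspose_same _).smul n3)

end Vale.Agent.P372.Ou
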