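import Vale.Agent.P372.R2.helper492.Ou.Cert

/-! The certificate for one copy, abstractly and for Werner states. -/

open Matrix Kronecker
open scoped ComplexOrder MatrixOrder

set_option linter.unusedSectionVars false

namespace Vale.Agent.P372.Ou

open Vale.Agent.P372.PC (IsPr kron_sw)

section abs

variable {E L : Type} [Fintype E] [DecidableEq E] [Fintype L] [DecidableEq L]

/-- The quadratic form of the eavesdropper. -/
def Hm (σ K : L → Matrix E E ℂ) (T : Matrix E E ℂ) : Matrix (L × E) (L × E) ℂ :=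
  fun x y => (T * (σ x.1 * K y.1) * T) x.2 y.2

/-- The quadratic form of the labels. -/
def Dm (σ : L → Matrix E E ℂ) (T : Matrix E E ℂ) : Matrix (L × E) (L × E) ℂ :=
  fun x y => if x.1 = y.1 then (T * σ x.1 * T) x.2 y.2 else 0

/-- The certificate: the eavesdropper knows enough about the labels. -/
def Ct (σ K : L → Matrix E E ℂ) (T : Matrix E E ℂ) : Prop :=
  (Hm σ K T).PosSemidef ∧ (Dm σ T - Hm σ K T).PosSemidef

theorem ct_of {R : Matrix E E ℂ} (hR : R.PosDef) {σ τ : L → Matrix E E ℂ} {T : Matrix E E ℂ}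
    (hσ : ∀ l, (σ l)ᴴ = σ l) (hsum : ∑ l, σ l = R) (hT : Tᴴ = T)
    (hτ1 : ∀ l, τ l * T = 0) (hτ2 : ∀ l, (σ l - τ l).PosSemidef)
    (hτ3 : (∑ l, τ l).PosSemidef) : Ct σ (fun l => R⁻¹ * σ l) T := by
  have hRi : R⁻¹.PosSemidef := hR.inv.posSemidef
  have hRiH : (R⁻¹)ᴴ = R⁻¹ := hRi.isHermitian.eq
  have hdet : IsUnit R.det := (Matrix.isUnit_iff_isUnit_det R).mp hR.isUnit
  have hτH : ∀ l, (τ l)ᴴ = τ l := by
    intro l
    have h1 := (hτ2 l).isHermitian.eq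
    rw [conjTranspose_sub, hσ] at h1
    exact sub_right_injective h1
  have hτ1' : ∀ l, T * τ l = 0 := by
    intro l
    have := congrArg conjTranspose (hτ1 l)
    rwa [conjTranspose_mul, hτH, hT, conjTranspose_zero] at this
  obtain ⟨Tm, hTm⟩ : ∃ Tm : Matrix E (L × E) ℂ, ∀ p y, Tm p y = (σ y.1 * T) p y.2 :=
    ⟨fun p y => (σ y.1 * T) p y.2, fun _ _ => rfl⟩
  obtain ⟨Z, hZ⟩ : ∃ Z : L → Matrix E (L × E) ℂ, ∀ l p y, Z l p y = if y.1 = l then T p y.2 else 0 :=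
    ⟨fun l p y => if y.1 = l then T p y.2 else 0, fun _ _ _ => rfl⟩
  obtain ⟨W, hW⟩ : ∃ W : Matrix E (L × E) ℂ, W = R⁻¹ * Tm := ⟨_, rfl⟩
  have hTmH : ∀ x p, Tmᴴ x p = (T * σ x.1) x.2 p := by
    intro x p
    have : star ((σ x.1 * T) p x.2) = ((σ x.1 * T)ᴴ) x.2 p := rfl
    rw [conjTranspose_apply, hTm, this, conjTranspose_mul, hT, hσ]
  have hTs : ∀ p q, star (T q p) = T p q := by
    intro p q
    have := congrFun (congrFun hT p) q
    rwa [conjTranspose_apply] at this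
  have hHm : Hm σ (fun l => R⁻¹ * σ l) T = Tmᴴ * R⁻¹ * Tm := by
    ext x y
    have e : T * (σ x.1 * (R⁻¹ * σ y.1)) * T = (T * σ x.1) * R⁻¹ * (σ y.1 * T) := by
      simp only [Matrix.mul_assoc]
    rw [Hm, e, Matrix.mul_apply (M := T * σ x.1 * R⁻¹), Matrix.mul_apply (M := Tmᴴ * R⁻¹)]
    refine Finset.sum_congr rfl fun q _ => ?_
    rw [hTm, Matrix.mul_apply (M := T * σ x.1), Matrix.mul_apply (M := Tmᴴ)]
    congr 1
    exact Finset.sum_congr rfl fun r _ => by rw [hTmH]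
  have hH0 : (Hm σ (fun l => R⁻¹ * σ l) T).PosSemidef := by
    rw [hHm]
    exact hRi.conjTranspose_mul_mul_same Tm
  refine ⟨hH0, ?_⟩
  -- the terms
  have hZN : ∀ l (N : Matrix E E ℂ) x p, ((Z l)ᴴ * N) x p =
      if x.1 = l then (T * N) x.2 p else 0 := by
    intro l N x p
    rw [Matrix.mul_apply]
    simp only [conjTranspose_apply, hZ]
    by_cases h : x.1 = l
    · rw [if_pos h, Matrix.mul_apply]
      refine Finset.sum_congr rfl fun q _ => ?_
      rw [if_pos h, hTs]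
    · rw [if_neg h]
      refine Finset.sum_eq_zero fun q _ => ?_
      rw [if_neg h, star_zero, zero_mul]
  have hZσ : ∀ l x p, ((Z l)ᴴ * σ l) x p = if x.1 = l then (T * σ l) x.2 p else 0 :=
    fun l x p => hZN l (σ l) x p
  have hZτ : ∀ l, (Z l)ᴴ * τ l = 0 := by
    intro l
    ext x p
    rw [hZN, hτ1', Matrix.zero_apply, Matrix.zero_apply, ite_self]
  have hτZ : ∀ l, τ l * Z l = 0 := by
    intro l
    have := congrArg conjTranspose (hZτ l)
    rwa [conjTranspose_mul, conjTranspose_conjTranspose, hτH, conjTranspose_zero] at this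
  have hs1 : ∑ l, (Z l)ᴴ * σ l = Tmᴴ := by
    ext x p
    rw [Matrix.sum_apply, hTmH]
    simp only [hZσ]
    rw [Finset.sum_eq_single x.1]
    · rw [if_pos rfl]
    · intro l _ hl
      rw [if_neg (Ne.symm hl)]
    · simp
  have hs1' : ∑ l, σ l * Z l = Tm := by
    have := congrArg conjTranspose hs1
    rw [conjTranspose_sum, conjTranspose_conjTranspose] at this
    rw [← this]
    refine Finset.sum_congr rfl fun l _ => ?_
    rw [conjTranspose_mul, conjTranspose_conjTranspose, hσ]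
  have hs2 : ∑ l, (Z l)ᴴ * σ l * Z l = Dm σ T := by
    ext x y
    rw [Matrix.sum_apply, Dm, Finset.sum_eq_single x.1]
    · rw [Matrix.mul_apply]
      by_cases h : x.1 = y.1
      · rw [if_pos h, Matrix.mul_apply]
        refine Finset.sum_congr rfl fun q _ => ?_
        rw [hZσ, if_pos rfl, hZ, if_pos h.symm]
      · rw [if_neg h]
        refine Finset.sum_eq_zero fun q _ => ?_
        rw [hZ, if_neg (Ne.symm h), mul_zero]
    · intro l _ hl
      rw [Matrix.mul_apply]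
      refine Finset.sum_eq_zero fun q _ => ?_
      rw [hZσ, if_neg (Ne.symm hl), zero_mul]
    · intro h
      exact absurd (Finset.mem_univ _) h
  have hWR : Wᴴ * R * W = Tmᴴ * R⁻¹ * Tm := by
    rw [hW, conjTranspose_mul, hRiH]
    calc Tmᴴ * R⁻¹ * R * (R⁻¹ * Tm) = Tmᴴ * (R⁻¹ * R) * R⁻¹ * Tm := by
          simp only [Matrix.mul_assoc]
      _ = _ := by rw [Matrix.nonsing_inv_mul R hdet, Matrix.mul_one]
  have hTW : Tmᴴ * W = Tmᴴ * R⁻¹ * Tm := by rw [hW, Matrix.mul_assoc]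
  have hWT : Wᴴ * Tm = Tmᴴ * R⁻¹ * Tm := by rw [hW, conjTranspose_mul, hRiH]
  have hmain : Dm σ T - Hm σ (fun l => R⁻¹ * σ l) T =
      ∑ l, (Z l - W)ᴴ * (σ l - τ l) * (Z l - W) + Wᴴ * (∑ l, τ l) * W := by
    have e1 : ∀ l, (Z l - W)ᴴ * (σ l - τ l) * (Z l - W) =
        (Z l)ᴴ * σ l * Z l - (Z l)ᴴ * σ l * W - Wᴴ * (σ l * Z l) + Wᴴ * σ l * W -
          Wᴴ * τ l * W := by
      intro l
      have h1 : (Z l - W)ᴴ * (σ l - τ l) * (Z l - W) =
          (Z l)ᴴ * σ l * Z l - (Z l)ᴴ * σ l * W - Wᴴ * (σ l * Z l) + Wᴴ * σ l * W -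
          Wᴴ * τ l * W - (Z l)ᴴ * τ l * Z l + (Z l)ᴴ * τ l * W + Wᴴ * (τ l * Z l) := by
        rw [conjTranspose_sub]
        simp only [Matrix.sub_mul, Matrix.mul_sub, ← Matrix.mul_assoc]
        abel
      rw [h1, hZτ, hτZ]
      simp
    simp only [e1]
    rw [Finset.sum_sub_distrib, Finset.sum_add_distrib, Finset.sum_sub_distrib,
      Finset.sum_sub_distrib, hs2, ← Matrix.sum_mul, hs1, ← Matrix.mul_sum, hs1', ← Matrix.sum_mul,
      ← Matrix.mul_sum, hsum, ← Matrix.sum_mul, ← Matrix.mul_sum, hWR, hTW, hWT, hHm]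
    abel
  rw [hmain]
  exact (posSemidef_sum _ fun l _ => (hτ2 l).conjTranspose_mul_mul_same _).add
    (hτ3.conjTranspose_mul_mul_same W)

end abs

section werner

variable {d : ℕ} {L : Type} [Fintype L] [DecidableEq L] {ν : L → ℝ} {b : L → Fin d → ℂ}

/-- The Werner operator. -/
noncomputable def wr (d : ℕ) (η : ℝ) : Matrix (Fin d × Fin d) (Fin d × Fin d) ℂ :=
  ((d - η : ℝ) : ℂ) • 1 - ((1 + η : ℝ) : ℂ) • Near.flip d

theorem wr_posDef {η : ℝ} (hη0 : 0 ≤ η) (hη : 1 + 2 * η < d) : (wr d η).PosDef := by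
  have e : wr d η = ((d - 1 - 2 * η : ℝ) : ℂ) • 1 + ((1 + η : ℝ) : ℂ) • (1 - Near.flip d) := by
    rw [wr, smul_sub]
    have : ((d - η : ℝ) : ℂ) = ((d - 1 - 2 * η : ℝ) : ℂ) + ((1 + η : ℝ) : ℂ) := by
      push_cast
      ring
    rw [this, add_smul]
    abel
  rw [e]
  exact (PosDef.one.smul (Complex.zero_lt_real.mpr (by linarith))).add_posSemidef
    ((Near.one_sub_flip d).smul (Complex.zero_le_real.mpr (by linarith)))

theorem sum_al (hD : IsDes ν b) (η : ℝ) :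
    ∑ l, ((ν l : ℂ) • al η (b l)) ⊗ₖ pj (b l) = wr d η := by
  have e1 : ∀ l, ((ν l : ℂ) • al η (b l)) ⊗ₖ pj (b l) = (1 : Matrix (Fin d) (Fin d) ℂ) ⊗ₖ
      ((ν l : ℂ) • pj (b l)) - ((1 + η : ℝ) : ℂ) • ((ν l : ℂ) • (pj (b l) ⊗ₖ pj (b l))) := by
    intro l
    ext p q
    simp only [al, Matrix.smul_apply, kroneckerMap_apply, Matrix.sub_apply, smul_eq_mul]
    ring
  have e2 : ∀ (N : L → Matrix (Fin d) (Fin d) ℂ), ∑ l, (1 : Matrix (Fin d) (Fin d) ℂ) ⊗ₖ N l =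
      1 ⊗ₖ (∑ l, N l) := by
    intro N
    ext p q
    simp only [kroneckerMap_apply, Matrix.sum_apply, Finset.mul_sum]
  simp only [e1]
  rw [Finset.sum_sub_distrib, e2, ← Finset.smul_sum, hD.one, hD.two, wr, kronecker_smul,
    one_kronecker_one, smul_add]
  have : ((d - η : ℝ) : ℂ) = (d : ℂ) + 1 - ((1 + η : ℝ) : ℂ) := by
    push_cast
    ring
  rw [this, sub_smul]
  abel

theorem flip_wr (η : ℝ) : Near.flip d * wr d η * Near.flip d = wr d η := by
  rw [wr, Matrix.mul_sub, Matrix.sub_mul, Matrix.mul_smul, Matrix.smul_mul, mul_one,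
    Near.flip_sq, Matrix.mul_smul, Matrix.smul_mul, Near.flip_sq, one_mul]

theorem flip_conj (X Y : Matrix (Fin d) (Fin d) ℂ) :
    Near.flip d * (X ⊗ₖ Y) * Near.flip d = Y ⊗ₖ X := by
  rw [Matrix.mul_assoc, kron_sw, ← Matrix.mul_assoc, Near.flip_sq, one_mul]

/-- The two kinds of labelled decompositions: Alice's or Bob's measurement is restricted. -/
noncomputable def la (s : Bool) (ν : L → ℝ) (b : L → Fin d → ℂ) (η : ℝ) (l : L) :
    Matrix (Fin d) (Fin d) ℂ := if s then (ν l : ℂ) • al η (b l) else pj (b l)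

noncomputable def lb (s : Bool) (ν : L → ℝ) (b : L → Fin d → ℂ) (η : ℝ) (l : L) :
    Matrix (Fin d) (Fin d) ℂ := if s then pj (b l) else (ν l : ℂ) • al η (b l)

theorem ct_true (hD : IsDes ν b) {P : Matrix (Fin d) (Fin d) ℂ} (h : IsPr P) {m : ℝ}
    (hm : P.trace = (m : ℂ)) (hmd : m ≤ d - 2) {η r : ℝ} (hr : 0 < r)
    (hqr : ∀ l, nq (P *ᵥ b l) ≤ 1 - r) (hη0 : 0 ≤ η) (hη : η ≤ r ^ 2 / 4)
    (hηd : 1 + 2 * η < d) :
    Ct (fun l => ((ν l : ℂ) • al η (b l)) ⊗ₖ pj (b l))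
      (fun l => (wr d η)⁻¹ * (((ν l : ℂ) • al η (b l)) ⊗ₖ pj (b l))) (P ⊗ₖ 1) := by
  refine ct_of (wr_posDef hη0 hηd) (τ := fun l => (ν l : ℂ) • (sh P (b l) ⊗ₖ pj (b l)))
    (fun l => ?_) (sum_al hD η) ?_ (fun l => ?_) (fun l => ?_) (mat_b hD h hm hmd)
  · rw [conjTranspose_kronecker, conjTranspose_smul, al_herm, pj_herm, RCLike.star_def,
      Complex.conj_ofReal]
  · rw [conjTranspose_kronecker, h.1, conjTranspose_one]
  · rw [Matrix.smul_mul, ← mul_kronecker_mul, sh_mul h, zero_kronecker, smul_zero]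
  · have e : ((ν l : ℂ) • al η (b l)) ⊗ₖ pj (b l) - (ν l : ℂ) • (sh P (b l) ⊗ₖ pj (b l)) =
        (ν l : ℂ) • ((al η (b l) - sh P (b l)) ⊗ₖ pj (b l)) := by
      ext p q
      simp only [Matrix.smul_apply, kroneckerMap_apply, Matrix.sub_apply, smul_eq_mul]
      ring
    rw [e]
    exact ((mat_a h (hD.unit l) hr (hqr l) hη0 hη).kronecker (pj_psd _)).smul
      (Complex.zero_le_real.mpr (hD.nn l))

theorem ct_false (hD : IsDes ν b) {P : Matrix (Fin d) (Fin d) ℂ} (h : IsPr P) {m : ℝ}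
    (hm : P.trace = (m : ℂ)) (hmd : m ≤ d - 2) {η r : ℝ} (hr : 0 < r)
    (hqr : ∀ l, nq (P *ᵥ b l) ≤ 1 - r) (hη0 : 0 ≤ η) (hη : η ≤ r ^ 2 / 4)
    (hηd : 1 + 2 * η < d) :
    Ct (fun l => pj (b l) ⊗ₖ ((ν l : ℂ) • al η (b l)))
      (fun l => (wr d η)⁻¹ * (pj (b l) ⊗ₖ ((ν l : ℂ) • al η (b l)))) (1 ⊗ₖ P) := by
  have hF := Near.flip_herm d
  refine ct_of (wr_posDef hη0 hηd) (τ := fun l => (ν l : ℂ) • (pj (b l) ⊗ₖ sh P (b l)))
    (fun l => ?_) ?_ ?_ (fun l => ?_) (fun l => ?_) ?_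
  · rw [conjTranspose_kronecker, conjTranspose_smul, al_herm, pj_herm, RCLike.star_def,
      Complex.conj_ofReal]
  · rw [← flip_wr η, ← sum_al hD η, Matrix.mul_sum, Matrix.sum_mul]
    exact Finset.sum_congr rfl fun l _ => (flip_conj _ _).symm
  · rw [conjTranspose_kronecker, h.1, conjTranspose_one]
  · rw [Matrix.smul_mul, ← mul_kronecker_mul, sh_mul h, kronecker_zero, smul_zero]
  · have e : pj (b l) ⊗ₖ ((ν l : ℂ) • al η (b l)) - (ν l : ℂ) • (pj (b l) ⊗ₖ sh P (b l)) =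
        (ν l : ℂ) • (pj (b l) ⊗ₖ (al η (b l) - sh P (b l))) := by
      ext p q
      simp only [Matrix.smul_apply, kroneckerMap_apply, Matrix.sub_apply, smul_eq_mul]
      ring
    rw [e]
    exact ((pj_psd _).kronecker (mat_a h (hD.unit l) hr (hqr l) hη0 hη)).smul
      (Complex.zero_le_real.mpr (hD.nn l))
  · have h1 := (mat_b hD h hm hmd).mul_mul_conjTranspose_same (Near.flip d)
    rw [hF, Matrix.mul_sum, Matrix.sum_mul] at h1
    have e : ∀ l, Near.flip d * ((ν l : ℂ) • (sh P (b l) ⊗ₖ pj (b l))) * Near.flip d =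
        (ν l : ℂ) • (pj (b l) ⊗ₖ sh P (b l)) := by
      intro l
      rw [Matrix.mul_smul, Matrix.smul_mul, flip_conj]
    simp only [e] at h1
    exact h1

end werner

end Vale.Agent.P372.Ou
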