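import Vale.Agent.P372.R2.helper492.Ou.Step

/-! The induction over the copies of a block. -/

open Matrix Kronecker
open scoped ComplexOrder MatrixOrder

set_option linter.unusedSectionVars false

namespace Vale.Agent.P372.Ou

open Vale.Agent.P372.PC (IsPr)

section max

variable {X : Type} [Fintype X] [DecidableEq X]

theorem max_le {a P G S P₁ : Matrix X X ℂ} (ha : IsPr a) (hP : IsPr P) (hP₁ : IsPr P₁)
    (h1 : P₁ = a * P * G) (hS : S * P = 0) (hSH : Sᴴ = S) (h : (a - S).PosSemidef) :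
    (a - P₁ - S).PosSemidef := by
  have hPS : P * S = 0 := by
    have h2 := congrArg conjTranspose hS
    rwa [conjTranspose_mul, hSH, hP.1, conjTranspose_zero] at h2
  have ha1 : a * P₁ = P₁ := by
    rw [h1, ← Matrix.mul_assoc, ← Matrix.mul_assoc, ha.2]
  have h1a : P₁ * a = P₁ := by
    have h2 := congrArg conjTranspose ha1
    rwa [conjTranspose_mul, ha.1, hP₁.1] at h2
  have e1 : (1 - P * G)ᴴ * S * (1 - P * G) = S := by
    have h2 : S * (1 - P * G) = S := by
      rw [Matrix.mul_sub, mul_one, ← Matrix.mul_assoc, hS, Matrix.zero_mul, sub_zero]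
    rw [Matrix.mul_assoc, h2, conjTranspose_sub, conjTranspose_one, conjTranspose_mul, hP.1,
      Matrix.sub_mul, one_mul, Matrix.mul_assoc, hPS, Matrix.mul_zero, sub_zero]
  have e2 : (1 - P * G)ᴴ * a * (1 - P * G) = a - P₁ := by
    have h2 : a * (1 - P * G) = a - P₁ := by
      rw [Matrix.mul_sub, mul_one, h1, Matrix.mul_assoc]
    have h3 : (1 - P * G)ᴴ * a = a - P₁ := by
      have h4 := congrArg conjTranspose h2
      rwa [conjTranspose_mul, ha.1, conjTranspose_sub a P₁, ha.1, hP₁.1] at h4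
    rw [h3, Matrix.mul_sub, mul_one, Matrix.sub_mul]
    have h5 : a * (P * G) = P₁ := by rw [h1, Matrix.mul_assoc]
    have h6 : P₁ * (P * G) = P₁ := by
      calc P₁ * (P * G) = P₁ * a * (P * G) := by rw [h1a]
        _ = P₁ * (a * P * G) := by simp only [Matrix.mul_assoc]
        _ = P₁ := by rw [← h1, hP₁.2]
    rw [h5, h6, sub_self, sub_zero]
  have e3 : a - P₁ - S = (1 - P * G)ᴴ * (a - S) * (1 - P * G) := by
    rw [Matrix.mul_sub (1 - P * G)ᴴ a S, Matrix.sub_mul, e1, e2]
  rw [e3]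
  exact h.conjTranspose_mul_mul_same _

end max

/-- The ordered product. -/
def Apr {E : Type} [Fintype E] [DecidableEq E] : (n : ℕ) → (Fin n → Matrix E E ℂ) → Matrix E E ℂ
  | 0, _ => 1
  | n + 1, a => a 0 * Apr n (fun j => a j.succ)

theorem Apr.comm {E : Type} [Fintype E] [DecidableEq E] {T : Matrix E E ℂ} :
    ∀ (n : ℕ) (a : Fin n → Matrix E E ℂ), (∀ j, T * a j = a j * T) →
      T * Apr n a = Apr n a * T := by
  intro n
  induction n with
  | zero => intro a _; simp [Apr]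
  | succ n ih =>
    intro a h
    rw [Apr, ← Matrix.mul_assoc, h 0, Matrix.mul_assoc, ih _ fun j => h j.succ, ← Matrix.mul_assoc]

theorem Apr.pr {E : Type} [Fintype E] [DecidableEq E] :
    ∀ (n : ℕ) (a : Fin n → Matrix E E ℂ), (∀ j, IsPr (a j)) →
      (∀ i j, i ≠ j → a i * a j = a j * a i) → IsPr (Apr n a) := by
  intro n
  induction n with
  | zero => intro a _ _; exact isPr_one
  | succ n ih =>
    intro a h hc
    have h1 := ih (fun j => a j.succ) (fun j => h j.succ) fun i j hij =>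
      hc _ _ fun e => hij (Fin.succ_injective _ e)
    have h2 : a 0 * Apr n (fun j => a j.succ) = Apr n (fun j => a j.succ) * a 0 :=
      Apr.comm n _ fun j => hc _ _ (Fin.succ_ne_zero j).symm
    refine ⟨?_, ?_⟩
    · rw [Apr, conjTranspose_mul, h1.1, (h 0).1, h2]
    · rw [Apr]
      calc a 0 * Apr n (fun j => a j.succ) * (a 0 * Apr n fun j => a j.succ) =
          a 0 * (Apr n (fun j => a j.succ) * a 0) * Apr n (fun j => a j.succ) := by
            simp only [Matrix.mul_assoc]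
        _ = (a 0 * a 0) * (Apr n (fun j => a j.succ) * Apr n (fun j => a j.succ)) := by
            rw [← h2]
            simp only [Matrix.mul_assoc]
        _ = _ := by rw [(h 0).2, h1.2]

section chain

variable {X Y : Type} [Fintype X] [DecidableEq X] [Fintype Y] [DecidableEq Y]
variable {L : Type} [Fintype L] [DecidableEq L]

theorem sum_cons {G : Type} [AddCommMonoid G] {n : ℕ} (f : (Fin (n + 1) → L) → G) :
    ∑ z, f z = ∑ l, ∑ w : Fin n → L, f (Fin.cons l w) := by
  rw [← (Fin.consEquiv fun _ : Fin (n + 1) => L).sum_comp, Fintype.sum_prod_type]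
  rfl

theorem kron_sum_right (Q : Matrix X X ℂ) {J : Type} (s : Finset J) (N : J → Matrix Y Y ℂ) :
    Q ⊗ₖ (∑ l ∈ s, N l) = ∑ l ∈ s, Q ⊗ₖ N l := by
  ext p q
  simp only [kroneckerMap_apply, Matrix.sum_apply, Finset.mul_sum]

theorem chain {κ m : ℝ} (hκ : 0 ≤ κ - 2 * m - 2) :
    ∀ (n : ℕ) (α : Fin n → L → Matrix X X ℂ) (c : Fin n → L → Matrix Y Y ℂ)
      (ν : Fin n → L → ℝ), (∀ i, Lay (α i) (c i) (ν i) κ) →
      (∀ i j, i ≠ j → ∀ l l', α i l * α j l' = α j l' * α i l) →
      (∀ i j, i ≠ j → ∀ l l', c i l * c j l' = c j l' * c i l) →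
      ∀ {P : Matrix X X ℂ}, IsPr P → P.trace.re ≤ m →
      ∃ S : (Fin n → L) → Matrix X X ℂ,
        (∀ z : Fin n → L, (Apr n (fun i => α i (z i)) - S z).PosSemidef) ∧ (∀ z, S z * P = 0) ∧
        (∑ z : Fin n → L, ((∏ i, ν i (z i) : ℝ) : ℂ) • (S z ⊗ₖ Apr n (fun i => c i (z i))) -
          (((κ - 2 * m - 2) ^ n : ℝ) : ℂ) • ((1 - P) ⊗ₖ (1 : Matrix Y Y ℂ))).PosSemidef := by
  intro n
  induction n with
  | zero =>
    intro α c ν _ _ _ P hP _
    refine ⟨fun _ => 1 - P, fun z => ?_, fun z => ?_, ?_⟩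
    · rw [Apr, sub_sub_cancel]
      exact hP.psd
    · rw [Matrix.sub_mul, one_mul, hP.2, sub_self]
    · simp [Apr, PosSemidef.zero]
  | succ n ih =>
    intro α c ν hl hα hc P hP hm
    -- the projections on the ranges
    choose P₁ G hP1 hP2 hP3 hP4 using fun l => exists_range (α 0 l * P)
    have hm1 : ∀ l, (P₁ l).trace.re ≤ m := by
      intro l
      rw [hP4, Complex.ofReal_re]
      have h1 : ((α 0 l * P).rank : ℝ) ≤ (P.rank : ℝ) := by
        exact_mod_cast rank_mul_le_right _ _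
      have h2 : (P.rank : ℝ) = P.trace.re := by rw [isPr_trace hP, Complex.ofReal_re]
      linarith
    choose S hS1 hS2 hS3 using fun l => ih (fun i => α i.succ) (fun i => c i.succ)
      (fun i => ν i.succ) (fun i => hl i.succ)
      (fun i j hij => hα _ _ fun e => hij (Fin.succ_injective _ e))
      (fun i j hij => hc _ _ fun e => hij (Fin.succ_injective _ e)) (hP1 l) (hm1 l)
    have hcA : ∀ l (w : Fin n → L), α 0 l * Apr n (fun i => α i.succ (w i)) =
        Apr n (fun i => α i.succ (w i)) * α 0 l := fun l w =>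
      Apr.comm n _ fun j => hα _ _ (Fin.succ_ne_zero j).symm _ _
    have hcC : ∀ l (w : Fin n → L), c 0 l * Apr n (fun i => c i.succ (w i)) =
        Apr n (fun i => c i.succ (w i)) * c 0 l := fun l w =>
      Apr.comm n _ fun j => hc _ _ (Fin.succ_ne_zero j).symm _ _
    refine ⟨fun z => α 0 (z 0) * S (z 0) (fun j => z j.succ) * α 0 (z 0), fun z => ?_,
      fun z => ?_, ?_⟩
    · have e : Apr (n + 1) (fun i => α i (z i)) -
          α 0 (z 0) * S (z 0) (fun j => z j.succ) * α 0 (z 0) =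
          α 0 (z 0) * (Apr n (fun i => α i.succ (z i.succ)) - S (z 0) (fun j => z j.succ)) *
            (α 0 (z 0))ᴴ := by
        rw [((hl 0).pr _).1, Matrix.mul_sub, Matrix.sub_mul, Apr]
        congr 1
        rw [hcA (z 0) fun j => z j.succ, Matrix.mul_assoc, ((hl 0).pr _).2]
      rw [e]
      exact (hS1 (z 0) _).mul_mul_conjTranspose_same _
    · beta_reduce
      calc α 0 (z 0) * S (z 0) (fun j => z j.succ) * α 0 (z 0) * P =
          α 0 (z 0) * S (z 0) (fun j => z j.succ) * (α 0 (z 0) * P) := by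
            simp only [Matrix.mul_assoc]
        _ = α 0 (z 0) * (S (z 0) (fun j => z j.succ) * P₁ (z 0)) * (α 0 (z 0) * P) := by
            conv_lhs => rw [← hP2 (z 0)]
            simp only [Matrix.mul_assoc]
        _ = 0 := by rw [hS2, Matrix.mul_zero, Matrix.zero_mul]
    · -- the lower bound
      obtain ⟨q, hq⟩ : ∃ q, q = κ - 2 * m - 2 := ⟨_, rfl⟩
      rw [← hq] at hS3 hκ ⊢
      have e1 : ∑ z : Fin (n + 1) → L, ((∏ i, ν i (z i) : ℝ) : ℂ) •
          ((α 0 (z 0) * S (z 0) (fun j => z j.succ) * α 0 (z 0)) ⊗ₖ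
            Apr (n + 1) (fun i => c i (z i))) =
          ∑ l, (ν 0 l : ℂ) • ((α 0 l ⊗ₖ c 0 l) * (∑ w : Fin n → L,
            ((∏ i, ν i.succ (w i) : ℝ) : ℂ) • (S l w ⊗ₖ Apr n (fun i => c i.succ (w i)))) *
            (α 0 l ⊗ₖ c 0 l)) := by
        rw [sum_cons]
        refine Finset.sum_congr rfl fun l _ => ?_
        rw [Matrix.mul_sum, Matrix.sum_mul, Finset.smul_sum]
        refine Finset.sum_congr rfl fun w _ => ?_
        rw [Matrix.mul_smul, Matrix.smul_mul, smul_smul, ← mul_kronecker_mul,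
          ← mul_kronecker_mul, Fin.prod_univ_succ]
        simp only [Fin.cons_zero, Fin.cons_succ]
        rw [Complex.ofReal_mul]
        congr 2
        rw [Apr]
        simp only [Fin.cons_zero, Fin.cons_succ]
        rw [hcC l w, Matrix.mul_assoc, ((hl 0).pc l).2]
      have e2 : ∀ l, (α 0 l ⊗ₖ c 0 l) * ((1 - P₁ l) ⊗ₖ (1 : Matrix Y Y ℂ)) * (α 0 l ⊗ₖ c 0 l) =
          (α 0 l - P₁ l) ⊗ₖ c 0 l := by
        intro l
        have h1 : α 0 l * P₁ l = P₁ l := by
          rw [hP3, ← Matrix.mul_assoc, ← Matrix.mul_assoc, ((hl 0).pr l).2]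
        have h2 : P₁ l * α 0 l = P₁ l := by
          have h3 := congrArg conjTranspose h1
          rwa [conjTranspose_mul, ((hl 0).pr l).1, (hP1 l).1] at h3
        rw [← mul_kronecker_mul, ← mul_kronecker_mul, mul_one, ((hl 0).pc l).2, Matrix.mul_sub,
          mul_one, h1, Matrix.sub_mul, ((hl 0).pr l).2, h2]
      -- first lower bound
      have b1 : (∑ l, (ν 0 l : ℂ) • ((α 0 l ⊗ₖ c 0 l) * (∑ w : Fin n → L,
            ((∏ i, ν i.succ (w i) : ℝ) : ℂ) • (S l w ⊗ₖ Apr n (fun i => c i.succ (w i)))) *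
            (α 0 l ⊗ₖ c 0 l)) -
          ((q ^ n : ℝ) : ℂ) • ∑ l, (ν 0 l : ℂ) • ((α 0 l - P₁ l) ⊗ₖ c 0 l)).PosSemidef := by
        rw [Finset.smul_sum, ← Finset.sum_sub_distrib]
        refine posSemidef_sum _ fun l _ => ?_
        have h1 := (hS3 l).mul_mul_conjTranspose_same (α 0 l ⊗ₖ c 0 l)
        rw [conjTranspose_kronecker, ((hl 0).pr l).1, ((hl 0).pc l).1, Matrix.mul_sub,
          Matrix.sub_mul, Matrix.mul_smul, Matrix.smul_mul, e2] at h1
        have h2 := h1.smul (Complex.zero_le_real.mpr ((hl 0).nn l))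
        rw [smul_sub] at h2
        rw [smul_comm]
        exact h2
      have b2 : (∑ l, (ν 0 l : ℂ) • ((α 0 l - P₁ l) ⊗ₖ c 0 l) -
          ∑ l, (ν 0 l : ℂ) • (sh1 P (1 - α 0 l) ⊗ₖ c 0 l)).PosSemidef := by
        rw [← Finset.sum_sub_distrib]
        refine posSemidef_sum _ fun l _ => ?_
        have h1 : (1 - (1 - α 0 l) - sh1 P (1 - α 0 l)).PosSemidef :=
          sh1_le hP ((hl 0).pr l).compl
        rw [sub_sub_cancel] at h1
        have h2 := max_le ((hl 0).pr l) hP (hP1 l) (hP3 l) (sh1_mul hP)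
          (sh1_herm hP ((hl 0).pr l).compl) h1
        have h3 := (h2.kronecker ((hl 0).pc l).psd).smul (Complex.zero_le_real.mpr ((hl 0).nn l))
        have e : (ν 0 l : ℂ) • ((α 0 l - P₁ l) ⊗ₖ c 0 l) -
            (ν 0 l : ℂ) • (sh1 P (1 - α 0 l) ⊗ₖ c 0 l) =
            (ν 0 l : ℂ) • ((α 0 l - P₁ l - sh1 P (1 - α 0 l)) ⊗ₖ c 0 l) := by
          ext p q
          simp only [Matrix.smul_apply, kroneckerMap_apply, Matrix.sub_apply, smul_eq_mul]
          ring
        rw [e]
        exact h3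
      have b3 := one_step (hl 0) hP hm
      rw [← hq] at b3
      have hqn : (0 : ℂ) ≤ ((q ^ n : ℝ) : ℂ) := Complex.zero_le_real.mpr (pow_nonneg hκ n)
      rw [e1]
      have b4 := (b1.add (b2.smul hqn)).add (b3.smul hqn)
      convert b4 using 1
      rw [smul_sub, smul_sub, smul_smul, ← Complex.ofReal_mul, ← pow_succ]
      abel

end chain

end Vale.Agent.P372.Ou
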