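import Vale.Agent.P372.R2.helper492.Sites

/-! The balanced inequality from an observable of the eavesdropper. -/

open Matrix Kronecker
open scoped ComplexOrder MatrixOrder

set_option linter.unusedSectionVars false

namespace Vale.Agent.P372.Ou

section hs

variable {E G : Type} [Fintype E] [DecidableEq E] [Fintype G] [DecidableEq G]

theorem tn_mul_le_hs (K L : Matrix G E ℂ) : traceNorm (Kᴴ * L) ≤ √(hs K) * √(hs L) := by
  refine traceNorm_le_of_forall fun W hW => ?_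
  rw [← Matrix.mul_assoc]
  refine (norm_trace_mul_le_hs _ _).trans ?_
  refine mul_le_mul_of_nonneg_right (Real.sqrt_le_sqrt ?_) (Real.sqrt_nonneg _)
  rw [← hs_conjTranspose K]
  exact hs_mul_le_left hW.2 _

theorem re_tr_nonneg {X : Matrix E E ℂ} (h : X.PosSemidef) : 0 ≤ X.trace.re :=
  (Complex.le_def.mp h.trace_nonneg).1

theorem re_tr_mul_nonneg {X Y : Matrix E E ℂ} (hX : X.PosSemidef) (hY : Y.PosSemidef) :
    0 ≤ (X * Y).trace.re := by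
  obtain ⟨C, rfl⟩ := exists_eq_conjTranspose_mul_self hX
  have : (Cᴴ * C * Y).trace = (C * Y * Cᴴ).trace := by
    rw [Matrix.mul_assoc, trace_mul_comm]
  rw [this]
  exact re_tr_nonneg (hY.mul_mul_conjTranspose_same C)

end hs

theorem cs_num {F a b p q : ℝ} (ha : 0 ≤ a) (hb : 0 ≤ b) (hp : 0 ≤ p) (hq : 0 ≤ q) (hF : 0 ≤ F)
    (h : 2 * F ≤ √a * √q + √p * √b) : 4 * F ^ 2 ≤ (a + b) * (p + q) := by
  have h1 : (2 * F) ^ 2 ≤ (√a * √q + √p * √b) ^ 2 := pow_le_pow_left₀ (by positivity) h 2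
  have e1 := Real.sq_sqrt ha
  have e2 := Real.sq_sqrt hb
  have e3 := Real.sq_sqrt hp
  have e4 := Real.sq_sqrt hq
  have h2 : (√a * √q + √p * √b) ^ 2 ≤ (√a ^ 2 + √b ^ 2) * (√p ^ 2 + √q ^ 2) := by
    nlinarith [sq_nonneg (√a * √p - √q * √b)]
  rw [e1, e2, e3, e4] at h2
  linarith

/-- The scalar inequality behind the choice of the coefficients. -/
theorem label_num {a₀ a₁ b₀ b₁ : ℝ} (h0 : 0 ≤ a₀) (h1 : 0 ≤ a₁) (h2 : 0 ≤ b₀) (h3 : 0 ≤ b₁) :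
    ∃ c : ℝ, a₀ * b₀ + a₁ * b₁ - 2 * (c * (a₀ * b₀ - a₁ * b₁)) + c ^ 2 * ((a₀ + a₁) * (b₀ + b₁)) ≤
      a₀ * b₁ + a₁ * b₀ := by
  by_cases hs : (a₀ + a₁) * (b₀ + b₁) = 0
  · refine ⟨0, ?_⟩
    have e1 : 0 ≤ a₀ * b₀ := mul_nonneg h0 h2
    have e2 : 0 ≤ a₀ * b₁ := mul_nonneg h0 h3
    have e3 : 0 ≤ a₁ * b₀ := mul_nonneg h1 h2
    have e4 : 0 ≤ a₁ * b₁ := mul_nonneg h1 h3
    nlinarith
  · have hpos : 0 < (a₀ + a₁) * (b₀ + b₁) :=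
      lt_of_le_of_ne (by positivity) (Ne.symm hs)
    refine ⟨(a₀ * b₀ - a₁ * b₁) / ((a₀ + a₁) * (b₀ + b₁)), ?_⟩
    set s := (a₀ + a₁) * (b₀ + b₁) with hsdef
    have e : a₀ * b₀ + a₁ * b₁ - 2 * ((a₀ * b₀ - a₁ * b₁) / s * (a₀ * b₀ - a₁ * b₁)) +
        ((a₀ * b₀ - a₁ * b₁) / s) ^ 2 * s =
        ((a₀ * b₀ + a₁ * b₁) * s - (a₀ * b₀ - a₁ * b₁) ^ 2) / s := by
      field_simp
      ring
    rw [e, div_le_iff₀ hpos, hsdef]
    have e1 : 0 ≤ a₀ * b₀ := mul_nonneg h0 h2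
    have e4 : 0 ≤ a₁ * b₁ := mul_nonneg h1 h3
    nlinarith [sq_nonneg (a₀ * b₁ - a₁ * b₀)]

variable {A B L : Type} [Fintype A] [DecidableEq A] [Fintype B] [DecidableEq B] [Fintype L]
  [DecidableEq L]

theorem weight_eq (ρ : Matrix (A × B) (A × B) ℂ) (X : Matrix A A ℂ) (Y : Matrix B B ℂ) :
    weight ρ X Y = (((Xᴴ * X) ⊗ₖ (Yᴴ * Y)) * ρ).trace.re := by
  unfold weight
  rw [trace_mul_comm, ← Matrix.mul_assoc, mul_kronecker_mul, ← conjTranspose_kronecker]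

/-- The probabilities. -/
noncomputable def pr (R : Matrix (A × B) (A × B) ℂ) (P : Matrix A A ℂ) (Q : Matrix B B ℂ) : ℝ :=
  ((P ⊗ₖ Q) * R).trace.re

/-- There is an observable `k` of the eavesdropper which shows that she knows the outcomes. -/
def SO (R : Matrix (A × B) (A × B) ℂ) (P₀ P₁ : Matrix A A ℂ) (Q₀ Q₁ : Matrix B B ℂ) : Prop :=
  ∃ k : Matrix (A × B) (A × B) ℂ, (R * k)ᴴ = R * k ∧
    pr R P₀ Q₀ + pr R P₁ Q₁ - 2 * (pr (R * k) P₀ Q₀ - pr (R * k) P₁ Q₁) +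
      pr (R * k * k) (P₀ + P₁) (Q₀ + Q₁) ≤ pr R P₀ Q₁ + pr R P₁ Q₀

theorem core_k {R : Matrix (A × B) (A × B) ℂ} (hR : R.PosSemidef) (X₀ X₁ : Matrix A A ℂ)
    (Y₀ Y₁ : Matrix B B ℂ) (h : SO R (X₀ᴴ * X₀) (X₁ᴴ * X₁) (Y₀ᴴ * Y₀) (Y₁ᴴ * Y₁)) :
    4 * traceNorm ((X₀ ⊗ₖ Y₀) * R * (X₁ ⊗ₖ Y₁)ᴴ) ^ 2 ≤
      (weight R X₀ Y₀ + weight R X₁ Y₁) * (weight R X₀ Y₁ + weight R X₁ Y₀) := by
  obtain ⟨k, hk, hkk⟩ := h
  obtain ⟨C, hC⟩ := exists_eq_conjTranspose_mul_self hR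
  have hkR : kᴴ * R = R * k := by
    rw [← hk, conjTranspose_mul, hR.isHermitian.eq]
  set T₀ := X₀ ⊗ₖ Y₀ with hT₀
  set T₁ := X₁ ⊗ₖ Y₁ with hT₁
  have hTT : ∀ (X : Matrix A A ℂ) (Y : Matrix B B ℂ), (X ⊗ₖ Y)ᴴ * (X ⊗ₖ Y) =
      (Xᴴ * X) ⊗ₖ (Yᴴ * Y) := by
    intro X Y
    rw [mul_kronecker_mul, ← conjTranspose_kronecker]
  have hG : ((2 : ℝ) : ℂ) • (T₀ * R * T₁ᴴ) = (C * (1 - k) * T₀ᴴ)ᴴ * (C * T₁ᴴ) +
      (C * T₀ᴴ)ᴴ * (C * (1 + k) * T₁ᴴ) := by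
    have e1 : (C * (1 - k) * T₀ᴴ)ᴴ * (C * T₁ᴴ) = T₀ * (R - R * k) * T₁ᴴ := by
      rw [conjTranspose_mul, conjTranspose_mul, conjTranspose_conjTranspose, conjTranspose_sub,
        conjTranspose_one]
      have : T₀ * ((1 - kᴴ) * Cᴴ) * (C * T₁ᴴ) = T₀ * ((1 - kᴴ) * (Cᴴ * C)) * T₁ᴴ := by
        simp only [Matrix.mul_assoc]
      rw [this, ← hC, Matrix.sub_mul, Matrix.one_mul, hkR]
    have e2 : (C * T₀ᴴ)ᴴ * (C * (1 + k) * T₁ᴴ) = T₀ * (R + R * k) * T₁ᴴ := by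
      rw [conjTranspose_mul, conjTranspose_conjTranspose]
      have : T₀ * Cᴴ * (C * (1 + k) * T₁ᴴ) = T₀ * ((Cᴴ * C) * (1 + k)) * T₁ᴴ := by
        simp only [Matrix.mul_assoc]
      rw [this, ← hC, Matrix.mul_add, Matrix.mul_one]
    rw [e1, e2, ← Matrix.add_mul, ← Matrix.mul_add]
    have : R - R * k + (R + R * k) = ((2 : ℝ) : ℂ) • R := by
      push_cast
      rw [two_smul]
      abel
    rw [this, Matrix.mul_smul, Matrix.smul_mul]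
  have hF : 2 * traceNorm (T₀ * R * T₁ᴴ) ≤
      √(hs (C * (1 - k) * T₀ᴴ)) * √(hs (C * T₁ᴴ)) +
      √(hs (C * T₀ᴴ)) * √(hs (C * (1 + k) * T₁ᴴ)) := by
    have h1 : traceNorm (((2 : ℝ) : ℂ) • (T₀ * R * T₁ᴴ)) = 2 * traceNorm (T₀ * R * T₁ᴴ) := by
      rw [traceNorm_smul, Complex.norm_real]
      norm_num
    rw [← h1, hG]
    exact (traceNorm_add_le _ _).trans (add_le_add (tn_mul_le_hs _ _) (tn_mul_le_hs _ _))
  have hs0 : ∀ (X : Matrix A A ℂ) (Y : Matrix B B ℂ), hs (C * (X ⊗ₖ Y)ᴴ) = weight R X Y := by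
    intro X Y
    rw [hs_eq_re, weight, hC, conjTranspose_mul, conjTranspose_conjTranspose]
    simp only [Matrix.mul_assoc]
  have hs1 : ∀ (X : Matrix A A ℂ) (Y : Matrix B B ℂ) (e : ℝ),
      hs (C * (1 + (e : ℂ) • k) * (X ⊗ₖ Y)ᴴ) = weight R X Y +
        2 * e * pr (R * k) (Xᴴ * X) (Yᴴ * Y) + e ^ 2 * pr (R * k * k) (Xᴴ * X) (Yᴴ * Y) := by
    intro X Y e
    have e1 : (C * (1 + (e : ℂ) • k) * (X ⊗ₖ Y)ᴴ)ᴴ * (C * (1 + (e : ℂ) • k) * (X ⊗ₖ Y)ᴴ) =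
        (X ⊗ₖ Y) * (R + ((2 * e : ℝ) : ℂ) • (R * k) + ((e ^ 2 : ℝ) : ℂ) • (R * k * k)) *
          (X ⊗ₖ Y)ᴴ := by
      rw [conjTranspose_mul, conjTranspose_mul, conjTranspose_conjTranspose, conjTranspose_add,
        conjTranspose_one, conjTranspose_smul]
      have h1 : (X ⊗ₖ Y) * ((1 + star (e : ℂ) • kᴴ) * Cᴴ) * (C * (1 + (e : ℂ) • k) * (X ⊗ₖ Y)ᴴ) =
          (X ⊗ₖ Y) * ((1 + star (e : ℂ) • kᴴ) * (Cᴴ * C) * (1 + (e : ℂ) • k)) * (X ⊗ₖ Y)ᴴ := by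
        simp only [Matrix.mul_assoc]
      rw [h1, ← hC]
      congr 2
      have h2 : star (e : ℂ) = (e : ℂ) := by simp
      rw [h2, Matrix.add_mul, Matrix.one_mul, Matrix.smul_mul, hkR, Matrix.mul_add,
        Matrix.mul_one, Matrix.mul_smul, Matrix.add_mul, Matrix.smul_mul, smul_add,
        smul_smul]
      push_cast
      rw [two_mul, add_smul, sq]
      abel
    rw [hs_eq_re, e1, trace_mul_comm, ← Matrix.mul_assoc, hTT, Matrix.mul_add, Matrix.mul_add,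
      trace_add, trace_add, Matrix.mul_smul, Matrix.mul_smul, trace_smul, trace_smul,
      Complex.add_re, Complex.add_re, smul_eq_mul, smul_eq_mul, Complex.re_ofReal_mul,
      Complex.re_ofReal_mul, weight_eq, pr, pr]
  have hRkpsd : (R * k * k).PosSemidef := by
    rw [← hkR]
    exact hR.conjTranspose_mul_mul_same k
  have hpos : ∀ (X : Matrix A A ℂ) (Y : Matrix B B ℂ),
      0 ≤ pr (R * k * k) (Xᴴ * X) (Yᴴ * Y) := fun X Y =>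
    re_tr_mul_nonneg ((posSemidef_conjTranspose_mul_self X).kronecker
      (posSemidef_conjTranspose_mul_self Y)) hRkpsd
  have hcross : pr (R * k * k) (X₀ᴴ * X₀) (Y₀ᴴ * Y₀) + pr (R * k * k) (X₁ᴴ * X₁) (Y₁ᴴ * Y₁) ≤
      pr (R * k * k) (X₀ᴴ * X₀ + X₁ᴴ * X₁) (Y₀ᴴ * Y₀ + Y₁ᴴ * Y₁) := by
    have h1 := hpos X₀ Y₁
    have h2 := hpos X₁ Y₀
    simp only [pr] at h1 h2 ⊢
    rw [add_kronecker, kronecker_add, kronecker_add, Matrix.add_mul, Matrix.add_mul,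
      Matrix.add_mul, trace_add, trace_add, trace_add, Complex.add_re, Complex.add_re,
      Complex.add_re]
    linarith
  have e0 : hs (C * (1 - k) * T₀ᴴ) = weight R X₀ Y₀ -
      2 * pr (R * k) (X₀ᴴ * X₀) (Y₀ᴴ * Y₀) + pr (R * k * k) (X₀ᴴ * X₀) (Y₀ᴴ * Y₀) := by
    have := hs1 X₀ Y₀ (-1)
    have h1 : (1 : Matrix (A × B) (A × B) ℂ) + ((-1 : ℝ) : ℂ) • k = 1 - k := by
      push_cast
      rw [neg_smul, one_smul, sub_eq_add_neg]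
    rw [h1] at this
    rw [hT₀, this]
    ring
  have e1 : hs (C * (1 + k) * T₁ᴴ) = weight R X₁ Y₁ +
      2 * pr (R * k) (X₁ᴴ * X₁) (Y₁ᴴ * Y₁) + pr (R * k * k) (X₁ᴴ * X₁) (Y₁ᴴ * Y₁) := by
    have := hs1 X₁ Y₁ 1
    have h1 : (1 : Matrix (A × B) (A × B) ℂ) + ((1 : ℝ) : ℂ) • k = 1 + k := by
      push_cast
      rw [one_smul]
    rw [h1] at this
    rw [hT₁, this]
    ring
  have n0 : 0 ≤ hs (C * (1 - k) * T₀ᴴ) := hs_nonneg _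
  have n1 : 0 ≤ hs (C * (1 + k) * T₁ᴴ) := hs_nonneg _
  have n2 : 0 ≤ hs (C * T₀ᴴ) := hs_nonneg _
  have n3 : 0 ≤ hs (C * T₁ᴴ) := hs_nonneg _
  have hmain := cs_num n0 n1 n2 n3 (traceNorm_nonneg _) hF
  rw [hs0 X₀ Y₀, hs0 X₁ Y₁, e0, e1] at hmain
  refine hmain.trans ?_
  rw [mul_comm]
  have w0 : 0 ≤ weight R X₀ Y₀ + weight R X₁ Y₁ := by
    rw [← hs0, ← hs0]
    exact add_nonneg (hs_nonneg _) (hs_nonneg _)
  refine mul_le_mul_of_nonneg_left ?_ w0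
  have hw : ∀ (X : Matrix A A ℂ) (Y : Matrix B B ℂ), weight R X Y = pr R (Xᴴ * X) (Yᴴ * Y) :=
    fun X Y => weight_eq R X Y
  rw [hw, hw, hw, hw]
  linarith

theorem exists_scale {a b ε : ℝ} (ha : 0 ≤ a) (hb : 0 ≤ b) (hε : 0 < ε) :
    ∃ s : ℝ, 0 < s ∧ s * a + b / s ≤ 2 * √(a * b) + ε := by
  rcases ha.eq_or_lt with h | h
  · refine ⟨b / ε + 1, by positivity, ?_⟩
    rw [← h, zero_mul, Real.sqrt_zero, mul_zero, mul_zero, zero_add, zero_add,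
      div_le_iff₀ (by positivity)]
    have : ε * (b / ε + 1) = b + ε := by field_simp
    rw [this]
    linarith
  · rcases hb.eq_or_lt with h' | h'
    · refine ⟨ε / a, by positivity, ?_⟩
      rw [← h', mul_zero, Real.sqrt_zero, mul_zero, zero_div, add_zero, zero_add,
        div_mul_cancel₀ _ h.ne']
    · refine ⟨√(b / a), Real.sqrt_pos.mpr (by positivity), ?_⟩
      have e1 : √(b / a) * a = √(a * b) := by
        have : a * b = (b / a) * a ^ 2 := by field_simp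
        rw [this, Real.sqrt_mul (by positivity), Real.sqrt_sq ha]
      have e2 : b / √(b / a) = √(a * b) := by
        rw [div_eq_iff (Real.sqrt_pos.mpr (by positivity)).ne', ← Real.sqrt_mul (by positivity)]
        have : a * b * (b / a) = b ^ 2 := by field_simp
        rw [this, Real.sqrt_sq hb]
      rw [e1, e2]
      linarith

theorem scale_inf {F p00 p01 p10 p11 : ℝ} (h00 : 0 ≤ p00) (h01 : 0 ≤ p01)
    (h10 : 0 ≤ p10) (h11 : 0 ≤ p11)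
    (h : ∀ s r : ℝ, 0 < s → 0 < r → 4 * F ^ 2 ≤ (s * p00 + p11 / s) * (r * p01 + p10 / r)) :
    F ^ 4 ≤ p00 * p01 * p10 * p11 := by
  set x := √(p00 * p11) with hx
  set y := √(p01 * p10) with hy
  have hx0 : 0 ≤ x := Real.sqrt_nonneg _
  have hy0 : 0 ≤ y := Real.sqrt_nonneg _
  have hx2 : x ^ 2 = p00 * p11 := Real.sq_sqrt (mul_nonneg h00 h11)
  have hy2 : y ^ 2 = p01 * p10 := Real.sq_sqrt (mul_nonneg h01 h10)
  have key : F ^ 2 ≤ x * y := by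
    by_contra hcon
    push Not at hcon
    set g := F ^ 2 - x * y with hg
    have hg0 : 0 < g := by linarith
    have hc : 0 < 2 * (x + y) + 1 := by positivity
    set ε := min 1 (g / (2 * (x + y) + 1)) with hε
    have hε0 : 0 < ε := lt_min one_pos (div_pos hg0 hc)
    have hε1 : ε ≤ 1 := min_le_left _ _
    have hε2 : ε * (2 * (x + y) + 1) ≤ g := by
      rw [← le_div_iff₀ hc]
      exact min_le_right _ _
    obtain ⟨s, hs, hs'⟩ := exists_scale h00 h11 hε0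
    obtain ⟨r, hr, hr'⟩ := exists_scale h01 h10 hε0
    have h1 := h s r hs hr
    have h2 : (s * p00 + p11 / s) * (r * p01 + p10 / r) ≤ (2 * x + ε) * (2 * y + ε) :=
      mul_le_mul hs' hr' (by positivity) (by positivity)
    nlinarith
  have h1 : (F ^ 2) ^ 2 ≤ (x * y) ^ 2 := pow_le_pow_left₀ (by positivity) key 2
  calc F ^ 4 = (F ^ 2) ^ 2 := by ring
    _ ≤ (x * y) ^ 2 := h1
    _ = p00 * p01 * p10 * p11 := by rw [mul_pow, hx2, hy2]; ring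


theorem conj_smul' (ρ : Matrix (A × B) (A × B) ℂ) (α β γ δ : ℝ) (X X' : Matrix A A ℂ)
    (Y Y' : Matrix B B ℂ) :
    (((α : ℂ) • X) ⊗ₖ ((β : ℂ) • Y)) * ρ * (((γ : ℂ) • X') ⊗ₖ ((δ : ℂ) • Y'))ᴴ =
      ((α * β * γ * δ : ℝ) : ℂ) • ((X ⊗ₖ Y) * ρ * (X' ⊗ₖ Y')ᴴ) := by
  simp only [smul_kronecker, kronecker_smul, conjTranspose_smul, Matrix.smul_mul,
      Matrix.mul_smul, smul_smul, RCLike.star_def, map_mul, Complex.conj_ofReal]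
  congr 1
  push_cast
  ring

theorem weight_smul (ρ : Matrix (A × B) (A × B) ℂ) (α β : ℝ) (X : Matrix A A ℂ)
    (Y : Matrix B B ℂ) : weight ρ ((α : ℂ) • X) ((β : ℂ) • Y) = α ^ 2 * β ^ 2 * weight ρ X Y := by
  rw [weight, conj_smul', trace_smul, smul_eq_mul, Complex.re_ofReal_mul, weight]
  ring

theorem weight_nonneg {ρ : Matrix (A × B) (A × B) ℂ} (hρ : ρ.PosSemidef) (X : Matrix A A ℂ)
    (Y : Matrix B B ℂ) : 0 ≤ weight ρ X Y :=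
  re_tr_nonneg (hρ.mul_mul_conjTranspose_same _)

/-- Passing from the balanced inequality to the test. -/
theorem test_of_balanced {ρ : Matrix (A × B) (A × B) ℂ} (hρ : ρ.PosSemidef)
    (X₀ X₁ : Matrix A A ℂ) (Y₀ Y₁ : Matrix B B ℂ)
    (h : ∀ α β : ℝ, 0 < α → 0 < β →
      4 * traceNorm ((((α : ℂ) • X₀) ⊗ₖ ((β : ℂ) • Y₀)) * ρ *
        ((((α⁻¹ : ℝ) : ℂ) • X₁) ⊗ₖ (((β⁻¹ : ℝ) : ℂ) • Y₁))ᴴ) ^ 2 ≤
      (weight ρ ((α : ℂ) • X₀) ((β : ℂ) • Y₀) +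
        weight ρ (((α⁻¹ : ℝ) : ℂ) • X₁) (((β⁻¹ : ℝ) : ℂ) • Y₁)) *
      (weight ρ ((α : ℂ) • X₀) (((β⁻¹ : ℝ) : ℂ) • Y₁) +
        weight ρ (((α⁻¹ : ℝ) : ℂ) • X₁) ((β : ℂ) • Y₀))) :
    traceNorm ((X₀ ⊗ₖ Y₀) * ρ * (X₁ ⊗ₖ Y₁)ᴴ) ^ 4 ≤
      weight ρ X₀ Y₀ * weight ρ X₀ Y₁ * weight ρ X₁ Y₀ * weight ρ X₁ Y₁ := by
  refine scale_inf (weight_nonneg hρ _ _) (weight_nonneg hρ _ _)
    (weight_nonneg hρ _ _) (weight_nonneg hρ _ _) fun s r hs hr => ?_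
  have hα2 : √√(s * r) ^ 2 = √(s * r) := Real.sq_sqrt (Real.sqrt_nonneg _)
  have hβ2 : √√(s / r) ^ 2 = √(s / r) := Real.sq_sqrt (Real.sqrt_nonneg _)
  have hα : 0 < √√(s * r) := Real.sqrt_pos.mpr (Real.sqrt_pos.mpr (by positivity))
  have hβ : 0 < √√(s / r) := Real.sqrt_pos.mpr (Real.sqrt_pos.mpr (by positivity))
  have h1 := h _ _ hα hβ
  set α := √√(s * r)
  set β := √√(s / r)
  rw [conj_smul', traceNorm_smul, weight_smul, weight_smul, weight_smul, weight_smul] at h1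
  have e1 : α * β * α⁻¹ * β⁻¹ = 1 := by field_simp
  rw [e1] at h1
  have e2 : α ^ 2 * β ^ 2 = s := by
    rw [hα2, hβ2, ← Real.sqrt_mul (by positivity)]
    have : s * r * (s / r) = s ^ 2 := by field_simp
    rw [this, Real.sqrt_sq hs.le]
  have e3 : α ^ 2 * β⁻¹ ^ 2 = r := by
    rw [inv_pow, hα2, hβ2, ← div_eq_mul_inv, ← Real.sqrt_div (by positivity)]
    have : s * r / (s / r) = r ^ 2 := by field_simp
    rw [this, Real.sqrt_sq hr.le]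
  have e4 : α⁻¹ ^ 2 * β⁻¹ ^ 2 = s⁻¹ := by
    rw [← e2]
    field_simp
  have e5 : α⁻¹ ^ 2 * β ^ 2 = r⁻¹ := by
    rw [← e3]
    field_simp
  rw [e2, e3, e4, e5] at h1
  simp only [Complex.ofReal_one, norm_one, one_mul] at h1
  rw [div_eq_inv_mul, div_eq_inv_mul]
  exact h1


/-- The test inequality from observables for all rescaled tests. -/
theorem TT_of_SO {R : Matrix (A × B) (A × B) ℂ} (hR : R.PosSemidef) (X₀ X₁ : Matrix A A ℂ)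
    (Y₀ Y₁ : Matrix B B ℂ)
    (h : ∀ a b : ℝ, 0 < a → 0 < b → SO R ((a : ℂ) • (X₀ᴴ * X₀)) (((a⁻¹ : ℝ) : ℂ) • (X₁ᴴ * X₁))
      ((b : ℂ) • (Y₀ᴴ * Y₀)) (((b⁻¹ : ℝ) : ℂ) • (Y₁ᴴ * Y₁))) :
    PC.TT R X₀ X₁ Y₀ Y₁ := by
  refine test_of_balanced hR X₀ X₁ Y₀ Y₁ fun α β hα hβ => core_k hR _ _ _ _ ?_
  have e : ∀ {E : Type} [Fintype E] (x : ℝ) (X : Matrix E E ℂ),
      (((x : ℝ) : ℂ) • X)ᴴ * (((x : ℝ) : ℂ) • X) = ((x ^ 2 : ℝ) : ℂ) • (Xᴴ * X) := by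
    intro E _ x X
    rw [conjTranspose_smul, Matrix.smul_mul, Matrix.mul_smul, smul_smul]
    congr 1
    push_cast
    rw [RCLike.star_def, Complex.conj_ofReal]
    ring
  have h1 := h (α ^ 2) (β ^ 2) (by positivity) (by positivity)
  rw [e, e, e, e]
  rwa [inv_pow, inv_pow]

end Vale.Agent.P372.Ou
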