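import Vale.Agent.P372.R2.helper492.Ou.Defs

open Matrix
open scoped ComplexOrder

namespace Vale.Agent.P372

/-- The operators `P k` on `n` systems are effects of the classical data of measurements of the
systems with noise `η` and any number `M` of outcomes: `P k` is a combination, with nonnegative
coefficients, of tensor products of effects `C i j` with `C i j ≥ η tr (C i j)`. -/
def NoisyData {A κ : Type} [Fintype A] [DecidableEq A] {n : ℕ} (η : ℝ)
    (P : κ → Matrix (Fin n → A) (Fin n → A) ℂ) : Prop :=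
  ∃ (M : ℕ) (C : Fin n → Fin M → Matrix A A ℂ),
    (∀ i j, (C i j).PosSemidef ∧ (C i j - ((η : ℂ) * (C i j).trace) • 1).PosSemidef) ∧
    ∀ k, ∃ q : (Fin n → Fin M) → ℝ, (∀ w, 0 ≤ q w) ∧
      P k = ∑ w, (q w : ℂ) • tens fun i => C i (w i)

/-- No protocol on any number `n` of copies of the state `ρ` makes a key (even of one bit) with
error at most `1/64`, provided that for every transcript `t` Alice's effects, or Bob's effects, are
effects of the data of measurements of the copies with noise `η`. -/
def NoKeyNoisy {A B : Type} [Fintype A] [DecidableEq A] [Fintype B] [DecidableEq B]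
    (ρ : Matrix (A × B) (A × B) ℂ) (η : ℝ) : Prop :=
  ∀ (E : Type) [Fintype E] [DecidableEq E] (Ψ : Matrix (A × B) E ℂ), Ψ * Ψᴴ = ρ →
  ∀ (n ℓ : ℕ), 0 < ℓ → ∀ (T : Type) [Fintype T]
    (f : T → (Fin ℓ → Bool) → Matrix (Fin n → A) (Fin n → A) ℂ)
    (g : T → (Fin ℓ → Bool) → Matrix (Fin n → B) (Fin n → B) ℂ),
    LOCC (Fin ℓ → Bool) (Fin n → A) (Fin n → B) T f g →
    (∀ t, NoisyData η (f t) ∨ NoisyData η (g t)) →
    ¬ KeyError f g (copies n Ψ) (1 / 64)

end Vale.Agent.P372
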