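import Vale.Agent.P372.R2.helper492.Ou.Defs

open Matrix
open scoped ComplexOrder

namespace Vale.Agent.P372

/-- The Kraus operators of the depolarizing channel `X ↦ (1 - η) X + η tr(X) 1 / d` of a system of
dimension `d`: `√(1 - η)` and the matrix units times `√(η / d)`. -/
noncomputable def depol {A : Type} [Fintype A] [DecidableEq A] (η : ℝ) (v : Option (A × A)) :
    Matrix A A ℂ :=
  v.elim (((√(1 - η) : ℝ) : ℂ) • 1)
    fun x => ((√(η / Fintype.card A) : ℝ) : ℂ) • Matrix.single x.1 x.2 1

/-- The operator `Q` on `n` systems is a possible effect after depolarizing noise of strength `η i`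
of each system `i`. -/
def Noisy {A : Type} [Fintype A] [DecidableEq A] {n : ℕ} (η : Fin n → ℝ)
    (Q : Matrix (Fin n → A) (Fin n → A) ℂ) : Prop :=
  ∃ Z : Matrix (Fin n → A) (Fin n → A) ℂ, Z.PosSemidef ∧
    Q = ∑ w : Fin n → Option (A × A), (tens fun i => depol (η i) (w i))ᴴ * Z *
      tens fun i => depol (η i) (w i)

/-- No protocol on any number `n` of copies of the state `ρ` makes a key (even of one bit) with
error at most `1/64`, provided that for every transcript `t` there is a set `S` of copies such that
Alice's effects `f t k` are effects after depolarizing noise of strength `η` of her systems of the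
copies in `S`, and Bob's effects `g t k` are so for his systems of the other copies. Eve holds the
purification `Ψ` of `ρ` and the transcript, but nothing of the noise. -/
def NoKeyNoise {A B : Type} [Fintype A] [DecidableEq A] [Fintype B] [DecidableEq B]
    (ρ : Matrix (A × B) (A × B) ℂ) (η : ℝ) : Prop :=
  ∀ (E : Type) [Fintype E] [DecidableEq E] (Ψ : Matrix (A × B) E ℂ), Ψ * Ψᴴ = ρ →
  ∀ (n ℓ : ℕ), 0 < ℓ → ∀ (T : Type) [Fintype T]
    (f : T → (Fin ℓ → Bool) → Matrix (Fin n → A) (Fin n → A) ℂ)
    (g : T → (Fin ℓ → Bool) → Matrix (Fin n → B) (Fin n → B) ℂ),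
    LOCC (Fin ℓ → Bool) (Fin n → A) (Fin n → B) T f g →
    (∀ t, ∃ S : Finset (Fin n), (∀ k, Noisy (fun i => if i ∈ S then η else 0) (f t k)) ∧
      ∀ k, Noisy (fun i => if i ∈ S then 0 else η) (g t k)) →
    ¬ KeyError f g (copies n Ψ) (1 / 64)

end Vale.Agent.P372
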