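import Vale.Agent.P372.R2.helper492.Ou.Defs

open Matrix
open scoped ComplexOrder

namespace Vale.Agent.P372

/-- The Kraus operators of the channel `X ↦ (1 - η) X + η N(X)`, where `N` is the channel with the
Kraus operators `K j`. -/
noncomputable def noise {A J : Type} [DecidableEq A] (η : ℝ) (K : J → Matrix A A ℂ)
    (v : Option J) : Matrix A A ℂ :=
  v.elim (((√(1 - η) : ℝ) : ℂ) • 1) fun j => ((√η : ℝ) : ℂ) • K j

/-- The operators `Q k` on `n` systems are possible effects after noise on the systems in `S`: each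
system `i` in `S` first passes the channel `X ↦ (1 - η) X + η N(X)`, where `N` is a channel with
Kraus operators `K i j` of rank at most `m` (their number `M` is arbitrary) and `N(1) ≥ t`. The
channels may differ from system to system, but do not depend on `k`. -/
def AfterNoise {A κ : Type} [Fintype A] [DecidableEq A] {n : ℕ} (m : ℕ) (η t : ℝ)
    (S : Finset (Fin n)) (Q : κ → Matrix (Fin n → A) (Fin n → A) ℂ) : Prop :=
  ∃ (M : ℕ) (K : Fin n → Fin M → Matrix A A ℂ),
    (∀ i ∈ S, (∀ j, (K i j).rank ≤ m) ∧ ∑ j, (K i j)ᴴ * K i j = 1 ∧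
      (∑ j, K i j * (K i j)ᴴ - (t : ℂ) • 1).PosSemidef) ∧
    ∀ k, ∃ Z : Matrix (Fin n → A) (Fin n → A) ℂ, Z.PosSemidef ∧
      Q k = ∑ w : Fin n → Option (Fin M), (tens fun i => noise (if i ∈ S then η else 0) (K i)
        (w i))ᴴ * Z * tens fun i => noise (if i ∈ S then η else 0) (K i) (w i)

/-- No protocol on any number `n` of copies of the state `ρ` makes a key (even of one bit) with
error at most `1/64`, provided that for every transcript `τ` there is a set `S` of copies such that
Alice's effects `f τ k` are effects after noise of strength `η` on her systems of the copies in `S`,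
and Bob's effects `g τ k` are so for his systems of the other copies. Eve holds the purification `Ψ`
of `ρ` and the transcript, but nothing of the noise. -/
def NoKeyAfter {A B : Type} [Fintype A] [DecidableEq A] [Fintype B] [DecidableEq B]
    (ρ : Matrix (A × B) (A × B) ℂ) (m : ℕ) (η t : ℝ) : Prop :=
  ∀ (E : Type) [Fintype E] [DecidableEq E] (Ψ : Matrix (A × B) E ℂ), Ψ * Ψᴴ = ρ →
  ∀ (n ℓ : ℕ), 0 < ℓ → ∀ (T : Type) [Fintype T]
    (f : T → (Fin ℓ → Bool) → Matrix (Fin n → A) (Fin n → A) ℂ)
    (g : T → (Fin ℓ → Bool) → Matrix (Fin n → B) (Fin n → B) ℂ),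
    LOCC (Fin ℓ → Bool) (Fin n → A) (Fin n → B) T f g →
    (∀ τ, ∃ S : Finset (Fin n), AfterNoise m η t S (f τ) ∧ AfterNoise m η t Sᶜ (g τ)) →
    ¬ KeyError f g (copies n Ψ) (1 / 64)

end Vale.Agent.P372
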