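import Vale.Agent.P372.R2.helper492.Ou.Noise3

/-! Two lower bounds for the quadratic form of a perturbed layer. -/

open Matrix Kronecker
open scoped ComplexOrder MatrixOrder

set_option linter.unusedSectionVars false

namespace Vale.Agent.P372.Ou

open Vale.Agent.P372.PC (IsPr)

section qf

variable {E : Type} [Fintype E] [DecidableEq E]

/-- The values of a quadratic form. -/
noncomputable def qf (M : Matrix E E ℂ) (x : E → ℂ) : ℝ := (star x ⬝ᵥ (M *ᵥ x)).re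

theorem qf_nonneg {M : Matrix E E ℂ} (h : M.PosSemidef) (x : E → ℂ) : 0 ≤ qf M x :=
  (Complex.le_def.mp (h.dotProduct_mulVec_nonneg x)).1

theorem qf_add (M N : Matrix E E ℂ) (x : E → ℂ) : qf (M + N) x = qf M x + qf N x := by
  rw [qf, add_mulVec, dotProduct_add, Complex.add_re, qf, qf]

theorem qf_sub (M N : Matrix E E ℂ) (x : E → ℂ) : qf (M - N) x = qf M x - qf N x := by
  rw [qf, sub_mulVec, dotProduct_sub, Complex.sub_re, qf, qf]

theorem qf_smul (c : ℝ) (M : Matrix E E ℂ) (x : E → ℂ) : qf ((c : ℂ) • M) x = c * qf M x := by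
  rw [qf, smul_mulVec, dotProduct_smul, smul_eq_mul, Complex.re_ofReal_mul, qf]

theorem qf_sum {J : Type} (s : Finset J) (M : J → Matrix E E ℂ) (x : E → ℂ) :
    qf (∑ j ∈ s, M j) x = ∑ j ∈ s, qf (M j) x := by
  simp only [qf]
  rw [sum_mulVec, dotProduct_sum, Complex.re_sum]

theorem qf_one (x : E → ℂ) : qf (1 : Matrix E E ℂ) x = nq x := by
  rw [qf, one_mulVec, dot_self, Complex.ofReal_re]

theorem qf_neg (M : Matrix E E ℂ) (x : E → ℂ) : qf M (-x) = qf M x := by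
  rw [qf, mulVec_neg, star_neg, neg_dotProduct, dotProduct_neg, neg_neg, qf]

theorem qf_law (M : Matrix E E ℂ) (u v : E → ℂ) :
    qf M (u + v) + qf M (u - v) = 2 * qf M u + 2 * qf M v := by
  simp only [qf, mulVec_add, mulVec_sub, star_add, star_sub, add_dotProduct, sub_dotProduct,
    dotProduct_add, dotProduct_sub, Complex.add_re, Complex.sub_re]
  ring

theorem qf_low {M : Matrix E E ℂ} (h : M.PosSemidef) (x y : E → ℂ) :
    1 / 2 * qf M x - qf M y ≤ qf M (x - y) := by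
  have h1 := qf_law M (x - y) y
  have h2 := qf_nonneg h (x - y - y)
  rw [sub_add_cancel] at h1
  linarith

theorem qf_up {M : Matrix E E ℂ} (h : M.PosSemidef) (x y : E → ℂ) :
    qf M (x - y) ≤ 2 * qf M x + 2 * qf M y := by
  have h1 := qf_law M x y
  have h2 := qf_nonneg h (x + y)
  linarith

theorem qf_conj {F : Type} [Fintype F] [DecidableEq F] (T : Matrix F E ℂ) (M : Matrix E E ℂ)
    (x : F → ℂ) : qf (T * M * Tᴴ) x = qf M (Tᴴ *ᵥ x) := by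
  rw [qf, qf, star_mulVec, conjTranspose_conjTranspose, ← mulVec_mulVec, ← mulVec_mulVec,
    dotProduct_mulVec]

theorem qf_le {M N : Matrix E E ℂ} (h : (N - M).PosSemidef) (x : E → ℂ) : qf M x ≤ qf N x := by
  have := qf_nonneg h x
  rw [qf_sub] at this
  linarith

end qf

section lay

variable {X Y L : Type} [Fintype X] [DecidableEq X] [Fintype Y] [DecidableEq Y] [Fintype L]
  [DecidableEq L]

theorem lay_total {α : L → Matrix X X ℂ} {c : L → Matrix Y Y ℂ} {ν : L → ℝ} {κ : ℝ}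
    (hl : Lay α c ν κ) : ∑ l, (ν l : ℂ) • ((1 : Matrix X X ℂ) ⊗ₖ c l) = (κ : ℂ) • 1 := by
  have h1 : ∑ l, (ν l : ℂ) • ((1 : Matrix X X ℂ) ⊗ₖ c l) =
      (1 : Matrix X X ℂ) ⊗ₖ ∑ l, (ν l : ℂ) • c l := by
    rw [kron_sum_right]
    refine Finset.sum_congr rfl fun l _ => ?_
    rw [kronecker_smul]
  rw [h1, hl.one, kronecker_smul, one_kronecker_one]

theorem lay_low {α : L → Matrix X X ℂ} {c : L → Matrix Y Y ℂ} {ν : L → ℝ} {κ : ℝ}
    (hl : Lay α c ν κ) :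
    (∑ l, (ν l : ℂ) • (α l ⊗ₖ c l) - ((κ - 2 : ℝ) : ℂ) • 1).PosSemidef := by
  have h1 : ∑ l, (ν l : ℂ) • (α l ⊗ₖ c l) - ((κ - 2 : ℝ) : ℂ) • 1 =
      (2 : ℂ) • 1 - ∑ l, (ν l : ℂ) • ((1 - α l) ⊗ₖ c l) := by
    have h2 : ∑ l, (ν l : ℂ) • ((1 - α l) ⊗ₖ c l) = (κ : ℂ) • 1 -
        ∑ l, (ν l : ℂ) • (α l ⊗ₖ c l) := by
      rw [← lay_total hl, ← Finset.sum_sub_distrib]
      refine Finset.sum_congr rfl fun l _ => ?_
      rw [← smul_sub]
      congr 1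
      ext p q
      simp only [kroneckerMap_apply, Matrix.sub_apply]
      ring
    rw [h2]
    push_cast
    module
  rw [h1]
  exact hl.two

/-- The layer and its perturbation. -/
theorem pert_low {α α' : L → Matrix X X ℂ} {c : L → Matrix Y Y ℂ} {ν : L → ℝ} {κ ε : ℝ}
    (hl : Lay α c ν κ) (hb : ∀ l, Bd (α' l - α l) ε) (hε : 0 ≤ ε) (l : L) (x y : X × Y → ℂ) :
    qf ((ν l : ℂ) • (α l ⊗ₖ c l)) (x - y) -
      2 * ε * qf ((ν l : ℂ) • ((1 : Matrix X X ℂ) ⊗ₖ c l)) x -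
      2 * ε * qf ((ν l : ℂ) • ((1 : Matrix X X ℂ) ⊗ₖ c l)) y ≤
      qf (((ν l : ℂ) • α' l) ⊗ₖ c l) (x - y) := by
  have h1 : ((ν l : ℂ) • (((ε : ℂ) • 1 + (α' l - α l)) ⊗ₖ c l)).PosSemidef :=
    ((hb l).2.kronecker (hl.pc l).psd).smul (Complex.zero_le_real.mpr (hl.nn l))
  have h2 := qf_nonneg h1 (x - y)
  have h3 : (ν l : ℂ) • (((ε : ℂ) • 1 + (α' l - α l)) ⊗ₖ c l) =
      (ε : ℂ) • ((ν l : ℂ) • ((1 : Matrix X X ℂ) ⊗ₖ c l)) + ((ν l : ℂ) • α' l) ⊗ₖ c l -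
        (ν l : ℂ) • (α l ⊗ₖ c l) := by
    ext p q
    simp only [Matrix.smul_apply, Matrix.add_apply, Matrix.sub_apply, kroneckerMap_apply,
      smul_eq_mul]
    ring
  rw [h3, qf_sub, qf_add, qf_smul] at h2
  have h4 : ((ν l : ℂ) • ((1 : Matrix X X ℂ) ⊗ₖ c l)).PosSemidef :=
    (PosSemidef.one.kronecker (hl.pc l).psd).smul (Complex.zero_le_real.mpr (hl.nn l))
  have h5 := qf_up h4 x y
  nlinarith

/-- The first bound. -/
theorem bound_one {α α' : L → Matrix X X ℂ} {c : L → Matrix Y Y ℂ} {ν : L → ℝ} {κ ε : ℝ}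
    (hl : Lay α c ν κ) (hb : ∀ l, Bd (α' l - α l) ε) (hε : 0 ≤ ε) (hκ : 2 < κ)
    (h4 : 4 * ε * κ ≤ κ - 2) (ψ : L → X × Y → ℂ) (ξ ξ' : X × Y → ℂ) :
    -((4 * ε * κ / (κ - 2) + 2 * ε) *
      ∑ l, qf ((ν l : ℂ) • ((1 : Matrix X X ℂ) ⊗ₖ c l)) (ψ l - ξ')) ≤
      ∑ l, qf (((ν l : ℂ) • α' l) ⊗ₖ c l) (ψ l - ξ) := by
  obtain ⟨y, hy⟩ : ∃ y, y = ξ - ξ' := ⟨_, rfl⟩
  have hxy : ∀ l, ψ l - ξ = (ψ l - ξ') - y := by
    intro l
    rw [hy]
    abel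
  simp only [hxy]
  obtain ⟨θ, hθ⟩ : ∃ θ, θ = 4 * ε * κ / (κ - 2) := ⟨_, rfl⟩
  have hκ2 : 0 < κ - 2 := by linarith
  have hθ0 : 0 ≤ θ := by rw [hθ]; positivity
  have hθ1 : θ ≤ 1 := by
    rw [hθ, div_le_one hκ2]
    exact h4
  have hθκ : θ * (κ - 2) = 4 * ε * κ := by
    rw [hθ]
    field_simp
  rw [← hθ]
  have hp : ∀ l, ((ν l : ℂ) • (α l ⊗ₖ c l)).PosSemidef := fun l =>
    ((hl.pr l).psd.kronecker (hl.pc l).psd).smul (Complex.zero_le_real.mpr (hl.nn l))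
  have h1 : ∀ l, θ * (1 / 2 * qf ((ν l : ℂ) • (α l ⊗ₖ c l)) y -
      qf ((ν l : ℂ) • ((1 : Matrix X X ℂ) ⊗ₖ c l)) (ψ l - ξ')) ≤
      qf ((ν l : ℂ) • (α l ⊗ₖ c l)) ((ψ l - ξ') - y) := by
    intro l
    have k1 := qf_low (hp l) y (ψ l - ξ')
    have k2 : qf ((ν l : ℂ) • (α l ⊗ₖ c l)) (y - (ψ l - ξ')) =
        qf ((ν l : ℂ) • (α l ⊗ₖ c l)) ((ψ l - ξ') - y) := by
      rw [← qf_neg, neg_sub]
    have k3 : qf ((ν l : ℂ) • (α l ⊗ₖ c l)) (ψ l - ξ') ≤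
        qf ((ν l : ℂ) • ((1 : Matrix X X ℂ) ⊗ₖ c l)) (ψ l - ξ') := by
      refine qf_le ?_ _
      have e : (ν l : ℂ) • ((1 : Matrix X X ℂ) ⊗ₖ c l) - (ν l : ℂ) • (α l ⊗ₖ c l) =
          (ν l : ℂ) • ((1 - α l) ⊗ₖ c l) := by
        ext p q
        simp only [Matrix.smul_apply, Matrix.sub_apply, kroneckerMap_apply, smul_eq_mul]
        ring
      rw [e]
      exact ((hl.pr l).compl.psd.kronecker (hl.pc l).psd).smul
        (Complex.zero_le_real.mpr (hl.nn l))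
    have k4 := qf_nonneg (hp l) ((ψ l - ξ') - y)
    rw [k2] at k1
    have k5 : 1 / 2 * qf ((ν l : ℂ) • (α l ⊗ₖ c l)) y -
      qf ((ν l : ℂ) • ((1 : Matrix X X ℂ) ⊗ₖ c l)) (ψ l - ξ') ≤
      qf ((ν l : ℂ) • (α l ⊗ₖ c l)) ((ψ l - ξ') - y) := by linarith
    nlinarith
  have h2 : (κ - 2) * nq y ≤ ∑ l, qf ((ν l : ℂ) • (α l ⊗ₖ c l)) y := by
    have k1 := qf_le (lay_low hl) y
    rw [← qf_sum, ← qf_one, ← qf_smul]
    exact qf_le (lay_low hl) y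
  have h3 : ∑ l, qf ((ν l : ℂ) • ((1 : Matrix X X ℂ) ⊗ₖ c l)) y = κ * nq y := by
    rw [← qf_sum, lay_total hl, qf_smul, qf_one]
  have h5 := Finset.sum_le_sum fun l (_ : l ∈ Finset.univ) =>
    pert_low hl hb hε l (ψ l - ξ') y
  have h6 := Finset.sum_le_sum fun l (_ : l ∈ Finset.univ) => h1 l
  simp only [Finset.sum_sub_distrib, ← Finset.mul_sum] at h5 h6
  rw [h3] at h5
  have h7 : 0 ≤ nq y := nq_nonneg y
  nlinarith

/-- A vector supported on one basis vector. -/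
def ket (j : X) (φ : Y → ℂ) : X × Y → ℂ := fun p => if p.1 = j then φ p.2 else 0

theorem qf_ket (M : Matrix X X ℂ) (N : Matrix Y Y ℂ) (j : X) (φ : Y → ℂ) (hN : N.PosSemidef) :
    qf (M ⊗ₖ N) (ket j φ) = (M j j).re * qf N φ := by
  have h1 : star (ket j φ) ⬝ᵥ ((M ⊗ₖ N) *ᵥ ket j φ) = M j j * (star φ ⬝ᵥ (N *ᵥ φ)) := by
    simp only [dotProduct, mulVec, Pi.star_apply, ket, kroneckerMap_apply]
    rw [Fintype.sum_prod_type, Finset.sum_eq_single j, Finset.mul_sum]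
    · refine Finset.sum_congr rfl fun y _ => ?_
      rw [if_pos rfl, Fintype.sum_prod_type, Finset.sum_eq_single j, Finset.mul_sum,
        Finset.mul_sum, Finset.mul_sum]
      · refine Finset.sum_congr rfl fun y' _ => ?_
        rw [if_pos rfl]
        ring
      · intro x _ hx
        refine Finset.sum_eq_zero fun y' _ => ?_
        rw [if_neg hx, mul_zero]
      · simp
    · intro x _ hx
      refine Finset.sum_eq_zero fun y _ => ?_
      rw [if_neg hx, star_zero, zero_mul]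
    · simp
  have h2 : star φ ⬝ᵥ (N *ᵥ φ) = (qf N φ : ℂ) := (re_nonneg (hN.dotProduct_mulVec_nonneg φ)).2
  rw [qf, h1, h2, mul_comm, Complex.re_ofReal_mul, mul_comm]

/-- The second bound. -/
theorem bound_two {α α' : L → Matrix X X ℂ} {c : L → Matrix Y Y ℂ} {ν : L → ℝ} {κ ε r : ℝ}
    (hl : Lay α c ν κ) (hb : ∀ l, Bd (α' l - α l) ε) (hε : 0 ≤ ε) (hκ : 5 ≤ κ) (hr : 0 ≤ r)
    (hr1 : r ≤ 1) (hεr : 2 * ε ≤ r / (8 * κ)) {j : X} (hj : ∀ l, r ≤ (α l j j).re)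
    (φ : L → Y → ℂ) (ζ : X × Y → ℂ) :
    r / (8 * κ) * ∑ l, ν l * qf (c l) (φ l - fun y => ζ (j, y)) ≤
      ∑ l, qf (((ν l : ℂ) • α' l) ⊗ₖ c l) (ket j (φ l) - ζ) := by
  obtain ⟨b, hbd⟩ : ∃ b : Y → ℂ, b = fun y => ζ (j, y) := ⟨_, rfl⟩
  obtain ⟨ζ', hζ'⟩ : ∃ ζ' : X × Y → ℂ, ζ' = fun p => if p.1 = j then 0 else ζ p := ⟨_, rfl⟩
  have hx : ∀ l, ket j (φ l) - ζ = ket j (φ l - b) - ζ' := by
    intro l
    funext p
    obtain ⟨x, y⟩ := p
    simp only [Pi.sub_apply, ket, hbd, hζ']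
    by_cases h : x = j
    · subst h
      simp
    · simp [h]
  simp only [hx, ← hbd]
  -- the projection
  obtain ⟨P, hPd⟩ : ∃ P : Matrix X X ℂ, P = pj (Pi.single j 1) := ⟨_, rfl⟩
  have hP : IsPr P := by
    rw [hPd]
    refine ⟨pj_herm _, ?_⟩
    rw [pj_pj', nq_single, Complex.ofReal_one, one_smul]
  have hPt : P.trace.re ≤ 1 := by
    rw [hPd, pj_tr, nq_single]
    simp
  have hPe : ∀ x x', P x x' = if x = j ∧ x' = j then 1 else 0 := by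
    intro x x'
    rw [hPd, pj_apply]
    by_cases h1 : x = j <;> by_cases h2 : x' = j <;> simp [h1, h2]
  have hTζ : ((1 - P) ⊗ₖ (1 : Matrix Y Y ℂ)) *ᵥ ζ' = ζ' := by
    funext p
    obtain ⟨x, y⟩ := p
    simp only [mulVec, dotProduct, kroneckerMap_apply, Matrix.sub_apply, hPe]
    rw [Finset.sum_eq_single (x, y)]
    · by_cases h : x = j
      · simp [hζ', h]
      · simp [h]
    · rintro ⟨x', y'⟩ _ hne
      by_cases h1 : y = y'
      · subst h1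
        have hx' : x ≠ x' := fun h => hne (by rw [h])
        by_cases h2 : x' = j
        · simp [hζ', h2]
        · simp [hx', h2]
      · simp [h1]
    · simp
  have hTk : ∀ φ' : Y → ℂ, ((1 - P) ⊗ₖ (1 : Matrix Y Y ℂ)) *ᵥ ket j φ' = 0 := by
    intro φ'
    funext p
    obtain ⟨x, y⟩ := p
    simp only [mulVec, dotProduct, kroneckerMap_apply, Matrix.sub_apply, hPe, Pi.zero_apply]
    refine Finset.sum_eq_zero ?_
    rintro ⟨x', y'⟩ _
    simp only [ket]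
    by_cases h1 : x' = j
    · subst h1
      by_cases h2 : x = x'
      · subst h2
        simp
      · simp [h2]
    · simp [h1]
  -- the corrections
  obtain ⟨S, hS⟩ : ∃ S : L → Matrix X X ℂ, S = fun l => sh1 P (1 - α l) := ⟨_, rfl⟩
  have hSP : ∀ l, S l * P = 0 := by
    intro l
    rw [hS]
    exact sh1_mul hP
  have hSH : ∀ l, (S l)ᴴ = S l := by
    intro l
    rw [hS]
    exact sh1_herm hP (hl.pr l).compl
  have hPS : ∀ l, P * S l = 0 := by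
    intro l
    have h := congrArg conjTranspose (hSP l)
    rwa [conjTranspose_mul, hSH, hP.1, conjTranspose_zero] at h
  have hM : ∀ l, (α l - S l).PosSemidef := by
    intro l
    have h := sh1_le hP (hl.pr l).compl
    rw [sub_sub_cancel] at h
    rw [hS]
    exact h
  have hSj : ∀ l, S l j j = 0 := by
    intro l
    have h1 : (S l * P) j j = S l j j := by
      rw [Matrix.mul_apply, Finset.sum_eq_single j]
      · rw [hPe, if_pos ⟨rfl, rfl⟩, mul_one]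
      · intro x _ hx
        rw [hPe, if_neg (fun h => hx h.1), mul_zero]
      · simp
    rw [← h1, hSP, Matrix.zero_apply]
  have hSum : (∑ l, (ν l : ℂ) • (S l ⊗ₖ c l) -
      ((κ - 4 : ℝ) : ℂ) • ((1 - P) ⊗ₖ (1 : Matrix Y Y ℂ))).PosSemidef := by
    have h := one_step hl hP (m := 1) hPt
    rw [hS]
    convert h using 3
    congr 1
    ring
  have hMp : ∀ l, ((ν l : ℂ) • ((α l - S l) ⊗ₖ c l)).PosSemidef := fun l =>
    ((hM l).kronecker (hl.pc l).psd).smul (Complex.zero_le_real.mpr (hl.nn l))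
  obtain ⟨n, hn⟩ : ∃ n, n = nq ζ' := ⟨_, rfl⟩
  have hn0 : 0 ≤ n := by rw [hn]; exact nq_nonneg _
  obtain ⟨G, hG⟩ : ∃ G, G = ∑ l, ν l * qf (c l) (φ l - b) := ⟨_, rfl⟩
  have hG0 : 0 ≤ G := by
    rw [hG]
    exact Finset.sum_nonneg fun l _ => mul_nonneg (hl.nn l) (qf_nonneg (hl.pc l).psd _)
  rw [← hG]
  -- splitting
  have hsplit : ∀ l, qf ((ν l : ℂ) • (α l ⊗ₖ c l)) (ket j (φ l - b) - ζ') =
      qf ((ν l : ℂ) • ((α l - S l) ⊗ₖ c l)) (ket j (φ l - b) - ζ') +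
        qf ((ν l : ℂ) • (S l ⊗ₖ c l)) ζ' := by
    intro l
    have e1 : (ν l : ℂ) • (α l ⊗ₖ c l) = (ν l : ℂ) • ((α l - S l) ⊗ₖ c l) +
        (ν l : ℂ) • (S l ⊗ₖ c l) := by
      ext p q
      simp only [Matrix.smul_apply, Matrix.sub_apply, Matrix.add_apply, kroneckerMap_apply,
        smul_eq_mul]
      ring
    have e2 : (ν l : ℂ) • (S l ⊗ₖ c l) = ((1 - P) ⊗ₖ (1 : Matrix Y Y ℂ)) *
        ((ν l : ℂ) • (S l ⊗ₖ c l)) * ((1 - P) ⊗ₖ (1 : Matrix Y Y ℂ))ᴴ := by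
      rw [conjTranspose_kronecker, hP.compl.1, conjTranspose_one, Matrix.mul_smul,
        Matrix.smul_mul, ← mul_kronecker_mul, ← mul_kronecker_mul, one_mul, mul_one,
        Matrix.sub_mul, one_mul, hPS, sub_zero, Matrix.mul_sub, mul_one, hSP, sub_zero]
    have e3 : qf ((ν l : ℂ) • (S l ⊗ₖ c l)) (ket j (φ l - b) - ζ') =
        qf ((ν l : ℂ) • (S l ⊗ₖ c l)) ζ' := by
      rw [e2, qf_conj, qf_conj, conjTranspose_kronecker, hP.compl.1, conjTranspose_one,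
        mulVec_sub, hTk, hTζ, zero_sub, qf_neg]
    rw [e1, qf_add, e3]
  have hsum1 : (κ - 4) * n ≤ ∑ l, qf ((ν l : ℂ) • (S l ⊗ₖ c l)) ζ' := by
    have h1 := qf_le hSum ζ'
    rw [qf_smul, qf_sum] at h1
    have h2 : qf ((1 - P) ⊗ₖ (1 : Matrix Y Y ℂ)) ζ' = n := by
      rw [qf, hTζ, dot_self, Complex.ofReal_re, hn]
    rwa [h2] at h1
  have hsum2 : ∑ l, qf ((ν l : ℂ) • ((α l - S l) ⊗ₖ c l)) ζ' ≤ κ * n := by
    have h1 : ∀ l, qf ((ν l : ℂ) • ((α l - S l) ⊗ₖ c l)) ζ' ≤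
        qf ((ν l : ℂ) • ((1 : Matrix X X ℂ) ⊗ₖ c l)) ζ' -
          qf ((ν l : ℂ) • (S l ⊗ₖ c l)) ζ' := by
      intro l
      rw [← qf_sub]
      refine qf_le ?_ _
      have e : (ν l : ℂ) • ((1 : Matrix X X ℂ) ⊗ₖ c l) - (ν l : ℂ) • (S l ⊗ₖ c l) -
          (ν l : ℂ) • ((α l - S l) ⊗ₖ c l) = (ν l : ℂ) • ((1 - α l) ⊗ₖ c l) := by
        ext p q
        simp only [Matrix.smul_apply, Matrix.sub_apply, kroneckerMap_apply, smul_eq_mul]
        ring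
      rw [e]
      exact ((hl.pr l).compl.psd.kronecker (hl.pc l).psd).smul
        (Complex.zero_le_real.mpr (hl.nn l))
    have h2 := Finset.sum_le_sum fun l (_ : l ∈ Finset.univ) => h1 l
    rw [Finset.sum_sub_distrib, ← qf_sum Finset.univ fun l =>
      (ν l : ℂ) • ((1 : Matrix X X ℂ) ⊗ₖ c l), lay_total hl, qf_smul, qf_one, ← hn] at h2
    have h3 : 0 ≤ (κ - 4) * n := mul_nonneg (by linarith) hn0
    linarith
  have hsum3 : ∀ l, r * (ν l * qf (c l) (φ l - b)) ≤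
      qf ((ν l : ℂ) • ((α l - S l) ⊗ₖ c l)) (ket j (φ l - b)) := by
    intro l
    rw [qf_smul, qf_ket _ _ _ _ (hl.pc l).psd, Matrix.sub_apply, hSj, sub_zero]
    have h1 := qf_nonneg (hl.pc l).psd (φ l - b)
    have h2 := mul_le_mul_of_nonneg_right (hj l) (mul_nonneg (hl.nn l) h1)
    linarith
  have hlow : ∀ l, 1 / (2 * κ) * (1 / 2 * (r * (ν l * qf (c l) (φ l - b))) -
      qf ((ν l : ℂ) • ((α l - S l) ⊗ₖ c l)) ζ') ≤
      qf ((ν l : ℂ) • ((α l - S l) ⊗ₖ c l)) (ket j (φ l - b) - ζ') := by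
    intro l
    have k1 := qf_low (hMp l) (ket j (φ l - b)) ζ'
    have k2 := qf_nonneg (hMp l) (ket j (φ l - b) - ζ')
    have k3 := hsum3 l
    have k4 : 1 / (2 * κ) ≤ 1 := by
      rw [div_le_one (by linarith)]
      linarith
    have k5 : 0 ≤ 1 / (2 * κ) := by positivity
    have k6 : 1 / 2 * (r * (ν l * qf (c l) (φ l - b))) -
      qf ((ν l : ℂ) • ((α l - S l) ⊗ₖ c l)) ζ' ≤
      qf ((ν l : ℂ) • ((α l - S l) ⊗ₖ c l)) (ket j (φ l - b) - ζ') := by linarith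
    nlinarith
  have hone : ∀ l, qf ((ν l : ℂ) • ((1 : Matrix X X ℂ) ⊗ₖ c l)) (ket j (φ l - b)) =
      ν l * qf (c l) (φ l - b) := by
    intro l
    rw [qf_smul, qf_ket _ _ _ _ (hl.pc l).psd, one_apply_eq, Complex.one_re, one_mul]
  have hζ2 : ∑ l, qf ((ν l : ℂ) • ((1 : Matrix X X ℂ) ⊗ₖ c l)) ζ' = κ * n := by
    rw [← qf_sum, lay_total hl, qf_smul, qf_one, hn]
  have h5 := Finset.sum_le_sum fun l (_ : l ∈ Finset.univ) =>
    pert_low hl hb hε l (ket j (φ l - b)) ζ'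
  have h6 := Finset.sum_le_sum fun l (_ : l ∈ Finset.univ) => hlow l
  simp only [Finset.sum_sub_distrib, ← Finset.mul_sum, hsplit, Finset.sum_add_distrib, hone]
    at h5 h6
  rw [hζ2, ← hG] at h5
  rw [← hG] at h6
  obtain ⟨M₁, hM₁⟩ : ∃ M₁, M₁ = ∑ l, qf ((ν l : ℂ) • ((α l - S l) ⊗ₖ c l))
    (ket j (φ l - b) - ζ') := ⟨_, rfl⟩
  obtain ⟨M₂, hM₂⟩ : ∃ M₂, M₂ = ∑ l, qf ((ν l : ℂ) • ((α l - S l) ⊗ₖ c l)) ζ' := ⟨_, rfl⟩
  obtain ⟨M₃, hM₃⟩ : ∃ M₃, M₃ = ∑ l, qf ((ν l : ℂ) • (S l ⊗ₖ c l)) ζ' := ⟨_, rfl⟩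
  rw [← hM₁, ← hM₃] at h5
  rw [← hM₁, ← hM₂] at h6
  rw [← hM₂] at hsum2
  rw [← hM₃] at hsum1
  have hκ0 : 0 < κ := by linarith
  have h7 : 1 / (2 * κ) * (1 / 2 * (r * G) - M₂) ≥ 2 * (r / (8 * κ)) * G - 1 / 2 * n := by
    have k1 : 1 / (2 * κ) * M₂ ≤ 1 / 2 * n := by
      have := mul_le_mul_of_nonneg_left hsum2 (by positivity : 0 ≤ 1 / (2 * κ))
      have e : 1 / (2 * κ) * (κ * n) = 1 / 2 * n := by field_simp
      linarith
    have e : 1 / (2 * κ) * (1 / 2 * (r * G)) = 2 * (r / (8 * κ)) * G := by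
      field_simp
      ring
    rw [mul_sub]
    linarith
  have h8 : 2 * ε * (κ * n) ≤ 1 / 8 * n := by
    have k1 : 2 * ε * κ ≤ 1 / 8 := by
      have := mul_le_mul_of_nonneg_right hεr hκ0.le
      have e : r / (8 * κ) * κ = r / 8 := by field_simp
      linarith
    nlinarith
  have h9 : 2 * ε * G ≤ r / (8 * κ) * G := mul_le_mul_of_nonneg_right hεr hG0
  nlinarith

end lay

end Vale.Agent.P372.Ou
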