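import Vale.Agent.P372.R2.helper492.Ou.Dep1
import Vale.Agent.P372.R2.helper492.Ou.Defs3

/-! The certificate after depolarizing noise, for one copy. -/

open Matrix Kronecker
open scoped ComplexOrder MatrixOrder

set_option linter.unusedSectionVars false

namespace Vale.Agent.P372.Ou

open Vale.Agent.P372.PC (IsPr)

section gen

variable {E L : Type} [Fintype E] [DecidableEq E] [Fintype L] [DecidableEq L]

theorem qf_real {M : Matrix E E ℂ} (h : M.IsHermitian) (x : E → ℂ) :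
    star x ⬝ᵥ (M *ᵥ x) = (qf M x : ℂ) := by
  have h1 : star (star x ⬝ᵥ (M *ᵥ x)) = star x ⬝ᵥ (M *ᵥ x) := by
    rw [← star_dotProduct_star, star_star, star_mulVec, h.eq, ← dotProduct_mulVec]
  exact (Complex.conj_eq_iff_re.mp h1).symm

theorem psd_of_qf {M : Matrix E E ℂ} (h : M.IsHermitian) (h0 : ∀ x, 0 ≤ qf M x) :
    M.PosSemidef := psd_of h (qf M) (qf_real h) h0

theorem qf_scale (M : Matrix E E ℂ) (c : ℝ) (x : E → ℂ) :
    qf M ((c : ℂ) • x) = c ^ 2 * qf M x := by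
  rw [qf, mulVec_smul, star_smul, smul_dotProduct, dotProduct_smul, smul_smul, RCLike.star_def,
    Complex.conj_ofReal, ← Complex.ofReal_mul, smul_eq_mul, Complex.re_ofReal_mul, qf]
  ring

theorem dmhm_herm {R : Matrix E E ℂ} (hR : R.PosDef) {σ : L → Matrix E E ℂ}
    (hσ : ∀ l, (σ l)ᴴ = σ l) : (Dm σ 1 - Hm σ (fun l => R⁻¹ * σ l) 1).IsHermitian := by
  have hRiH : (R⁻¹)ᴴ = R⁻¹ := hR.inv.posSemidef.isHermitian.eq
  have h1 : ∀ l l', (σ l * (R⁻¹ * σ l'))ᴴ = σ l' * (R⁻¹ * σ l) := by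
    intro l l'
    rw [conjTranspose_mul, conjTranspose_mul, hσ, hσ, hRiH, Matrix.mul_assoc]
  ext x y
  rw [conjTranspose_apply, Matrix.sub_apply, Matrix.sub_apply, star_sub]
  congr 1
  · simp only [Dm, one_mul, mul_one]
    by_cases h : x.1 = y.1
    · rw [if_pos h, if_pos h.symm, ← h]
      have := congrFun (congrFun (hσ x.1) x.2) y.2
      rwa [conjTranspose_apply] at this
    · rw [if_neg h, if_neg (Ne.symm h), star_zero]
  · simp only [Hm, one_mul, mul_one]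
    have := congrFun (congrFun (h1 y.1 x.1) x.2) y.2
    rwa [conjTranspose_apply] at this

theorem q_eq {R : Matrix E E ℂ} (hR : R.PosDef) {σ : L → Matrix E E ℂ}
    (hσ : ∀ l, (σ l)ᴴ = σ l) (hsum : ∑ l, σ l = R) (χ : L × E → ℂ) :
    ∃ w : E → ℂ, qf (Dm σ 1 - Hm σ (fun l => R⁻¹ * σ l) 1) χ =
      ∑ l, qf (σ l) ((fun p => χ (l, p)) - w) := by
  have hRi : R⁻¹.PosSemidef := hR.inv.posSemidef
  have hRiH : (R⁻¹)ᴴ = R⁻¹ := hRi.isHermitian.eq
  have hdet : IsUnit R.det := (Matrix.isUnit_iff_isUnit_det R).mp hR.isUnit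
  obtain ⟨y, hy⟩ : ∃ y : E → ℂ, y = ∑ l, σ l *ᵥ (fun p => χ (l, p)) := ⟨_, rfl⟩
  refine ⟨R⁻¹ *ᵥ y, ?_⟩
  have hσh : ∀ l (u v : E → ℂ), star (σ l *ᵥ u) ⬝ᵥ v = star u ⬝ᵥ (σ l *ᵥ v) := by
    intro l u v
    rw [star_mulVec, hσ, dotProduct_mulVec]
  -- the left side
  have e1 : star χ ⬝ᵥ (Dm σ 1 *ᵥ χ) = ∑ l, star (fun p => χ (l, p)) ⬝ᵥ
      (σ l *ᵥ fun p => χ (l, p)) := by
    simp only [dotProduct, mulVec, Pi.star_apply]
    rw [Fintype.sum_prod_type]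
    refine Finset.sum_congr rfl fun l _ => Finset.sum_congr rfl fun p _ => ?_
    congr 1
    rw [Fintype.sum_prod_type, Finset.sum_eq_single l]
    · refine Finset.sum_congr rfl fun q _ => ?_
      rw [Dm, if_pos rfl, one_mul, mul_one]
    · intro l' _ hl
      refine Finset.sum_eq_zero fun q _ => ?_
      rw [Dm, if_neg (Ne.symm hl), zero_mul]
    · simp
  have e2 : star χ ⬝ᵥ (Hm σ (fun l => R⁻¹ * σ l) 1 *ᵥ χ) = star y ⬝ᵥ (R⁻¹ *ᵥ y) := by
    have e3 : star y ⬝ᵥ (R⁻¹ *ᵥ y) = ∑ l, ∑ l', star (fun p => χ (l, p)) ⬝ᵥ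
        ((σ l * (R⁻¹ * σ l')) *ᵥ fun p => χ (l', p)) := by
      have e0 : star y = ∑ l, star (σ l *ᵥ fun p => χ (l, p)) := by rw [hy, star_sum]
      have e0' : R⁻¹ *ᵥ y = ∑ l, R⁻¹ *ᵥ (σ l *ᵥ fun p => χ (l, p)) := by
        rw [hy, Matrix.mulVec_sum]
      rw [e0, e0', sum_dotProduct]
      refine Finset.sum_congr rfl fun l _ => ?_
      rw [dotProduct_sum]
      refine Finset.sum_congr rfl fun l' _ => ?_
      rw [hσh, mulVec_mulVec, mulVec_mulVec, Matrix.mul_assoc]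
    rw [e3]
    simp only [dotProduct, mulVec, Pi.star_apply, Finset.mul_sum]
    rw [Fintype.sum_prod_type]
    refine Finset.sum_congr rfl fun l _ => ?_
    conv_rhs => rw [Finset.sum_comm]
    refine Finset.sum_congr rfl fun p _ => ?_
    rw [Fintype.sum_prod_type]
    refine Finset.sum_congr rfl fun l' _ => Finset.sum_congr rfl fun q _ => ?_
    rw [Hm, one_mul, mul_one]
  have e4 : star χ ⬝ᵥ ((Dm σ 1 - Hm σ (fun l => R⁻¹ * σ l) 1) *ᵥ χ) =
      ∑ l, star ((fun p => χ (l, p)) - R⁻¹ *ᵥ y) ⬝ᵥ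
        (σ l *ᵥ ((fun p => χ (l, p)) - R⁻¹ *ᵥ y)) := by
    rw [sub_mulVec, dotProduct_sub, e1, e2]
    have e5 : ∀ l, star ((fun p => χ (l, p)) - R⁻¹ *ᵥ y) ⬝ᵥ
        (σ l *ᵥ ((fun p => χ (l, p)) - R⁻¹ *ᵥ y)) =
        star (fun p => χ (l, p)) ⬝ᵥ (σ l *ᵥ fun p => χ (l, p)) -
          star (σ l *ᵥ fun p => χ (l, p)) ⬝ᵥ (R⁻¹ *ᵥ y) -
          star (R⁻¹ *ᵥ y) ⬝ᵥ (σ l *ᵥ fun p => χ (l, p)) +
          star (R⁻¹ *ᵥ y) ⬝ᵥ (σ l *ᵥ (R⁻¹ *ᵥ y)) := by
      intro l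
      rw [hσh l (fun p => χ (l, p)) (R⁻¹ *ᵥ y)]
      simp only [mulVec_sub, star_sub, sub_dotProduct, dotProduct_sub]
      ring
    simp only [e5]
    rw [Finset.sum_add_distrib, Finset.sum_sub_distrib, Finset.sum_sub_distrib, ← sum_dotProduct,
      ← star_sum, ← hy, ← dotProduct_sum, ← hy, ← dotProduct_sum, ← sum_mulVec, hsum,
      mulVec_mulVec, Matrix.mul_nonsing_inv R hdet, one_mulVec]
    ring
  rw [qf, e4, Complex.re_sum]
  rfl

end gen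

section site

variable {X Y L : Type} [Fintype X] [DecidableEq X] [Fintype Y] [DecidableEq Y] [Fintype L]
  [DecidableEq L]

theorem qf_one_kron (N : Matrix Y Y ℂ) (u : X × Y → ℂ) :
    qf ((1 : Matrix X X ℂ) ⊗ₖ N) u = ∑ x, qf N fun y => u (x, y) := by
  simp only [qf]
  rw [← Complex.re_sum]
  congr 1
  simp only [dotProduct, mulVec, Pi.star_apply, kroneckerMap_apply]
  rw [Fintype.sum_prod_type]
  refine Finset.sum_congr rfl fun x _ => Finset.sum_congr rfl fun y _ => ?_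
  congr 1
  rw [Fintype.sum_prod_type, Finset.sum_eq_single x]
  · refine Finset.sum_congr rfl fun y' _ => ?_
    rw [one_apply_eq, one_mul]
  · intro x' _ hx
    refine Finset.sum_eq_zero fun y' _ => ?_
    rw [one_apply_ne (Ne.symm hx), zero_mul, zero_mul]
  · simp

theorem ns_none (η : ℝ) (ψ : L × (X × Y) → ℂ) :
    ((1 : Matrix L L ℂ) ⊗ₖ (depol η (none : Option (X × X)) ⊗ₖ
        (1 : Matrix Y Y ℂ)))ᴴ *ᵥ ψ = ((√(1 - η) : ℝ) : ℂ) • ψ := by
  rw [depol, Option.elim_none, smul_kronecker, one_kronecker_one, kronecker_smul,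
    one_kronecker_one, conjTranspose_smul, conjTranspose_one, smul_mulVec, one_mulVec,
    RCLike.star_def, Complex.conj_ofReal]

theorem ns_some (η : ℝ) (ψ : L × (X × Y) → ℂ) (x : X × X) :
    ((1 : Matrix L L ℂ) ⊗ₖ (depol η (some x) ⊗ₖ
        (1 : Matrix Y Y ℂ)))ᴴ *ᵥ ψ = ((√(η / Fintype.card X) : ℝ) : ℂ) •
          fun q : L × (X × Y) => ket x.2 (fun y => ψ (q.1, (x.1, y))) q.2 := by
  rw [depol, Option.elim_some, smul_kronecker, kronecker_smul, conjTranspose_smul, smul_mulVec,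
    RCLike.star_def, Complex.conj_ofReal]
  congr 1
  funext q
  obtain ⟨l, a, b⟩ := q
  simp only [mulVec, dotProduct, conjTranspose_apply, kroneckerMap_apply, ket]
  rw [Finset.sum_eq_single (l, (x.1, b))]
  · by_cases h : a = x.2
    · subst h
      simp
    · simp [h, Ne.symm h]
  · rintro ⟨l', a', b'⟩ _ hne
    by_cases h1 : l' = l
    · subst h1
      by_cases h2 : b' = b
      · subst h2
        by_cases h3 : x.1 = a'
        · exact absurd (by rw [h3]) hne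
        · simp [h3]
      · simp [h2]
    · simp [h1]
  · simp

/-- The bounds imply positivity after the noise. -/
theorem noise_core {Q : Matrix (L × (X × Y)) (L × (X × Y)) ℂ} {c : L → Matrix Y Y ℂ} {ν : L → ℝ}
    {σ : L → Matrix (X × Y) (X × Y) ℂ} {C₁ κ₂ η : ℝ} (hη0 : 0 ≤ η) (hη1 : η ≤ 1) (hC0 : 0 ≤ C₁)
    (hκ2 : 0 ≤ κ₂) (hC : C₁ ≤ η / Fintype.card X * κ₂) (hν : ∀ l, 0 ≤ ν l)
    (hc : ∀ l, (c l).PosSemidef) (hherm : Q.IsHermitian)
    (hq : ∀ χ : L × (X × Y) → ℂ, ∃ w : X × Y → ℂ, qf Q χ =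
      ∑ l, qf (σ l) ((fun p => χ (l, p)) - w))
    (hb1 : ∀ (ψ : L → X × Y → ℂ) (ξ ξ' : X × Y → ℂ),
      -(C₁ * ∑ l, qf ((ν l : ℂ) • ((1 : Matrix X X ℂ) ⊗ₖ c l)) (ψ l - ξ')) ≤
        ∑ l, qf (σ l) (ψ l - ξ))
    (hb2 : ∀ (j : X) (φ : L → Y → ℂ) (ζ : X × Y → ℂ),
      κ₂ * ∑ l, ν l * qf (c l) (φ l - fun y => ζ (j, y)) ≤
        ∑ l, qf (σ l) (ket j (φ l) - ζ)) :
    (∑ v : Option (X × X), ((1 : Matrix L L ℂ) ⊗ₖ (depol η v ⊗ₖ (1 : Matrix Y Y ℂ))) * Q *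
      ((1 : Matrix L L ℂ) ⊗ₖ (depol η v ⊗ₖ (1 : Matrix Y Y ℂ)))ᴴ).PosSemidef := by
  refine psd_of_qf ?_ fun ψ => ?_
  · rw [IsHermitian, conjTranspose_sum]
    refine Finset.sum_congr rfl fun v _ => ?_
    rw [conjTranspose_mul, conjTranspose_mul, conjTranspose_conjTranspose, hherm.eq,
      Matrix.mul_assoc]
  · rw [qf_sum]
    simp only [qf_conj]
    rw [Fintype.sum_option, ns_none, qf_scale, Real.sq_sqrt (by linarith)]
    simp only [ns_some, qf_scale]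
    have hd0 : 0 ≤ η / Fintype.card X := by positivity
    rw [Real.sq_sqrt hd0, ← Finset.mul_sum, Fintype.sum_prod_type]
    obtain ⟨φ, hφ⟩ : ∃ φ : X → L → Y → ℂ, φ = fun x l y => ψ (l, (x, y)) := ⟨_, rfl⟩
    have hket : ∀ x y : X, (fun q : L × (X × Y) => ket y (fun y' => ψ (q.1, (x, y'))) q.2) =
        fun q : L × (X × Y) => ket y (φ x q.1) q.2 := by
      intro x y
      rw [hφ]
    simp only [hket]
    -- the centres
    choose w hw using hq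
    obtain ⟨b, hbd⟩ : ∃ b : X → Y → ℂ, b = fun x y =>
      w (fun q : L × (X × Y) => ket x (φ x q.1) q.2) (x, y) := ⟨_, rfl⟩
    obtain ⟨G, hG⟩ : ∃ G : X → ℝ, G = fun x => ∑ l, ν l * qf (c l) (φ x l - b x) := ⟨_, rfl⟩
    have hG0 : ∀ x, 0 ≤ G x := by
      intro x
      rw [hG]
      exact Finset.sum_nonneg fun l _ => mul_nonneg (hν l) (qf_nonneg (hc l) _)
    have k1 : ∀ x y, 0 ≤ qf Q fun q : L × (X × Y) => ket y (φ x q.1) q.2 := by
      intro x y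
      rw [hw]
      refine le_trans ?_ (hb2 y (φ x) _)
      exact mul_nonneg hκ2 (Finset.sum_nonneg fun l _ => mul_nonneg (hν l)
        (qf_nonneg (hc l) _))
    have k2 : ∀ x, κ₂ * G x ≤ qf Q fun q : L × (X × Y) => ket x (φ x q.1) q.2 := by
      intro x
      rw [hw, hG]
      refine le_trans (le_of_eq ?_) (hb2 x (φ x) _)
      rw [hbd]
    have k3 : ∑ x, κ₂ * G x ≤
        ∑ x, ∑ y, qf Q fun q : L × (X × Y) => ket y (φ x q.1) q.2 := by
      refine Finset.sum_le_sum fun x _ => (k2 x).trans ?_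
      exact Finset.single_le_sum (f := fun y => qf Q fun q : L × (X × Y) => ket y (φ x q.1) q.2)
        (fun y _ => k1 x y) (Finset.mem_univ x)
    have k4 : -(C₁ * ∑ x, G x) ≤ qf Q ψ := by
      rw [hw ψ]
      refine le_trans (le_of_eq ?_) (hb1 (fun l p => ψ (l, p)) _ fun p => b p.1 p.2)
      congr 2
      simp only [hG, qf_smul, qf_one_kron]
      rw [Finset.sum_comm]
      refine Finset.sum_congr rfl fun l _ => ?_
      rw [Finset.mul_sum]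
      refine Finset.sum_congr rfl fun x _ => ?_
      rw [hφ]
      rfl
    rw [← Finset.mul_sum] at k3
    have hGs : 0 ≤ ∑ x, G x := Finset.sum_nonneg fun x _ => hG0 x
    have k5 := mul_le_mul_of_nonneg_right hC hGs
    have k6 := mul_le_mul_of_nonneg_left k3 hd0
    have k7 := mul_nonneg hC0 hGs
    have k8 := mul_le_mul_of_nonneg_left k4 (sub_nonneg.mpr hη1)
    have k9 := mul_nonneg hη0 k7
    nlinarith

/-- The certificate survives the noise. -/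
theorem site_noise {α α' : L → Matrix X X ℂ} {c : L → Matrix Y Y ℂ} {ν : L → ℝ} {κ ε r η : ℝ}
    (hl : Lay α c ν κ) (hb : ∀ l, Bd (α' l - α l) ε) (hε : 0 ≤ ε) (hκ : 5 ≤ κ) (hr : 0 ≤ r)
    (hr1 : r ≤ 1) (hη0 : 0 ≤ η) (hη1 : η ≤ 1) (hεr : 2 * ε ≤ r / (8 * κ))
    (h4 : 4 * ε * κ ≤ κ - 2)
    (hC : 4 * ε * κ / (κ - 2) + 2 * ε ≤ η / Fintype.card X * (r / (8 * κ)))
    (hj : ∀ l j, r ≤ (α l j j).re) {R : Matrix (X × Y) (X × Y) ℂ} (hR : R.PosDef)
    (hsum : ∑ l, ((ν l : ℂ) • α' l) ⊗ₖ c l = R) :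
    (∑ v : Option (X × X), ((1 : Matrix L L ℂ) ⊗ₖ (depol η v ⊗ₖ (1 : Matrix Y Y ℂ))) *
      (Dm (fun l => ((ν l : ℂ) • α' l) ⊗ₖ c l) 1 -
        Hm (fun l => ((ν l : ℂ) • α' l) ⊗ₖ c l)
          (fun l => R⁻¹ * (((ν l : ℂ) • α' l) ⊗ₖ c l)) 1) *
      ((1 : Matrix L L ℂ) ⊗ₖ (depol η v ⊗ₖ (1 : Matrix Y Y ℂ)))ᴴ).PosSemidef := by
  have hα'H : ∀ l, (α' l)ᴴ = α' l := by
    intro l
    have h1 := (hb l).herm
    rw [conjTranspose_sub, (hl.pr l).1] at h1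
    exact sub_left_injective h1
  have hσH : ∀ l, (((ν l : ℂ) • α' l) ⊗ₖ c l)ᴴ = ((ν l : ℂ) • α' l) ⊗ₖ c l := by
    intro l
    rw [conjTranspose_kronecker, conjTranspose_smul, hα'H, (hl.pc l).1, RCLike.star_def,
      Complex.conj_ofReal]
  have hκ2 : 0 < κ - 2 := by linarith
  exact noise_core (C₁ := 4 * ε * κ / (κ - 2) + 2 * ε) (κ₂ := r / (8 * κ)) hη0 hη1
    (by positivity) (by positivity) hC hl.nn (fun l => (hl.pc l).psd)
    (dmhm_herm hR hσH) (q_eq hR hσH hsum)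
    (fun ψ ξ ξ' => bound_one hl hb hε (by linarith) h4 ψ ξ ξ')
    (fun j φ ζ => bound_two hl hb hε hκ hr hr1 hεr (fun l => hj l j) φ ζ)

end site

end Vale.Agent.P372.Ou
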