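import Vale.Agent.P372.R2.helper492.Ou.Dep2

/-! Certificates after noise, for many copies. -/

open Matrix Kronecker
open scoped ComplexOrder MatrixOrder

set_option linter.unusedSectionVars false

namespace Vale.Agent.P372.Ou

open Vale.Agent.P372.Half (tf)
open Vale.Agent.P372.PC (IsPr tf_apply tf_kron tf_sum)

section lam

variable {E L V : Type} [Fintype E] [DecidableEq E] [Fintype L] [DecidableEq L] [Fintype V]

/-- The completely positive map with the Kraus operators `T`. -/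
def lam (T : V → Matrix E E ℂ) (X : Matrix E E ℂ) : Matrix E E ℂ := ∑ v, T v * X * (T v)ᴴ

/-- The quadratic form of the eavesdropper. -/
def HL (Λ : Matrix E E ℂ → Matrix E E ℂ) (σ K : L → Matrix E E ℂ) : Matrix (L × E) (L × E) ℂ :=
  fun x y => Λ (σ x.1 * K y.1) x.2 y.2

/-- The quadratic form of the labels. -/
def DL (Λ : Matrix E E ℂ → Matrix E E ℂ) (σ : L → Matrix E E ℂ) : Matrix (L × E) (L × E) ℂ :=
  fun x y => if x.1 = y.1 then Λ (σ x.1) x.2 y.2 else 0

/-- The certificate. -/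
def CtL (Λ : Matrix E E ℂ → Matrix E E ℂ) (σ K : L → Matrix E E ℂ) : Prop :=
  (HL Λ σ K).PosSemidef ∧ (DL Λ σ - HL Λ σ K).PosSemidef

theorem blk_apply (T : Matrix E E ℂ) (M : Matrix (L × E) (L × E) ℂ) (x y : L × E) :
    (((1 : Matrix L L ℂ) ⊗ₖ T) * M * ((1 : Matrix L L ℂ) ⊗ₖ T)ᴴ) x y =
      (T * (Matrix.of fun p q => M (x.1, p) (y.1, q)) * Tᴴ) x.2 y.2 := by
  obtain ⟨l, p⟩ := x
  obtain ⟨l', q⟩ := y
  have h1 : ∀ q' : L × E, (((1 : Matrix L L ℂ) ⊗ₖ T) * M) (l, p) q' =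
      ∑ p', T p p' * M (l, p') q' := by
    intro q'
    rw [Matrix.mul_apply, Fintype.sum_prod_type, Finset.sum_eq_single l]
    · refine Finset.sum_congr rfl fun p' _ => ?_
      rw [kroneckerMap_apply, one_apply_eq, one_mul]
    · intro l'' _ hl
      refine Finset.sum_eq_zero fun p' _ => ?_
      rw [kroneckerMap_apply, one_apply_ne (Ne.symm hl), zero_mul, zero_mul]
    · simp
  rw [Matrix.mul_apply, Matrix.mul_apply, Fintype.sum_prod_type, Finset.sum_eq_single l']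
  · refine Finset.sum_congr rfl fun q' _ => ?_
    rw [h1, Matrix.mul_apply, conjTranspose_apply, conjTranspose_apply, kroneckerMap_apply,
      one_apply_eq, one_mul]
    rfl
  · intro l'' _ hl
    refine Finset.sum_eq_zero fun q' _ => ?_
    rw [conjTranspose_apply, kroneckerMap_apply, one_apply_ne (Ne.symm hl), zero_mul, star_zero,
      mul_zero]
  · simp

theorem HL_lam (T : V → Matrix E E ℂ) (σ K : L → Matrix E E ℂ) :
    HL (lam T) σ K = ∑ v, ((1 : Matrix L L ℂ) ⊗ₖ T v) * Hm σ K 1 *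
      ((1 : Matrix L L ℂ) ⊗ₖ T v)ᴴ := by
  ext x y
  rw [HL, lam, Matrix.sum_apply, Matrix.sum_apply]
  refine Finset.sum_congr rfl fun v _ => ?_
  have e : (Matrix.of fun p q => Hm σ K 1 (x.1, p) (y.1, q)) = σ x.1 * K y.1 := by
    ext p q
    rw [Matrix.of_apply, Hm, one_mul, mul_one]
  rw [blk_apply, e]

theorem DL_lam (T : V → Matrix E E ℂ) (σ : L → Matrix E E ℂ) :
    DL (lam T) σ = ∑ v, ((1 : Matrix L L ℂ) ⊗ₖ T v) * Dm σ 1 *
      ((1 : Matrix L L ℂ) ⊗ₖ T v)ᴴ := by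
  ext x y
  rw [DL, Matrix.sum_apply]
  by_cases h : x.1 = y.1
  · rw [if_pos h, lam, Matrix.sum_apply]
    refine Finset.sum_congr rfl fun v _ => ?_
    have e : (Matrix.of fun p q => Dm σ 1 (x.1, p) (y.1, q)) = σ x.1 := by
      ext p q
      rw [Matrix.of_apply, Dm, if_pos h, one_mul, mul_one]
    rw [blk_apply, e]
  · rw [if_neg h]
    symm
    refine Finset.sum_eq_zero fun v _ => ?_
    rw [blk_apply]
    have : (Matrix.of fun p q => Dm σ 1 (x.1, p) (y.1, q)) = (0 : Matrix E E ℂ) := by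
      ext p q
      rw [Matrix.of_apply, Dm, if_neg h, Matrix.zero_apply]
    rw [this, Matrix.mul_zero, Matrix.zero_mul, Matrix.zero_apply]

theorem hm_psd {R : Matrix E E ℂ} (hR : R.PosDef) {σ : L → Matrix E E ℂ}
    (hσ : ∀ l, (σ l)ᴴ = σ l) : (Hm σ (fun l => R⁻¹ * σ l) 1).PosSemidef := by
  have hRi : R⁻¹.PosSemidef := hR.inv.posSemidef
  obtain ⟨W, hW⟩ : ∃ W : Matrix E (L × E) ℂ, W = Matrix.of fun p y => σ y.1 p y.2 := ⟨_, rfl⟩
  have e : Hm σ (fun l => R⁻¹ * σ l) 1 = Wᴴ * R⁻¹ * W := by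
    ext x y
    have h1 : ∀ (N : Matrix E E ℂ) (q : E), (Wᴴ * N) x q = (σ x.1 * N) x.2 q := by
      intro N q
      rw [Matrix.mul_apply, Matrix.mul_apply]
      refine Finset.sum_congr rfl fun p _ => ?_
      have h2 := congrFun (congrFun (hσ x.1) x.2) p
      rw [conjTranspose_apply] at h2
      rw [conjTranspose_apply, hW, Matrix.of_apply, h2]
    rw [Hm, one_mul, mul_one, ← Matrix.mul_assoc, Matrix.mul_apply, Matrix.mul_apply]
    refine Finset.sum_congr rfl fun q _ => ?_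
    rw [h1, hW, Matrix.of_apply]
  rw [e]
  exact hRi.conjTranspose_mul_mul_same W

theorem ctL_lam {R : Matrix E E ℂ} (hR : R.PosDef) {σ : L → Matrix E E ℂ}
    (hσ : ∀ l, (σ l)ᴴ = σ l) (T : V → Matrix E E ℂ)
    (h : (∑ v, ((1 : Matrix L L ℂ) ⊗ₖ T v) *
      (Dm σ 1 - Hm σ (fun l => R⁻¹ * σ l) 1) * ((1 : Matrix L L ℂ) ⊗ₖ T v)ᴴ).PosSemidef) :
    CtL (lam T) σ (fun l => R⁻¹ * σ l) := by
  refine ⟨?_, ?_⟩
  · rw [HL_lam]
    exact posSemidef_sum _ fun v _ => (hm_psd hR hσ).mul_mul_conjTranspose_same _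
  · rw [HL_lam, DL_lam, ← Finset.sum_sub_distrib]
    convert h using 2
    funext v
    rw [Matrix.mul_sub, Matrix.sub_mul]

end lam

section many

variable {ι : Type} [Fintype ι] [DecidableEq ι]
variable {A B : Type} [Fintype A] [DecidableEq A] [Fintype B] [DecidableEq B]
variable {L : Type} [Fintype L] [DecidableEq L]

theorem contrL {σ K : ι → L → Matrix (A × B) (A × B) ℂ}
    {Λ : ι → Matrix (A × B) (A × B) ℂ → Matrix (A × B) (A × B) ℂ}
    (hC : ∀ i, CtL (Λ i) (σ i) (K i))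
    {G : Matrix ((ι → A) × (ι → B)) ((ι → A) × (ι → B)) ℂ} (hG : G.PosSemidef)
    (c : (ι → L) → ℝ) :
    ∑ z, ∑ z', c z * c z' * (G * tf (fun i => Λ i (σ i (z i) * K i (z' i)))).trace.re ≤
      ∑ z, c z ^ 2 * (G * tf (fun i => Λ i (σ i (z i)))).trace.re := by
  classical
  let e : (ι → L) × ((ι → A) × (ι → B)) → (ι → L × (A × B)) :=
    fun w i => (w.1 i, (w.2.1 i, w.2.2 i))
  have hN : ((piT (fun i => DL (Λ i) (σ i)) - piT (fun i => HL (Λ i) (σ i) (K i))).submatrix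
      e e).PosSemidef :=
    (Near.piT_sub_piT_posSemidef (fun i => (hC i).1) fun i => (hC i).2).submatrix e
  have hG' : (Gᵀ.submatrix (fun w : (ι → L) × ((ι → A) × (ι → B)) => w.2)
      (fun w => w.2)).PosSemidef := hG.transpose.submatrix _
  have hc : (vecMulVec (fun w : (ι → L) × ((ι → A) × (ι → B)) => (c w.1 : ℂ))
      (star fun w : (ι → L) × ((ι → A) × (ι → B)) => (c w.1 : ℂ))).PosSemidef :=
    posSemidef_vecMulVec_self_star _
  have hall := sum_entries_nonneg ((hN.hadamard hG').hadamard hc)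
  have hentry : ∀ w w' : (ι → L) × ((ι → A) × (ι → B)),
      ((((piT (fun i => DL (Λ i) (σ i)) - piT (fun i => HL (Λ i) (σ i) (K i))).submatrix e e) ⊙
        (Gᵀ.submatrix (fun w : (ι → L) × ((ι → A) × (ι → B)) => w.2) (fun w => w.2))) ⊙
        (vecMulVec (fun w : (ι → L) × ((ι → A) × (ι → B)) => (c w.1 : ℂ))
          (star fun w : (ι → L) × ((ι → A) × (ι → B)) => (c w.1 : ℂ)))) w w' =
      (c w.1 * c w'.1 : ℝ) * (G w'.2 w.2 *
        ((if w.1 = w'.1 then (tf (fun i => Λ i (σ i (w.1 i)))) w.2 w'.2 else 0) -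
          (tf (fun i => Λ i (σ i (w.1 i) * K i (w'.1 i)))) w.2 w'.2)) := by
    rintro ⟨z, p⟩ ⟨z', p'⟩
    simp only [hadamard_apply, submatrix_apply, Matrix.sub_apply, transpose_apply,
      vecMulVec_apply, Pi.star_apply, e]
    have hst : star (c z' : ℂ) = (c z' : ℂ) := by simp
    have h1 : piT (fun i => DL (Λ i) (σ i)) (fun i => (z i, (p.1 i, p.2 i)))
        (fun i => (z' i, (p'.1 i, p'.2 i))) =
        if z = z' then (tf (fun i => Λ i (σ i (z i)))) p p' else 0 := by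
      rw [piT_apply]
      by_cases hz : z = z'
      · subst hz
        rw [if_pos rfl, tf_apply]
        refine Finset.prod_congr rfl fun i _ => ?_
        rw [DL, if_pos rfl]
      · rw [if_neg hz]
        obtain ⟨i, hi⟩ := Function.ne_iff.mp hz
        refine Finset.prod_eq_zero (Finset.mem_univ i) ?_
        rw [DL, if_neg hi]
    have h2 : piT (fun i => HL (Λ i) (σ i) (K i)) (fun i => (z i, (p.1 i, p.2 i)))
        (fun i => (z' i, (p'.1 i, p'.2 i))) =
        (tf (fun i => Λ i (σ i (z i) * K i (z' i)))) p p' := rfl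
    rw [hst, h1, h2]
    push_cast
    ring
  simp only [hentry] at hall
  rw [sum_four] at hall
  have htr : ∀ M : Matrix ((ι → A) × (ι → B)) ((ι → A) × (ι → B)) ℂ,
      ∑ p, ∑ q, G q p * M p q = (G * M).trace := by
    intro M
    simp only [Matrix.trace, Matrix.diag, Matrix.mul_apply]
    exact Finset.sum_comm
  have e1 : ∀ z z' : ι → L, ∑ p : (ι → A) × (ι → B), ∑ q : (ι → A) × (ι → B),
      ((c z * c z' : ℝ) : ℂ) * (G q p *
        ((if z = z' then (tf (fun i => Λ i (σ i (z i)))) p q else 0) -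
          (tf (fun i => Λ i (σ i (z i) * K i (z' i)))) p q)) =
      ((c z * c z' : ℝ) : ℂ) * ((if z = z' then (G * tf (fun i => Λ i (σ i (z i)))).trace else 0) -
        (G * tf (fun i => Λ i (σ i (z i) * K i (z' i)))).trace) := by
    intro z z'
    rw [← htr (tf (fun i => Λ i (σ i (z i) * K i (z' i))))]
    have e2 : (if z = z' then (G * tf (fun i => Λ i (σ i (z i)))).trace else 0) =
        ∑ p, ∑ q, G q p * (if z = z' then (tf (fun i => Λ i (σ i (z i)))) p q else 0) := by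
      split_ifs
      · exact (htr _).symm
      · simp
    rw [e2, ← Finset.sum_sub_distrib, Finset.mul_sum]
    refine Finset.sum_congr rfl fun p _ => ?_
    rw [← Finset.sum_sub_distrib, Finset.mul_sum]
    refine Finset.sum_congr rfl fun q _ => ?_
    rw [mul_sub]
  simp only [e1] at hall
  simp only [mul_sub, Complex.re_sum, Complex.sub_re, Finset.sum_sub_distrib,
    Complex.re_ofReal_mul] at hall
  have e3 : ∀ z : ι → L, ∑ z' : ι → L, c z * c z' * (if z = z' then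
      (G * tf (fun i => Λ i (σ i (z i)))).trace else 0).re =
      c z ^ 2 * (G * tf (fun i => Λ i (σ i (z i)))).trace.re := by
    intro z
    rw [Finset.sum_eq_single z]
    · rw [if_pos rfl]
      ring
    · intro z' _ hz
      rw [if_neg (Ne.symm hz)]
      simp
    · simp
  simp only [e3] at hall
  linarith

/-- The observable for many copies, abstractly. -/
theorem so_abs {R : Matrix (A × B) (A × B) ℂ}
    {α : ι → L → Matrix A A ℂ} {β : ι → L → Matrix B B ℂ} {K : ι → L → Matrix (A × B) (A × B) ℂ}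
    (hαH : ∀ i l, (α i l)ᴴ = α i l) (hβH : ∀ i l, (β i l)ᴴ = β i l)
    (hsum : ∀ i, ∑ l, α i l ⊗ₖ β i l = R) (hK : ∀ i l, R * K i l = α i l ⊗ₖ β i l)
    {P₀ P₁ : Matrix (ι → A) (ι → A) ℂ} {Q₀ Q₁ : Matrix (ι → B) (ι → B) ℂ}
    (hP₀ : ∀ z : ι → L, 0 ≤ (P₀ * piT fun i => α i (z i)).trace)
    (hP₁ : ∀ z : ι → L, 0 ≤ (P₁ * piT fun i => α i (z i)).trace)
    (hQ₀ : ∀ z : ι → L, 0 ≤ (Q₀ * piT fun i => β i (z i)).trace)
    (hQ₁ : ∀ z : ι → L, 0 ≤ (Q₁ * piT fun i => β i (z i)).trace)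
    (hqf : ∀ c : (ι → L) → ℝ, ∑ z, ∑ z', c z * c z' * (((P₀ + P₁) ⊗ₖ (Q₀ + Q₁)) *
        tf (fun i => (α i (z i) ⊗ₖ β i (z i)) * K i (z' i))).trace.re ≤
      ∑ z, c z ^ 2 * (((P₀ + P₁) ⊗ₖ (Q₀ + Q₁)) *
        tf (fun i => α i (z i) ⊗ₖ β i (z i))).trace.re) :
    SO (tf fun _ : ι => R) P₀ P₁ Q₀ Q₁ := by
  classical
  obtain ⟨σ, hσ⟩ : ∃ σ : (ι → L) → Matrix ((ι → A) × (ι → B)) ((ι → A) × (ι → B)) ℂ,
      ∀ z, σ z = tf (fun i => α i (z i) ⊗ₖ β i (z i)) := ⟨_, fun _ => rfl⟩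
  obtain ⟨κ, hκ⟩ : ∃ κ : (ι → L) → Matrix ((ι → A) × (ι → B)) ((ι → A) × (ι → B)) ℂ,
      ∀ z, κ z = tf (fun i => K i (z i)) := ⟨_, fun _ => rfl⟩
  have hRσ : (tf fun _ : ι => R) = ∑ z, σ z := by
    simp only [hσ]
    rw [← tf_sum (κ := fun _ => L) (fun i l => α i l ⊗ₖ β i l)]
    congr 1
    funext i
    exact (hsum i).symm
  have hRκ : ∀ z, (tf fun _ : ι => R) * κ z = σ z := by
    intro z
    rw [hκ, hσ, Half.tf_mul]
    congr 1
    funext i
    exact hK i (z i)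
  have hσH : ∀ z, (σ z)ᴴ = σ z := by
    intro z
    rw [hσ, Half.tf_conjTranspose]
    congr 1
    funext i
    rw [conjTranspose_kronecker, hαH, hβH]
  have hprod : ∀ z (P : Matrix (ι → A) (ι → A) ℂ) (Q : Matrix (ι → B) (ι → B) ℂ),
      0 ≤ (P * piT fun i => α i (z i)).trace → 0 ≤ (Q * piT fun i => β i (z i)).trace →
      0 ≤ ((P * piT fun i => α i (z i)).trace).re ∧
      0 ≤ ((Q * piT fun i => β i (z i)).trace).re ∧
      pr (σ z) P Q = ((P * piT fun i => α i (z i)).trace).re *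
        ((Q * piT fun i => β i (z i)).trace).re := by
    intro z P Q hP hQ
    obtain ⟨h1, h2⟩ := re_nonneg hP
    obtain ⟨h3, h4⟩ := re_nonneg hQ
    refine ⟨h1, h3, ?_⟩
    rw [pr, hσ, tf_kron, ← mul_kronecker_mul, trace_kronecker, h2, h4, ← Complex.ofReal_mul,
      Complex.ofReal_re, Complex.ofReal_re, Complex.ofReal_re]
  choose c hc using fun z => label_num (hprod z P₀ Q₀ (hP₀ z) (hQ₀ z)).1
    (hprod z P₁ Q₁ (hP₁ z) (hQ₁ z)).1 (hprod z P₀ Q₀ (hP₀ z) (hQ₀ z)).2.1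
    (hprod z P₁ Q₁ (hP₁ z) (hQ₁ z)).2.1
  have hRk : (tf fun _ : ι => R) * ∑ z, (c z : ℂ) • κ z = ∑ z, (c z : ℂ) • σ z := by
    rw [Matrix.mul_sum]
    refine Finset.sum_congr rfl fun z _ => ?_
    rw [Matrix.mul_smul, hRκ]
  have hlin : ∀ (P : Matrix (ι → A) (ι → A) ℂ) (Q : Matrix (ι → B) (ι → B) ℂ),
      pr (∑ z, (c z : ℂ) • σ z) P Q = ∑ z, c z * pr (σ z) P Q := by
    intro P Q
    rw [pr, Matrix.mul_sum, trace_sum, Complex.re_sum]
    refine Finset.sum_congr rfl fun z _ => ?_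
    rw [Matrix.mul_smul, trace_smul, smul_eq_mul, Complex.re_ofReal_mul, pr]
  have hone : ∀ (P : Matrix (ι → A) (ι → A) ℂ) (Q : Matrix (ι → B) (ι → B) ℂ),
      pr (tf fun _ : ι => R) P Q = ∑ z, pr (σ z) P Q := by
    intro P Q
    rw [hRσ, pr, Matrix.mul_sum, trace_sum, Complex.re_sum]
    exact Finset.sum_congr rfl fun z _ => rfl
  refine ⟨∑ z, (c z : ℂ) • κ z, ?_, ?_⟩
  · rw [hRk, conjTranspose_sum]
    refine Finset.sum_congr rfl fun z _ => ?_
    rw [conjTranspose_smul, hσH, RCLike.star_def, Complex.conj_ofReal]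
  · have hquad : pr ((tf fun _ : ι => R) * (∑ z, (c z : ℂ) • κ z) * ∑ z, (c z : ℂ) • κ z)
        (P₀ + P₁) (Q₀ + Q₁) ≤ ∑ z, c z ^ 2 * pr (σ z) (P₀ + P₁) (Q₀ + Q₁) := by
      have h1 := hqf c
      have h2 : ∀ z z', tf (fun i => (α i (z i) ⊗ₖ β i (z i)) * K i (z' i)) = σ z * κ z' := by
        intro z z'
        rw [hσ, hκ, Half.tf_mul]
      simp only [h2, ← hσ] at h1
      rw [hRk]
      have h3 : pr ((∑ z, (c z : ℂ) • σ z) * ∑ z, (c z : ℂ) • κ z) (P₀ + P₁) (Q₀ + Q₁) =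
          ∑ z, ∑ z', c z * c z' * (((P₀ + P₁) ⊗ₖ (Q₀ + Q₁)) * (σ z * κ z')).trace.re := by
        rw [pr, Matrix.sum_mul, Matrix.mul_sum, trace_sum, Complex.re_sum]
        refine Finset.sum_congr rfl fun z _ => ?_
        rw [Matrix.mul_sum, Matrix.mul_sum, trace_sum, Complex.re_sum]
        refine Finset.sum_congr rfl fun z' _ => ?_
        have e : ((P₀ + P₁) ⊗ₖ (Q₀ + Q₁)) * (((c z : ℂ) • σ z) * ((c z' : ℂ) • κ z')) =
            ((c z * c z' : ℝ) : ℂ) • (((P₀ + P₁) ⊗ₖ (Q₀ + Q₁)) * (σ z * κ z')) := by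
          simp only [Matrix.smul_mul, Matrix.mul_smul, smul_smul]
          push_cast
          rw [mul_comm (c z' : ℂ)]
        rw [e, trace_smul, smul_eq_mul, Complex.re_ofReal_mul]
      rw [h3]
      exact h1
    rw [hRk] at hquad ⊢
    rw [hlin, hlin, hone, hone, hone, hone]
    have h4 : ∀ z, pr (σ z) (P₀ + P₁) (Q₀ + Q₁) =
        (((P₀ * piT fun i => α i (z i)).trace).re + ((P₁ * piT fun i => α i (z i)).trace).re) *
        (((Q₀ * piT fun i => β i (z i)).trace).re + ((Q₁ * piT fun i => β i (z i)).trace).re) := by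
      intro z
      have k1 : 0 ≤ ((P₀ + P₁) * piT fun i => α i (z i)).trace := by
        rw [Matrix.add_mul, trace_add]
        exact add_nonneg (hP₀ z) (hP₁ z)
      have k2 : 0 ≤ ((Q₀ + Q₁) * piT fun i => β i (z i)).trace := by
        rw [Matrix.add_mul, trace_add]
        exact add_nonneg (hQ₀ z) (hQ₁ z)
      rw [(hprod z _ _ k1 k2).2.2, Matrix.add_mul, Matrix.add_mul, trace_add,
        trace_add, Complex.add_re, Complex.add_re]
    simp only [h4] at hquad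
    have h5 := Finset.sum_le_sum fun z (_ : z ∈ Finset.univ) => hc z
    simp only [(hprod _ _ _ (hP₀ _) (hQ₀ _)).2.2, (hprod _ _ _ (hP₀ _) (hQ₁ _)).2.2,
      (hprod _ _ _ (hP₁ _) (hQ₀ _)).2.2, (hprod _ _ _ (hP₁ _) (hQ₁ _)).2.2]
    have h6 : ∀ (x y w v : (ι → L) → ℝ), ∑ z, (x z + y z - 2 * (c z * (x z - y z)) + c z ^ 2 * w z) ≤
        ∑ z, v z → ∑ z, x z + ∑ z, y z - 2 * (∑ z, c z * x z - ∑ z, c z * y z) +
          ∑ z, c z ^ 2 * w z ≤ ∑ z, v z := by
      intro x y w v h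
      refine le_trans (le_of_eq ?_) h
      simp only [Finset.mul_sum, ← Finset.sum_add_distrib, ← Finset.sum_sub_distrib]
      refine Finset.sum_congr rfl fun z _ => ?_
      ring
    have h7 := h6 (fun z => (P₀ * piT fun i => α i (z i)).trace.re *
        (Q₀ * piT fun i => β i (z i)).trace.re) (fun z => (P₁ * piT fun i => α i (z i)).trace.re *
        (Q₁ * piT fun i => β i (z i)).trace.re) _ _ h5
    beta_reduce at h7
    rw [Finset.sum_add_distrib] at h7
    linarith only [hquad, h7]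

end many

end Vale.Agent.P372.Ou
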