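import Vale.Agent.P372.R2.helper492.Ou.Dep3

/-! Protocols on noisy copies. -/

open Matrix Kronecker
open scoped ComplexOrder MatrixOrder

set_option linter.unusedSectionVars false

namespace Vale.Agent.P372.Ou

open Vale.Agent.P372.Half (tf)
open Vale.Agent.P372.PC (IsPr tf_apply tf_kron tf_sum)

theorem tr_mul_psd {E : Type} [Fintype E] [DecidableEq E] {Z W : Matrix E E ℂ}
    (hZ : Z.PosSemidef) (hW : W.PosSemidef) : 0 ≤ (Z * W).trace := by
  obtain ⟨C, hC⟩ := exists_eq_conjTranspose_mul_self hZ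
  rw [hC, Matrix.mul_assoc, trace_mul_comm]
  exact (hW.mul_mul_conjTranspose_same C).trace_nonneg

section traces

variable {ι : Type} [Fintype ι] [DecidableEq ι]
variable {A B : Type} [Fintype A] [DecidableEq A] [Fintype B] [DecidableEq B]
variable {W W' : Type} [Fintype W] [Fintype W']

theorem trace_lam (V : ι → W → Matrix A A ℂ) (Z : Matrix (ι → A) (ι → A) ℂ)
    (α : ι → Matrix A A ℂ) :
    ((∑ w : ι → W, (piT fun i => V i (w i))ᴴ * Z * piT fun i => V i (w i)) * piT α).trace =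
      (Z * piT fun i => lam (V i) (α i)).trace := by
  have e : piT (fun i => lam (V i) (α i)) =
      ∑ w : ι → W, piT fun i => V i (w i) * α i * (V i (w i))ᴴ :=
    piT_sum fun i v => V i v * α i * (V i v)ᴴ
  rw [e, Matrix.sum_mul, trace_sum, Matrix.mul_sum, trace_sum]
  refine Finset.sum_congr rfl fun w _ => ?_
  rw [piT_mul, piT_mul, ← piT_conjTranspose]
  calc _ = ((piT fun i => V i (w i))ᴴ * (Z * (piT fun i => V i (w i)) * piT α)).trace := by
        simp only [Matrix.mul_assoc]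
    _ = _ := by
        rw [trace_mul_comm]
        simp only [Matrix.mul_assoc]

theorem trace_lam2 (V : ι → W → Matrix A A ℂ) (V' : ι → W' → Matrix B B ℂ)
    (Z : Matrix (ι → A) (ι → A) ℂ) (Z' : Matrix (ι → B) (ι → B) ℂ)
    (X : ι → Matrix (A × B) (A × B) ℂ) :
    (((∑ w : ι → W, (piT fun i => V i (w i))ᴴ * Z * piT fun i => V i (w i)) ⊗ₖ
      (∑ w : ι → W', (piT fun i => V' i (w i))ᴴ * Z' * piT fun i => V' i (w i))) *
        tf X).trace =
      ((Z ⊗ₖ Z') * tf fun i => lam (fun p : W × W' => V i p.1 ⊗ₖ V' i p.2) (X i)).trace := by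
  have e : tf (fun i => lam (fun p : W × W' => V i p.1 ⊗ₖ V' i p.2) (X i)) =
      ∑ w : ι → W × W', tf fun i => (V i (w i).1 ⊗ₖ V' i (w i).2) * X i *
        (V i (w i).1 ⊗ₖ V' i (w i).2)ᴴ :=
    tf_sum (κ := fun _ => W × W') fun i p => (V i p.1 ⊗ₖ V' i p.2) * X i *
      (V i p.1 ⊗ₖ V' i p.2)ᴴ
  have e2 : (∑ w : ι → W, (piT fun i => V i (w i))ᴴ * Z * piT fun i => V i (w i)) ⊗ₖ
      (∑ w : ι → W', (piT fun i => V' i (w i))ᴴ * Z' * piT fun i => V' i (w i)) =
      ∑ w : ι → W, ∑ w' : ι → W', (tf fun i => V i (w i) ⊗ₖ V' i (w' i))ᴴ * (Z ⊗ₖ Z') *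
        tf fun i => V i (w i) ⊗ₖ V' i (w' i) := by
    have h1 : ∀ (M : (ι → W) → Matrix (ι → A) (ι → A) ℂ) (N : (ι → W') → Matrix (ι → B) (ι → B) ℂ),
        (∑ w, M w) ⊗ₖ (∑ w', N w') = ∑ w, ∑ w', M w ⊗ₖ N w' := by
      intro M N
      ext a b
      simp only [kroneckerMap_apply, Matrix.sum_apply, Finset.sum_mul_sum]
    rw [h1]
    refine Finset.sum_congr rfl fun w _ => Finset.sum_congr rfl fun w' _ => ?_
    rw [tf_kron, conjTranspose_kronecker, ← mul_kronecker_mul, ← mul_kronecker_mul]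
  rw [e, e2, Matrix.mul_sum, trace_sum,
    ← (Equiv.arrowProdEquivProdArrow ι (fun _ => W) (fun _ => W')).symm.sum_comp,
    Fintype.sum_prod_type, Matrix.sum_mul, trace_sum]
  refine Finset.sum_congr rfl fun w _ => ?_
  rw [Matrix.sum_mul, trace_sum]
  refine Finset.sum_congr rfl fun w' _ => ?_
  obtain ⟨T, hT⟩ : ∃ T : ι → Matrix (A × B) (A × B) ℂ,
      T = fun i => V i (w i) ⊗ₖ V' i (w' i) := ⟨_, rfl⟩
  have e3 : (fun i => (V i ((Equiv.arrowProdEquivProdArrow ι (fun _ => W)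
      (fun _ => W')).symm (w, w') i).1 ⊗ₖ V' i ((Equiv.arrowProdEquivProdArrow ι (fun _ => W)
      (fun _ => W')).symm (w, w') i).2) * X i * (V i ((Equiv.arrowProdEquivProdArrow ι
      (fun _ => W) (fun _ => W')).symm (w, w') i).1 ⊗ₖ V' i ((Equiv.arrowProdEquivProdArrow ι
      (fun _ => W) (fun _ => W')).symm (w, w') i).2)ᴴ) = fun i => T i * X i * (T i)ᴴ := by
    rw [hT]
    rfl
  rw [e3, ← hT]
  have e4 : tf (fun i => T i * X i * (T i)ᴴ) = tf T * tf X * (tf T)ᴴ := by
    rw [Half.tf_mul, Half.tf_conjTranspose, Half.tf_mul]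
  rw [e4]
  calc _ = ((tf T)ᴴ * ((Z ⊗ₖ Z') * tf T * tf X)).trace := by simp only [Matrix.mul_assoc]
    _ = _ := by
        rw [trace_mul_comm]
        simp only [Matrix.mul_assoc]

end traces

section dat

variable {A B : Type} [Fintype A] [DecidableEq A] [Fintype B] [DecidableEq B]

/-- The joint Kraus operators of the noise. -/
noncomputable def dep2 (a b : ℝ) (p : Option (A × A) × Option (B × B)) :
    Matrix (A × B) (A × B) ℂ := depol a p.1 ⊗ₖ depol b p.2

/-- Labelled decompositions which exclude key after noise. -/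
def NDat {L : Type} [Fintype L] [DecidableEq L] (a b : ℝ) (R : Matrix (A × B) (A × B) ℂ)
    (α : L → Matrix A A ℂ) (β : L → Matrix B B ℂ) (K : L → Matrix (A × B) (A × B) ℂ) : Prop :=
  (∀ l, (α l)ᴴ = α l) ∧ (∀ l, (β l)ᴴ = β l) ∧ ∑ l, α l ⊗ₖ β l = R ∧
    (∀ l, R * K l = α l ⊗ₖ β l) ∧ (∀ l, (lam (depol a) (α l)).PosSemidef) ∧
    (∀ l, (lam (depol b) (β l)).PosSemidef) ∧ CtL (lam (dep2 a b)) (fun l => α l ⊗ₖ β l) K

theorem ndat_swap {L : Type} [Fintype L] [DecidableEq L] {a b : ℝ}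
    {R : Matrix (A × B) (A × B) ℂ} {α : L → Matrix B B ℂ} {β : L → Matrix A A ℂ}
    {K : L → Matrix (B × A) (B × A) ℂ}
    (h : NDat a b (R.submatrix Prod.swap Prod.swap) α β K) :
    NDat b a R β α (fun l => (K l).submatrix Prod.swap Prod.swap) := by
  obtain ⟨h1, h2, h3, h4, h5, h6, h7, h8⟩ := h
  have hmul : ∀ X Y : Matrix (B × A) (B × A) ℂ, (X * Y).submatrix Prod.swap Prod.swap =
      X.submatrix Prod.swap Prod.swap * Y.submatrix Prod.swap Prod.swap := fun X Y =>
    (submatrix_mul_equiv X Y Prod.swap (Equiv.prodComm A B) Prod.swap).symm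
  have hkr : ∀ (X : Matrix B B ℂ) (Y : Matrix A A ℂ),
      (X ⊗ₖ Y).submatrix Prod.swap Prod.swap = Y ⊗ₖ X := by
    intro X Y
    ext x y
    simp only [submatrix_apply, kroneckerMap_apply, Prod.fst_swap, Prod.snd_swap]
    exact mul_comm _ _
  have hR : (R.submatrix Prod.swap Prod.swap).submatrix Prod.swap Prod.swap = R := by
    ext x y
    simp only [submatrix_apply, Prod.swap_swap]
  have hlam : ∀ X : Matrix (B × A) (B × A) ℂ, lam (dep2 (A := A) (B := B) b a)
      (X.submatrix Prod.swap Prod.swap) = (lam (dep2 a b) X).submatrix Prod.swap Prod.swap := by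
    intro X
    have e1 : (lam (dep2 (A := B) (B := A) a b) X).submatrix (Prod.swap : A × B → B × A)
        Prod.swap = ∑ p, (dep2 a b p * X * (dep2 a b p)ᴴ).submatrix Prod.swap Prod.swap := by
      ext x y
      simp only [lam, submatrix_apply, Matrix.sum_apply]
    rw [e1, lam, ← (Equiv.prodComm (Option (B × B)) (Option (A × A))).sum_comp]
    refine Finset.sum_congr rfl fun p _ => ?_
    rw [hmul, hmul, ← conjTranspose_submatrix]
    have e2 : (dep2 a b p).submatrix (Prod.swap : A × B → B × A) Prod.swap =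
        dep2 b a (Equiv.prodComm (Option (B × B)) (Option (A × A)) p) := by
      rw [dep2, dep2, hkr]
      rfl
    rw [e2]
  refine ⟨h2, h1, ?_, fun l => ?_, h6, h5, ?_⟩
  · rw [← hR, ← h3]
    ext x y
    simp only [submatrix_apply, Matrix.sum_apply, kroneckerMap_apply, Prod.fst_swap, Prod.snd_swap]
    exact Finset.sum_congr rfl fun l _ => mul_comm _ _
  · have h9 := congrArg (fun Z => Z.submatrix (Prod.swap : A × B → B × A) Prod.swap) (h4 l)
    beta_reduce at h9
    rw [hmul, hR, hkr] at h9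
    exact h9
  · have e1 : HL (lam (dep2 b a)) (fun l => β l ⊗ₖ α l)
        (fun l => (K l).submatrix Prod.swap Prod.swap) =
        (HL (lam (dep2 a b)) (fun l => α l ⊗ₖ β l) K).submatrix
          (fun x => (x.1, x.2.swap)) (fun x => (x.1, x.2.swap)) := by
      ext x y
      rw [submatrix_apply, HL, HL, ← hkr, ← hmul, hlam]
      rfl
    have e2 : DL (lam (dep2 b a)) (fun l => β l ⊗ₖ α l) =
        (DL (lam (dep2 a b)) (fun l => α l ⊗ₖ β l)).submatrix
          (fun x => (x.1, x.2.swap)) (fun x => (x.1, x.2.swap)) := by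
      ext x y
      rw [submatrix_apply, DL, DL, ← hkr, hlam]
      rfl
    refine ⟨?_, ?_⟩
    · rw [e1]
      exact h7.submatrix _
    · rw [e1, e2]
      exact h8.submatrix (fun x : L × (A × B) => ((x.1, x.2.swap) : L × (B × A)))

/-- From labelled decompositions to protocols on noisy copies. -/
theorem noKeyNoise_of {L : Type} [Fintype L] [DecidableEq L] {R : Matrix (A × B) (A × B) ℂ}
    {c η : ℝ} (hc : 0 ≤ c) (hR : R.PosSemidef)
    {α : L → Matrix A A ℂ} {β : L → Matrix B B ℂ} {K : L → Matrix (A × B) (A × B) ℂ}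
    (hA : NDat η 0 R α β K)
    {α' : L → Matrix A A ℂ} {β' : L → Matrix B B ℂ} {K' : L → Matrix (A × B) (A × B) ℂ}
    (hB : NDat 0 η R α' β' K') : NoKeyNoise ((c : ℂ) • R) η := by
  intro E _ _ Ψ hΨ n ℓ hℓ T _ f g hL hS herr
  obtain ⟨hf, hg⟩ := PC.locc_psd hL
  obtain ⟨t, X, Y, hX, hY, hlt⟩ := PC.test_of_keyError (copies n Ψ) ⟨0, hℓ⟩ f g hf hg herr
  rw [PC.copies_mul, hΨ, PC.tpow_smul] at hlt
  obtain ⟨S, hSA, hSB⟩ := hS t
  choose ZA hZA1 hZA2 using hSA
  choose ZB hZB1 hZB2 using hSB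
  -- noisy effects
  have hsumN : ∀ {A' : Type} [Fintype A'] [DecidableEq A'] (a : Fin n → ℝ)
      (Z : (Fin ℓ → Bool) → Matrix (Fin n → A') (Fin n → A') ℂ) (s : Finset (Fin ℓ → Bool)),
      ∑ k ∈ s, (∑ w : Fin n → Option (A' × A'), (tens fun i => depol (a i) (w i))ᴴ * Z k *
        tens fun i => depol (a i) (w i)) =
      ∑ w : Fin n → Option (A' × A'), (tens fun i => depol (a i) (w i))ᴴ * (∑ k ∈ s, Z k) *
        tens fun i => depol (a i) (w i) := by
    intro A' _ _ a Z s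
    rw [Finset.sum_comm]
    refine Finset.sum_congr rfl fun w _ => ?_
    rw [Matrix.mul_sum, Matrix.sum_mul]
  have hXn : ∀ b, ∃ Z : Matrix (Fin n → A) (Fin n → A) ℂ, Z.PosSemidef ∧ (X b)ᴴ * X b =
      ∑ w : Fin n → Option (A × A), (piT fun i => depol (if i ∈ S then η else 0) (w i))ᴴ * Z *
        piT fun i => depol (if i ∈ S then η else 0) (w i) := by
    intro b
    refine ⟨_, posSemidef_sum (Finset.univ.filter fun k : Fin ℓ → Bool => k ⟨0, hℓ⟩ = b)
      fun k _ => hZA1 k, ?_⟩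
    rw [hX b, ← Finset.sum_filter]
    refine (Finset.sum_congr rfl fun k _ => hZA2 k).trans ?_
    exact hsumN (fun i => if i ∈ S then η else 0) ZA _
  have hYn : ∀ b, ∃ Z : Matrix (Fin n → B) (Fin n → B) ℂ, Z.PosSemidef ∧ (Y b)ᴴ * Y b =
      ∑ w : Fin n → Option (B × B), (piT fun i => depol (if i ∈ S then 0 else η) (w i))ᴴ * Z *
        piT fun i => depol (if i ∈ S then 0 else η) (w i) := by
    intro b
    refine ⟨_, posSemidef_sum (Finset.univ.filter fun k : Fin ℓ → Bool => k ⟨0, hℓ⟩ = b)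
      fun k _ => hZB1 k, ?_⟩
    rw [hY b, ← Finset.sum_filter]
    refine (Finset.sum_congr rfl fun k _ => hZB2 k).trans ?_
    exact hsumN (fun i => if i ∈ S then 0 else η) ZB _
  choose ZX hZX hXe using hXn
  choose ZY hZY hYe using hYn
  -- the sites
  have hex : ∀ i : Fin n, ∃ (α : L → Matrix A A ℂ) (β : L → Matrix B B ℂ)
      (K : L → Matrix (A × B) (A × B) ℂ),
      NDat (if i ∈ S then η else 0) (if i ∈ S then 0 else η) R α β K := by
    intro i
    by_cases hi : i ∈ S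
    · rw [if_pos hi, if_pos hi]
      exact ⟨α, β, K, hA⟩
    · rw [if_neg hi, if_neg hi]
      exact ⟨α', β', K', hB⟩
  choose α₀ β₀ K₀ h1 h2 h3 h4 h5 h6 h7 using hex
  have hRn : (tf fun _ : Fin n => R).PosSemidef := PC.tf_posSemidef fun _ => hR
  -- scaling keeps the noise
  have hscA : ∀ (b : Bool) (x : ℝ), 0 ≤ x → ∃ Z : Matrix (Fin n → A) (Fin n → A) ℂ,
      Z.PosSemidef ∧ (x : ℂ) • ((X b)ᴴ * X b) =
      ∑ w : Fin n → Option (A × A), (piT fun i => depol (if i ∈ S then η else 0) (w i))ᴴ * Z *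
        piT fun i => depol (if i ∈ S then η else 0) (w i) := by
    intro b x hx
    refine ⟨(x : ℂ) • ZX b, (hZX b).smul (Complex.zero_le_real.mpr hx), ?_⟩
    rw [hXe b, Finset.smul_sum]
    refine Finset.sum_congr rfl fun w _ => ?_
    rw [Matrix.mul_smul, Matrix.smul_mul]
  have hscB : ∀ (b : Bool) (x : ℝ), 0 ≤ x → ∃ Z : Matrix (Fin n → B) (Fin n → B) ℂ,
      Z.PosSemidef ∧ (x : ℂ) • ((Y b)ᴴ * Y b) =
      ∑ w : Fin n → Option (B × B), (piT fun i => depol (if i ∈ S then 0 else η) (w i))ᴴ * Z *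
        piT fun i => depol (if i ∈ S then 0 else η) (w i) := by
    intro b x hx
    refine ⟨(x : ℂ) • ZY b, (hZY b).smul (Complex.zero_le_real.mpr hx), ?_⟩
    rw [hYe b, Finset.smul_sum]
    refine Finset.sum_congr rfl fun w _ => ?_
    rw [Matrix.mul_smul, Matrix.smul_mul]
  have hTT : PC.TT (tf fun _ : Fin n => R) (X false) (X true) (Y false) (Y true) := by
    refine TT_of_SO hRn _ _ _ _ fun a b ha hb => ?_
    obtain ⟨Z₀, hZ₀, hP₀⟩ := hscA false a ha.le
    obtain ⟨Z₁, hZ₁, hP₁⟩ := hscA true a⁻¹ (inv_nonneg.mpr ha.le)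
    obtain ⟨Z₂, hZ₂, hQ₀⟩ := hscB false b hb.le
    obtain ⟨Z₃, hZ₃, hQ₁⟩ := hscB true b⁻¹ (inv_nonneg.mpr hb.le)
    have kA : ∀ (Z : Matrix (Fin n → A) (Fin n → A) ℂ), Z.PosSemidef → ∀ z : Fin n → L,
        0 ≤ ((∑ w : Fin n → Option (A × A), (piT fun i => depol (if i ∈ S then η else 0)
          (w i))ᴴ * Z * piT fun i => depol (if i ∈ S then η else 0) (w i)) *
          piT fun i => α₀ i (z i)).trace := by
      intro Z hZ z
      rw [trace_lam (fun i => depol (if i ∈ S then η else 0)) Z]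
      exact tr_mul_psd hZ (piT_posSemidef fun i => h5 i (z i))
    have kB : ∀ (Z : Matrix (Fin n → B) (Fin n → B) ℂ), Z.PosSemidef → ∀ z : Fin n → L,
        0 ≤ ((∑ w : Fin n → Option (B × B), (piT fun i => depol (if i ∈ S then 0 else η)
          (w i))ᴴ * Z * piT fun i => depol (if i ∈ S then 0 else η) (w i)) *
          piT fun i => β₀ i (z i)).trace := by
      intro Z hZ z
      rw [trace_lam (fun i => depol (if i ∈ S then 0 else η)) Z]
      exact tr_mul_psd hZ (piT_posSemidef fun i => h6 i (z i))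
    refine so_abs h1 h2 h3 h4 (fun z => ?_) (fun z => ?_) (fun z => ?_) (fun z => ?_)
      fun u => ?_
    · rw [hP₀]; exact kA Z₀ hZ₀ z
    · rw [hP₁]; exact kA Z₁ hZ₁ z
    · rw [hQ₀]; exact kB Z₂ hZ₂ z
    · rw [hQ₁]; exact kB Z₃ hZ₃ z
    · have e1 : (a : ℂ) • ((X false)ᴴ * X false) + ((a⁻¹ : ℝ) : ℂ) • ((X true)ᴴ * X true) =
          ∑ w : Fin n → Option (A × A), (piT fun i => depol (if i ∈ S then η else 0) (w i))ᴴ *
            (Z₀ + Z₁) * piT fun i => depol (if i ∈ S then η else 0) (w i) := by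
        rw [hP₀, hP₁, ← Finset.sum_add_distrib]
        refine Finset.sum_congr rfl fun w _ => ?_
        rw [Matrix.mul_add, Matrix.add_mul]
      have e2 : (b : ℂ) • ((Y false)ᴴ * Y false) + ((b⁻¹ : ℝ) : ℂ) • ((Y true)ᴴ * Y true) =
          ∑ w : Fin n → Option (B × B), (piT fun i => depol (if i ∈ S then 0 else η) (w i))ᴴ *
            (Z₂ + Z₃) * piT fun i => depol (if i ∈ S then 0 else η) (w i) := by
        rw [hQ₀, hQ₁, ← Finset.sum_add_distrib]
        refine Finset.sum_congr rfl fun w _ => ?_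
        rw [Matrix.mul_add, Matrix.add_mul]
      rw [e1, e2]
      have k1 := contrL (Λ := fun i => lam (dep2 (if i ∈ S then η else 0)
        (if i ∈ S then 0 else η))) h7 ((hZ₀.add hZ₁).kronecker (hZ₂.add hZ₃)) u
      have k2 : ∀ M : Fin n → Matrix (A × B) (A × B) ℂ, (((∑ w : Fin n → Option (A × A),
          (piT fun i => depol (if i ∈ S then η else 0) (w i))ᴴ *
            (Z₀ + Z₁) * piT fun i => depol (if i ∈ S then η else 0) (w i)) ⊗ₖ
          (∑ w : Fin n → Option (B × B), (piT fun i => depol (if i ∈ S then 0 else η) (w i))ᴴ *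
            (Z₂ + Z₃) * piT fun i => depol (if i ∈ S then 0 else η) (w i))) * tf M).trace =
          (((Z₀ + Z₁) ⊗ₖ (Z₂ + Z₃)) * tf fun i => lam (dep2 (if i ∈ S then η else 0)
            (if i ∈ S then 0 else η)) (M i)).trace := fun M =>
        trace_lam2 (fun i => depol (if i ∈ S then η else 0))
          (fun i => depol (if i ∈ S then 0 else η)) (Z₀ + Z₁) (Z₂ + Z₃) M
      simp only [k2]
      exact k1
  exact absurd hlt (not_lt.mpr (PC.TT_smul (pow_nonneg hc n) hTT))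

end dat

end Vale.Agent.P372.Ou
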