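import Vale.Agent.P372.R2.helper492.Ou.Dep4

/-! States near the separable boundary state under noise. -/

open Matrix Kronecker
open scoped ComplexOrder MatrixOrder

set_option linter.unusedSectionVars false

namespace Vale.Agent.P372.Ou

open Vale.Agent.P372.Half (tf)
open Vale.Agent.P372.PC (IsPr tf_apply tf_kron tf_sum)

section lam

variable {A B L : Type} [Fintype A] [DecidableEq A] [Fintype B] [DecidableEq B] [Fintype L]
  [DecidableEq L]

theorem depol_zero_none : depol 0 (none : Option (A × A)) = 1 := by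
  rw [depol, Option.elim_none, sub_zero, Real.sqrt_one, Complex.ofReal_one, one_smul]

theorem depol_zero_some (x : A × A) : depol 0 (some x) = 0 := by
  rw [depol, Option.elim_some, zero_div, Real.sqrt_zero, Complex.ofReal_zero, zero_smul]

theorem lam_zero (X : Matrix A A ℂ) : lam (depol 0) X = X := by
  rw [lam, Fintype.sum_option, depol_zero_none, one_mul, conjTranspose_one, mul_one]
  simp only [depol_zero_some, Matrix.zero_mul, Finset.sum_const_zero, add_zero]

theorem lam_depol {η : ℝ} (hη0 : 0 ≤ η) (hη1 : η ≤ 1) (X : Matrix A A ℂ) :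
    lam (depol η) X = ((1 - η : ℝ) : ℂ) • X +
      (((η / Fintype.card A : ℝ) : ℂ) * X.trace) • 1 := by
  have hd0 : 0 ≤ η / Fintype.card A := by positivity
  have h1 : 0 ≤ 1 - η := by linarith
  rw [lam, Fintype.sum_option]
  congr 1
  · rw [depol, Option.elim_none, conjTranspose_smul, conjTranspose_one, Matrix.smul_mul, one_mul,
      Matrix.mul_smul, mul_one, smul_smul, RCLike.star_def, Complex.conj_ofReal,
      ← Complex.ofReal_mul, Real.mul_self_sqrt h1]
  · have e : ∀ x : A × A, depol η (some x) * X * (depol η (some x))ᴴ =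
        ((η / Fintype.card A : ℝ) : ℂ) • (X x.2 x.2 • Matrix.single x.1 x.1 1) := by
      intro x
      rw [depol, Option.elim_some, conjTranspose_smul, Matrix.smul_mul, Matrix.smul_mul,
        Matrix.mul_smul, smul_smul, RCLike.star_def, Complex.conj_ofReal,
        ← Complex.ofReal_mul, Real.mul_self_sqrt hd0]
      congr 1
      ext a b
      rw [Matrix.smul_apply, Matrix.mul_apply, Finset.sum_eq_single x.2]
      · rw [Matrix.mul_apply, Finset.sum_eq_single x.2, conjTranspose_apply]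
        · by_cases ha : x.1 = a
          · by_cases hb : x.1 = b
            · subst ha
              subst hb
              simp
            · simp [Matrix.single_apply, ha]
          · simp [Matrix.single_apply, ha]
        · intro y _ hy
          simp [Ne.symm hy]
        · simp
      · intro y _ hy
        rw [conjTranspose_apply]
        simp [Ne.symm hy]
      · simp
    simp only [e]
    rw [← Finset.smul_sum, mul_smul]
    congr 1
    rw [Fintype.sum_prod_type]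
    simp only [← Finset.sum_smul]
    rw [← Finset.smul_sum, Matrix.trace]
    congr 1
    ext a b
    rw [Matrix.sum_apply, one_apply]
    by_cases h : a = b
    · subst h
      rw [if_pos rfl, Finset.sum_eq_single a]
      · simp
      · intro x _ hx
        simp [hx]
      · simp
    · rw [if_neg h]
      refine Finset.sum_eq_zero fun x _ => ?_
      by_cases h1 : x = a
      · subst h1
        simp [h]
      · simp [h1]

theorem dep2_sum (η : ℝ) (Q : Matrix (L × (A × B)) (L × (A × B)) ℂ) :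
    ∑ p : Option (A × A) × Option (B × B), ((1 : Matrix L L ℂ) ⊗ₖ dep2 η 0 p) * Q *
      ((1 : Matrix L L ℂ) ⊗ₖ dep2 η 0 p)ᴴ =
    ∑ v : Option (A × A), ((1 : Matrix L L ℂ) ⊗ₖ (depol η v ⊗ₖ (1 : Matrix B B ℂ))) * Q *
      ((1 : Matrix L L ℂ) ⊗ₖ (depol η v ⊗ₖ (1 : Matrix B B ℂ)))ᴴ := by
  rw [Fintype.sum_prod_type]
  refine Finset.sum_congr rfl fun v _ => ?_
  rw [Fintype.sum_option]
  have e : ∀ x : B × B, ((1 : Matrix L L ℂ) ⊗ₖ dep2 η 0 (v, some x)) * Q *
      ((1 : Matrix L L ℂ) ⊗ₖ dep2 η 0 (v, some x))ᴴ = 0 := by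
    intro x
    rw [dep2, depol_zero_some, kronecker_zero, kronecker_zero, Matrix.zero_mul, Matrix.zero_mul]
  simp only [e, Finset.sum_const_zero, add_zero]
  rw [dep2, depol_zero_none]

end lam

theorem bd_low {X : Type} [Fintype X] [DecidableEq X] {Z : Matrix X X ℂ} {a : ℝ} (h : Bd Z a) :
    ((a : ℂ) • 1 + Z).PosSemidef := h.2

theorem lam_psd {E V : Type} [Fintype E] [DecidableEq E] [Fintype V] (T : V → Matrix E E ℂ)
    {X : Matrix E E ℂ} (h : X.PosSemidef) : (lam T X).PosSemidef :=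
  posSemidef_sum _ fun _ _ => h.mul_mul_conjTranspose_same _

/-- The neighbourhood theorem for noisy copies. -/
theorem nb_dep (g k : ℕ) (hg : 0 < g) (hk : 4 ≤ k) :
    ∃ e₀ : ℝ, 0 < e₀ ∧ ∀ η : ℝ, 0 < η → η ≤ 1 → ∀ R, Bd (R - base g k) (e₀ * η) →
      ∀ c : ℝ, 0 ≤ c → NoKeyNoise ((c : ℂ) • R) η := by
  have hk0 : 0 < k := by omega
  have hk4 : (4 : ℝ) ≤ k := by exact_mod_cast hk
  have hdes := isDes hk0
  have hdes' := isDes hg
  have hb0 : ∀ l, dv k l ≠ 0 := by
    intro l h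
    have h1 := hdes.unit l
    rw [h] at h1
    simp at h1
  -- the rotation
  obtain ⟨r, hr0, hr1, hrU⟩ := exists_unifs (g := g) 1 (Fin 1 → Fin g × Fin k)
    (Fin k ⊕ (Fin k → Fin 4)) (m := 1) (by omega) hb0
    (fun U l hU => alp_pr (rot_unit hU (hdes.unit l)))
  obtain ⟨U', hU', hUl⟩ := hrU (fun x => pj (Pi.single x 1)) fun x => by
    have h2 : IsPr (pj (Pi.single x 1 : (Fin 1 → Fin g × Fin k) → ℂ)) := by
      refine ⟨pj_herm _, ?_⟩
      rw [pj_pj', nq_single, Complex.ofReal_one, one_smul]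
    refine ⟨h2.1, h2.2, ?_⟩
    rw [pj_tr, nq_single]
    simp
  obtain ⟨U, hUd⟩ : ∃ U, U = U' 0 := ⟨_, rfl⟩
  have hU := hU' 0
  rw [← hUd] at hU
  have hd : IsDes (dw k) (fun l => U *ᵥ dv k l) := hdes.rotate hU.1 hU.2
  have hj : ∀ (l : (Fin k ⊕ (Fin k → Fin 4)) × (Fin g ⊕ (Fin g → Fin 4))) (j : Fin g × Fin k),
      r ≤ (alp g (U *ᵥ dv k l.1) j j).re := by
    intro l j
    have h1 := hUl (fun _ => j) (fun _ => l.1)
    have h2 := h1.diag_nonneg (i := fun _ => j)
    have hPr : IsPr (piT (fun i : Fin 1 => alp g (U' i *ᵥ dv k l.1))) :=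
      psd_piT_pr fun i => alp_pr (rot_unit (hU' i).1 (hdes.unit _))
    rw [pj_sand hPr] at h2
    have h3 : nq (piT (fun i : Fin 1 => alp g (U' i *ᵥ dv k l.1)) *ᵥ
        Pi.single (fun _ => j) 1) = (alp g (U *ᵥ dv k l.1) j j).re := by
      have h4 := IsPr.dot_self hPr (Pi.single (fun _ => j) 1)
      have h5 : star (Pi.single (fun _ => j) 1 : (Fin 1 → Fin g × Fin k) → ℂ) ⬝ᵥ
          (piT (fun i : Fin 1 => alp g (U' i *ᵥ dv k l.1)) *ᵥ Pi.single (fun _ => j) 1) =
          piT (fun i : Fin 1 => alp g (U' i *ᵥ dv k l.1)) (fun _ => j) (fun _ => j) := by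
        rw [mulVec_single_one, ← Pi.single_star, single_dotProduct]
        simp
      rw [h5, piT_apply, Fin.prod_univ_one, ← hUd] at h4
      rw [h4, Complex.ofReal_re]
    rw [h3, Matrix.sub_apply, Matrix.smul_apply, Matrix.smul_apply, pj_apply,
      Pi.single_eq_same, star_one, mul_one, smul_eq_mul, smul_eq_mul, mul_one, mul_one,
      ← Complex.ofReal_sub, Complex.zero_le_real] at h2
    linarith
  obtain ⟨κ, hκd⟩ : ∃ κ : ℝ, κ = k + 1 := ⟨_, rfl⟩
  have hκ5 : 5 ≤ κ := by rw [hκd]; linarith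
  have hcard : (1 : ℝ) ≤ (Fintype.card (Fin g × Fin k) : ℝ) := by
    have : 0 < Fintype.card (Fin g × Fin k) := Fintype.card_pos_iff.mpr ⟨(⟨0, hg⟩, ⟨0, hk0⟩)⟩
    exact_mod_cast this
  obtain ⟨D, hD⟩ : ∃ D : ℝ, D = (Fintype.card (Fin g × Fin k) : ℝ) := ⟨_, rfl⟩
  rw [← hD] at hcard
  -- the constant
  refine ⟨r / (72 * D * κ) / (4 * (g + 1)), by positivity, fun η hη hη1 R hR c hc => ?_⟩
  obtain ⟨ε₁, hε₁⟩ : ∃ ε₁ : ℝ, ε₁ = η * r / (72 * D * κ) := ⟨_, rfl⟩
  have hε₁g : r / (72 * D * κ) / (4 * (g + 1)) * η = ε₁ / (4 * (g + 1)) := by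
    rw [hε₁]
    ring
  rw [hε₁g] at hR
  have hε₁0 : 0 < ε₁ := by rw [hε₁]; positivity
  have hmain : 9 * ε₁ = η / D * (r / (8 * κ)) := by
    rw [hε₁]
    field_simp
    norm_num
  have hηD : η / D ≤ 1 := by
    rw [div_le_one (by linarith)]
    linarith
  have hrκ : r / (8 * κ) ≤ 1 / 40 := by
    rw [div_le_div_iff₀ (by positivity) (by norm_num)]
    nlinarith
  have hrκ0 : 0 < r / (8 * κ) := by positivity
  have h9 : 9 * ε₁ ≤ r / (8 * κ) := by
    rw [hmain]
    exact mul_le_of_le_one_left hrκ0.le hηD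
  have hε₁1 : ε₁ ≤ 1 / 8 := by linarith
  have h9' : 9 * ε₁ ≤ η * r := by
    rw [hmain]
    have e1 : η / D ≤ η := div_le_self hη.le hcard
    have e2 : r / (8 * κ) ≤ r := div_le_self hr0.le (by linarith)
    exact mul_le_mul e1 e2 hrκ0.le hη.le
  have h4 : 4 * ε₁ * κ ≤ κ - 2 := by nlinarith
  have hC : 4 * ε₁ * κ / (κ - 2) + 2 * ε₁ ≤ η / D * (r / (8 * κ)) := by
    rw [← hmain]
    have hκ2 : 0 < κ - 2 := by linarith
    have : 4 * ε₁ * κ / (κ - 2) ≤ 7 * ε₁ := by
      rw [div_le_iff₀ hκ2]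
      nlinarith
    linarith
  have hg0 : (0 : ℝ) ≤ g := Nat.cast_nonneg g
  have key : ∀ R : Matrix ((Fin g × Fin k) × (Fin g × Fin k))
      ((Fin g × Fin k) × (Fin g × Fin k)) ℂ, Bd (R - base g k) (ε₁ / (4 * (g + 1))) →
      R.PosDef ∧ ∃ (α β : (Fin k ⊕ (Fin k → Fin 4)) × (Fin g ⊕ (Fin g → Fin 4)) →
        Matrix (Fin g × Fin k) (Fin g × Fin k) ℂ)
        (K : (Fin k ⊕ (Fin k → Fin 4)) × (Fin g ⊕ (Fin g → Fin 4)) →
        Matrix ((Fin g × Fin k) × (Fin g × Fin k)) ((Fin g × Fin k) × (Fin g × Fin k)) ℂ),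
        NDat η 0 R α β K := by
    intro R hR
    have hεε : ε₁ / (4 * (g + 1)) ≤ ε₁ := div_le_self hε₁0.le (by linarith)
    have hpd : R.PosDef := by
      have h1 := hR.2.add (base_low (g := g) (k := k))
      have e : ((ε₁ / (4 * (g + 1)) : ℝ) : ℂ) • 1 + (R - base g k) +
            (base g k - ((k - 1 : ℝ) : ℂ) • 1) =
            R - ((k - 1 - ε₁ / (4 * (g + 1)) : ℝ) : ℂ) • 1 := by
        rw [Complex.ofReal_sub ((k : ℝ) - 1), sub_smul]
        abel
      rw [e] at h1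
      have h2 : (((k - 1 - ε₁ / (4 * (g + 1)) : ℝ) : ℂ) •
          (1 : Matrix ((Fin g × Fin k) × (Fin g × Fin k)) _ ℂ)).PosDef :=
        PosDef.one.smul (Complex.zero_lt_real.mpr (by linarith))
      have h3 := h2.add_posSemidef h1
      rwa [add_sub_cancel] at h3
    refine ⟨hpd, ?_⟩
    obtain ⟨α, hα⟩ : ∃ α : (Fin k ⊕ (Fin k → Fin 4)) × (Fin g ⊕ (Fin g → Fin 4)) →
        Matrix (Fin g × Fin k) (Fin g × Fin k) ℂ, α = fun l => alp g (U *ᵥ dv k l.1) :=
      ⟨_, rfl⟩
    obtain ⟨α', hα'⟩ : ∃ α' : (Fin k ⊕ (Fin k → Fin 4)) × (Fin g ⊕ (Fin g → Fin 4)) →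
        Matrix (Fin g × Fin k) (Fin g × Fin k) ℂ, α' = fun l => alp g (U *ᵥ dv k l.1) +
        ((g + 1 : ℝ) : ℂ) • tb (du g k (dv g l.2) (U *ᵥ dv k l.1)) (R - base g k) :=
      ⟨_, rfl⟩
    obtain ⟨c, hc⟩ : ∃ c : (Fin k ⊕ (Fin k → Fin 4)) × (Fin g ⊕ (Fin g → Fin 4)) →
        Matrix (Fin g × Fin k) (Fin g × Fin k) ℂ,
        c = fun l => pj (dv g l.2) ⊗ₖ pj (U *ᵥ dv k l.1) := ⟨_, rfl⟩
    obtain ⟨ν, hν⟩ : ∃ ν : (Fin k ⊕ (Fin k → Fin 4)) × (Fin g ⊕ (Fin g → Fin 4)) → ℝ,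
        ν = fun l => dw k l.1 * (dw g l.2 / (g + 1)) := ⟨_, rfl⟩
    have k1 : Lay α c ν κ := by
      have h := lay (g := g) hd hdes'
      rw [hα, hc, hν, hκd]
      exact h
    have k2 : ∀ l, Bd (α' l - α l) ε₁ := by
      intro l
      rw [hα, hα']
      beta_reduce
      rw [add_sub_cancel_left]
      have hεg : (g + 1 : ℝ) * (4 * (ε₁ / (4 * (g + 1)))) = ε₁ := by field_simp
      rw [← hεg]
      exact (du_bd (hdes'.unit l.2) (hd.unit l.1) (by positivity) hR).smul (by positivity)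
    have k3 : ∑ l, ((ν l : ℂ) • α' l) ⊗ₖ c l = R := by
      have h := pert_eq hg hd R
      rw [hν, hα', hc]
      exact h
    have k4 : ∀ l, (α' l)ᴴ = α' l := by
      intro l
      have h1 := (k2 l).herm
      rw [conjTranspose_sub, (k1.pr l).1] at h1
      exact sub_left_injective h1
    have k5 : ∀ l j, r ≤ (α l j j).re := by
      intro l j
      rw [hα]
      exact hj l j
    clear hα hα' hc hν
    have hσH : ∀ l, (((ν l : ℂ) • α' l) ⊗ₖ c l)ᴴ = ((ν l : ℂ) • α' l) ⊗ₖ c l := by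
      intro l
      rw [conjTranspose_kronecker, conjTranspose_smul, k4, (k1.pc l).1, RCLike.star_def,
        Complex.conj_ofReal]
    have hdet : IsUnit R.det := (Matrix.isUnit_iff_isUnit_det _).mp hpd.isUnit
    refine ⟨fun l => (ν l : ℂ) • α' l, c, fun l => R⁻¹ * (((ν l : ℂ) • α' l) ⊗ₖ c l),
      fun l => ?_, fun l => (k1.pc l).1, k3, fun l => ?_, fun l => ?_, fun l => ?_, ?_⟩
    · rw [conjTranspose_smul, k4, RCLike.star_def, Complex.conj_ofReal]
    · rw [← Matrix.mul_assoc, Matrix.mul_nonsing_inv _ hdet, one_mul]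
    · -- positivity of the labels after the noise
      have e1 : lam (depol η) ((ν l : ℂ) • α' l) = (ν l : ℂ) •
          (lam (depol η) ((ε₁ : ℂ) • 1 + (α' l - α l)) +
            (((1 - η : ℝ) : ℂ) • α l + ((η / D * (α l).trace.re - ε₁ : ℝ) : ℂ) • 1)) := by
        have htr : (α l).trace = ((α l).trace.re : ℂ) :=
          (re_nonneg (k1.pr l).psd.trace_nonneg).2
        rw [lam_depol hη.le hη1, lam_depol hη.le hη1, trace_smul, trace_add, trace_smul, trace_one,
          trace_sub, ← hD]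
        have hDc : ((Fintype.card (Fin g × Fin k) : ℕ) : ℂ) = (D : ℂ) := by
          rw [hD]
          push_cast
          rfl
        rw [hDc]
        rw [htr, Complex.ofReal_re]
        have hD0 : (D : ℂ) ≠ 0 := by
          have : D ≠ 0 := by linarith
          exact_mod_cast this
        ext x y
        simp only [Matrix.smul_apply, Matrix.add_apply, Matrix.sub_apply, smul_eq_mul]
        push_cast
        field_simp
        ring
      rw [e1]
      refine PosSemidef.smul ?_ (Complex.zero_le_real.mpr (k1.nn l))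
      refine (lam_psd _ (k2 l).2).add (PosSemidef.add ?_ ?_)
      · exact (k1.pr l).psd.smul (Complex.zero_le_real.mpr (by linarith))
      · refine PosSemidef.one.smul (Complex.zero_le_real.mpr ?_)
        have h1 : D * r ≤ (α l).trace.re := by
          rw [Matrix.trace, Complex.re_sum]
          have h2 : ∑ _j : Fin g × Fin k, r ≤ ∑ j, ((α l).diag j).re :=
            Finset.sum_le_sum fun j _ => k5 l j
          rw [Finset.sum_const, Finset.card_univ, nsmul_eq_mul, ← hD] at h2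
          exact h2
        have h2 : η * r ≤ η / D * (α l).trace.re := by
          have h3 := mul_le_mul_of_nonneg_left h1 (by positivity : 0 ≤ η / D)
          have e : η / D * (D * r) = η * r := by field_simp
          linarith
        linarith
    · rw [lam_zero]
      exact (k1.pc l).psd
    · refine ctL_lam hpd hσH _ ?_
      rw [dep2_sum]
      exact site_noise k1 k2 hε₁0.le hκ5 hr0.le hr1 hη.le hη1 (by linarith) h4
        (by rw [← hD]; exact hC) k5 hpd k3
  obtain ⟨hpd, α, β, K, hA⟩ := key R hR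
  have hRs : Bd (R.submatrix Prod.swap Prod.swap - base g k) (ε₁ / (4 * (g + 1))) := by
    have h1 := hR.subm (Y := (Fin g × Fin k) × (Fin g × Fin k)) (e := Prod.swap)
      Prod.swap_injective
    have e : (R - base g k).submatrix Prod.swap Prod.swap =
        R.submatrix Prod.swap Prod.swap - base g k := by
      conv_rhs => rw [← base_swap]
      rfl
    rwa [e] at h1
  obtain ⟨-, α', β', K', hB⟩ := key _ hRs
  exact noKeyNoise_of hc hpd.posSemidef hA (ndat_swap hB)

/-- Near entries, with a constant. -/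
theorem close_bd' {g k : ℕ} (hg : 0 < g) (hk : 2 ≤ k) :
    ∃ C : ℝ, 0 < C ∧ ∀ ε : ℝ, 0 < ε → ∀ ρ : Matrix ((Fin g × Fin k) × (Fin g × Fin k))
      ((Fin g × Fin k) × (Fin g × Fin k)) ℂ, ρ.PosSemidef →
      (∀ p q, ‖ρ p q - sepState g k p q‖ ≤ C * ε) →
      ∃ (c : ℝ) (R : Matrix ((Fin g × Fin k) × (Fin g × Fin k))
        ((Fin g × Fin k) × (Fin g × Fin k)) ℂ), 0 ≤ c ∧ Bd (R - base g k) ε ∧
        ρ = (c : ℂ) • R := by
  obtain ⟨-, ht⟩ := tt_pos hg hk
  obtain ⟨T, hT⟩ : ∃ T, T = tt g k := ⟨_, rfl⟩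
  rw [← hT] at ht
  obtain ⟨n, hn⟩ : ∃ n : ℕ, n = Fintype.card ((Fin g × Fin k) × (Fin g × Fin k)) := ⟨_, rfl⟩
  have hn0 : (0 : ℝ) ≤ n := Nat.cast_nonneg n
  refine ⟨1 / (T * (n + 1)), by positivity, fun ε hε ρ hρ hc => ?_⟩
  have hTρ : ρ = ((T⁻¹ : ℝ) : ℂ) • ((T : ℂ) • ρ) := by
    rw [smul_smul, ← Complex.ofReal_mul, inv_mul_cancel₀ ht.ne', Complex.ofReal_one, one_smul]
  refine ⟨T⁻¹, (T : ℂ) • ρ, inv_nonneg.mpr ht.le, ?_, hTρ⟩
  have hD : ((T : ℂ) • ρ - base g k)ᴴ = (T : ℂ) • ρ - base g k := by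
    rw [conjTranspose_sub, conjTranspose_smul, hρ.isHermitian.eq, base_herm, RCLike.star_def,
      Complex.conj_ofReal]
  have hent : ∀ p q, ‖((T : ℂ) • ρ - base g k) p q‖ ≤ ε / (n + 1) := by
    intro p q
    have h1 : ((T : ℂ) • ρ - base g k) p q = (T : ℂ) * (ρ p q - sepState g k p q) := by
      rw [sepState_eq, ← hT, Matrix.sub_apply, Matrix.smul_apply, Matrix.smul_apply, smul_eq_mul,
        smul_eq_mul, mul_sub, ← mul_assoc, ← Complex.ofReal_mul, mul_inv_cancel₀ ht.ne',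
        Complex.ofReal_one, one_mul]
    rw [h1, norm_mul, Complex.norm_real, Real.norm_of_nonneg ht.le]
    calc T * ‖ρ p q - sepState g k p q‖ ≤ T * (1 / (T * (n + 1)) * ε) :=
          mul_le_mul_of_nonneg_left (hc p q) ht.le
      _ = ε / (n + 1) := by field_simp
  refine (bd_of_entries hD (by positivity) hent).mono ?_
  rw [← hn, div_mul_eq_mul_div, div_le_iff₀ (by positivity)]
  nlinarith

theorem dep_entries (g k : ℕ) (hg : 0 < g) (hk : 4 ≤ k) :
    ∃ C : ℝ, 0 < C ∧ ∀ η : ℝ, 0 < η → η ≤ 1 → ∀ ρ : Matrix ((Fin g × Fin k) × (Fin g × Fin k))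
      ((Fin g × Fin k) × (Fin g × Fin k)) ℂ, ρ.PosSemidef → ρ.trace = 1 →
      (∀ p q, ‖ρ p q - sepState g k p q‖ ≤ C * η) → NoKeyNoise ρ η := by
  obtain ⟨e₀, he₀, h⟩ := nb_dep g k hg hk
  obtain ⟨C, hC, hC'⟩ := close_bd' (g := g) (k := k) hg (by omega)
  refine ⟨C * e₀, by positivity, fun η hη hη1 ρ hρ _ hc => ?_⟩
  obtain ⟨c, R, hc0, hR, hcR⟩ := hC' (e₀ * η) (by positivity) ρ hρ fun p q => by
    rw [← mul_assoc]
    exact hc p q
  rw [hcR]
  exact h η hη hη1 R hR c hc0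

end Vale.Agent.P372.Ou
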