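import Vale.Agent.P372.R2.helper492.Ou.Cor
import Vale.Agent.P372.R2.helper492.WPieces

/-! Families of unit vectors with `∑ ν b ⊗ b = 1 + F`. -/

open Matrix Kronecker
open scoped ComplexOrder MatrixOrder

set_option linter.unusedSectionVars false

namespace Vale.Agent.P372.Ou

open Vale.Agent.P372.PC (IsPr kron_sw)

section chars

/-- The fourth roots of unity. -/
def u4 : Fin 4 → ℂ := ![1, Complex.I, -1, -Complex.I]

theorem u4_succ (x : Fin 4) : u4 (x + 1) = Complex.I * u4 x := by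
  fin_cases x <;> simp [u4]

theorem u4_norm (x : Fin 4) : u4 x * star (u4 x) = 1 := by
  fin_cases x <;> simp [u4]

variable {ι : Type} [Fintype ι] [DecidableEq ι]

/-- Turning the phase `m`. -/
def rot (m : ι) : (ι → Fin 4) ≃ (ι → Fin 4) :=
  Equiv.piCongrRight fun i => if i = m then Equiv.addRight 1 else Equiv.refl _

theorem u4_rot (m i : ι) (ζ : ι → Fin 4) :
    u4 (rot m ζ i) = (if i = m then Complex.I else 1) * u4 (ζ i) := by
  by_cases h : i = m
  · rw [if_pos h]
    change u4 ((if i = m then Equiv.addRight 1 else Equiv.refl _ : Fin 4 ≃ Fin 4) (ζ i)) = _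
    rw [if_pos h]
    exact u4_succ _
  · rw [if_neg h, one_mul]
    change u4 ((if i = m then Equiv.addRight 1 else Equiv.refl _ : Fin 4 ≃ Fin 4) (ζ i)) = _
    rw [if_neg h]
    rfl

theorem char_zero (i j k l m : ι)
    (h : (if i = m then Complex.I else 1) * (if j = m then Complex.I else 1) *
      star (if k = m then Complex.I else 1) * star (if l = m then Complex.I else 1) ≠ (1 : ℂ)) :
    ∑ ζ : ι → Fin 4, u4 (ζ i) * u4 (ζ j) * star (u4 (ζ k)) * star (u4 (ζ l)) = 0 := by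
  set c : ℂ := (if i = m then Complex.I else 1) * (if j = m then Complex.I else 1) *
      star (if k = m then Complex.I else 1) * star (if l = m then Complex.I else 1) with hc
  have h1 : ∑ ζ : ι → Fin 4, u4 (ζ i) * u4 (ζ j) * star (u4 (ζ k)) * star (u4 (ζ l)) =
      c * ∑ ζ : ι → Fin 4, u4 (ζ i) * u4 (ζ j) * star (u4 (ζ k)) * star (u4 (ζ l)) := by
    rw [Finset.mul_sum]
    conv_lhs => rw [← Equiv.sum_comp (rot m)]
    refine Finset.sum_congr rfl fun ζ _ => ?_
    rw [u4_rot, u4_rot, u4_rot, u4_rot, star_mul', star_mul', hc]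
    ring
  have h2 : (1 - c) * ∑ ζ : ι → Fin 4, u4 (ζ i) * u4 (ζ j) * star (u4 (ζ k)) * star (u4 (ζ l)) =
      0 := by
    rw [sub_mul, one_mul, ← h1, sub_self]
  exact (mul_eq_zero.mp h2).resolve_left (sub_ne_zero.mpr (Ne.symm h))

theorem I_ne_one : (Complex.I : ℂ) ≠ 1 := by
  intro h
  have := congrArg Complex.re h
  simp at this

theorem char_sum (i j k l : ι) :
    ∑ ζ : ι → Fin 4, u4 (ζ i) * u4 (ζ j) * star (u4 (ζ k)) * star (u4 (ζ l)) =
      if (i = k ∧ j = l) ∨ (i = l ∧ j = k) then (4 : ℂ) ^ Fintype.card ι else 0 := by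
  split_ifs with h
  · have h1 : ∀ ζ : ι → Fin 4, u4 (ζ i) * u4 (ζ j) * star (u4 (ζ k)) * star (u4 (ζ l)) = 1 := by
      intro ζ
      rcases h with ⟨h1, h2⟩ | ⟨h1, h2⟩
      · subst h1 h2
        calc _ = (u4 (ζ i) * star (u4 (ζ i))) * (u4 (ζ j) * star (u4 (ζ j))) := by ring
          _ = 1 := by rw [u4_norm, u4_norm, one_mul]
      · subst h1 h2
        calc _ = (u4 (ζ i) * star (u4 (ζ i))) * (u4 (ζ j) * star (u4 (ζ j))) := by ring
          _ = 1 := by rw [u4_norm, u4_norm, one_mul]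
    simp only [h1, Finset.sum_const, Finset.card_univ, nsmul_eq_mul, mul_one]
    rw [Fintype.card_fun, Fintype.card_fin]
    push_cast
    rfl
  · by_cases hik : i = k
    · subst hik
      have hjl : l ≠ j := fun h' => h (Or.inl ⟨rfl, h'.symm⟩)
      refine char_zero i j i l j ?_
      rw [if_neg hjl]
      by_cases hij : i = j
      · simp [hij, I_ne_one]
      · simp [hij, I_ne_one]
    · by_cases hil : i = l
      · subst hil
        have hjk : k ≠ j := fun h' => h (Or.inr ⟨rfl, h'.symm⟩)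
        refine char_zero i j k i j ?_
        rw [if_neg hjk]
        by_cases hij : i = j
        · simp [hij, I_ne_one]
        · simp [hij, I_ne_one]
      · refine char_zero i j k l i ?_
        rw [if_neg (Ne.symm hik), if_neg (Ne.symm hil)]
        by_cases hij : j = i
        · simp only [if_true, hij, star_one, mul_one, Complex.I_mul_I]
          norm_num
        · simp [hij, I_ne_one]

end chars

/-- The projection on a unit vector. -/
def pj {E : Type} (v : E → ℂ) : Matrix E E ℂ := vecMulVec v (star v)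

theorem pj_apply {E : Type} (v : E → ℂ) (i j : E) : pj v i j = v i * star (v j) := rfl

theorem pj_psd {E : Type} [Finite E] (v : E → ℂ) : (pj v).PosSemidef :=
  posSemidef_vecMulVec_self_star v

theorem pj_herm {E : Type} (v : E → ℂ) : (pj v)ᴴ = pj v := by
  ext i j
  rw [conjTranspose_apply, pj_apply, pj_apply, star_mul', star_star, mul_comm]

variable {d : ℕ}

theorem pj_mulVec (U : Matrix (Fin d) (Fin d) ℂ) (v : Fin d → ℂ) :
    pj (U *ᵥ v) = U * pj v * Uᴴ := by
  rw [pj, pj, mul_vecMulVec, vecMulVec_mul, star_mulVec]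

/-- A family of unit vectors `b l` with weights `ν l` such that `∑ ν b ⊗ b = 1 + F`. -/
structure IsDes {L : Type} [Fintype L] (ν : L → ℝ) (b : L → Fin d → ℂ) : Prop where
  nn : ∀ l, 0 ≤ ν l
  unit : ∀ l, star (b l) ⬝ᵥ b l = 1
  two : ∑ l, (ν l : ℂ) • (pj (b l) ⊗ₖ pj (b l)) = 1 + Near.flip d

variable {L : Type} [Fintype L] {ν : L → ℝ} {b : L → Fin d → ℂ}

theorem IsDes.rotate (h : IsDes ν b) {U : Matrix (Fin d) (Fin d) ℂ} (h1 : Uᴴ * U = 1)
    (h2 : U * Uᴴ = 1) : IsDes ν (fun l => U *ᵥ b l) := by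
  refine ⟨h.nn, fun l => ?_, ?_⟩
  · rw [star_mulVec, dotProduct_mulVec, vecMul_vecMul, h1, vecMul_one, h.unit]
  · have e : ∀ l, (ν l : ℂ) • (pj (U *ᵥ b l) ⊗ₖ pj (U *ᵥ b l)) =
        (U ⊗ₖ U) * ((ν l : ℂ) • (pj (b l) ⊗ₖ pj (b l))) * (Uᴴ ⊗ₖ Uᴴ) := by
      intro l
      rw [pj_mulVec, Matrix.mul_smul, Matrix.smul_mul, mul_kronecker_mul, mul_kronecker_mul]
    simp only [e]
    rw [← Finset.sum_mul, ← Finset.mul_sum, h.two, Matrix.mul_add, Matrix.mul_one, Matrix.add_mul,
      ← mul_kronecker_mul, h2, one_kronecker_one, kron_sw, Matrix.mul_assoc, ← mul_kronecker_mul,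
      h2, one_kronecker_one, Matrix.mul_one]

/-- `tr₁ (P ⊗ 1) Z`. -/
def pt1 (P : Matrix (Fin d) (Fin d) ℂ) (Z : Matrix (Fin d × Fin d) (Fin d × Fin d) ℂ) :
    Matrix (Fin d) (Fin d) ℂ := fun i j => ∑ a, ∑ a', P a a' * Z (a', i) (a, j)

theorem pt1_sum (P : Matrix (Fin d) (Fin d) ℂ)
    (Z : L → Matrix (Fin d × Fin d) (Fin d × Fin d) ℂ) : pt1 P (∑ l, Z l) = ∑ l, pt1 P (Z l) := by
  ext i j
  rw [Matrix.sum_apply]
  simp only [pt1, Matrix.sum_apply, Finset.mul_sum]
  calc ∑ a, ∑ a', ∑ l, P a a' * Z l (a', i) (a, j) = ∑ a, ∑ l, ∑ a', P a a' * Z l (a', i) (a, j) :=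
        Finset.sum_congr rfl fun a _ => Finset.sum_comm
    _ = _ := Finset.sum_comm

theorem pt1_smul_kron (P : Matrix (Fin d) (Fin d) ℂ) (c : ℂ) (X Y : Matrix (Fin d) (Fin d) ℂ) :
    pt1 P (c • (X ⊗ₖ Y)) = (c * (P * X).trace) • Y := by
  ext i j
  simp only [pt1, Matrix.smul_apply, smul_eq_mul, kroneckerMap_apply, Matrix.trace, Matrix.diag,
    Matrix.mul_apply, Finset.mul_sum, Finset.sum_mul]
  exact Finset.sum_congr rfl fun a _ => Finset.sum_congr rfl fun a' _ => by ring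

theorem pt1_one_add_flip (P : Matrix (Fin d) (Fin d) ℂ) :
    pt1 P (1 + Near.flip d) = P.trace • 1 + P := by
  ext i j
  simp only [pt1, Matrix.add_apply, mul_add, Finset.sum_add_distrib, Matrix.smul_apply,
    smul_eq_mul, Matrix.trace, Matrix.diag]
  congr 1
  · rw [Finset.sum_mul]
    refine Finset.sum_congr rfl fun a _ => ?_
    rw [Finset.sum_eq_single a]
    · congr 1
      rw [one_apply, one_apply]
      simp only [Prod.mk.injEq, true_and]
    · intro a' _ ha
      rw [one_apply_ne (fun e => ha (congrArg Prod.fst e)), mul_zero]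
    · simp
  · rw [Finset.sum_eq_single i, Finset.sum_eq_single j]
    · simp [Near.flip]
    · intro a' _ ha
      simp [Near.flip, ha]
    · simp
    · intro a _ ha
      refine Finset.sum_eq_zero fun a' _ => ?_
      simp [Near.flip, Ne.symm ha]
    · simp

theorem IsDes.pt (h : IsDes ν b) (P : Matrix (Fin d) (Fin d) ℂ) :
    ∑ l, ((ν l : ℂ) * (P * pj (b l)).trace) • pj (b l) = P.trace • 1 + P := by
  rw [← pt1_one_add_flip, ← h.two, pt1_sum]
  exact Finset.sum_congr rfl fun l _ => (pt1_smul_kron _ _ _ _).symm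

theorem pj_trace {E : Type} [Fintype E] (v : E → ℂ) : (pj v).trace = star v ⬝ᵥ v := by
  simp only [Matrix.trace, Matrix.diag, pj_apply, dotProduct, Pi.star_apply]
  exact Finset.sum_congr rfl fun i _ => mul_comm _ _

theorem IsDes.one (h : IsDes ν b) : ∑ l, (ν l : ℂ) • pj (b l) = ((d : ℂ) + 1) • 1 := by
  have h1 := h.pt 1
  rw [trace_one, Fintype.card_fin] at h1
  rw [add_smul, one_smul, ← h1]
  refine Finset.sum_congr rfl fun l _ => ?_
  rw [one_mul, pj_trace, h.unit, mul_one]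

/-- The vectors of the basis and the vectors of phases. -/
noncomputable def dv (d : ℕ) : Fin d ⊕ (Fin d → Fin 4) → Fin d → ℂ
  | .inl i => Pi.single i 1
  | .inr z => fun i => ((√(d : ℝ))⁻¹ : ℝ) * u4 (z i)

/-- The weights. -/
noncomputable def dw (d : ℕ) : Fin d ⊕ (Fin d → Fin 4) → ℝ
  | .inl _ => 1
  | .inr _ => d ^ 2 / 4 ^ d

theorem isDes (hd : 0 < d) : IsDes (dw d) (dv d) := by
  have hdr : (0 : ℝ) < d := by exact_mod_cast hd
  have hdc : (d : ℂ) ≠ 0 := by exact_mod_cast hd.ne'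
  have hs : (((√(d : ℝ))⁻¹ : ℝ) : ℂ) * (((√(d : ℝ))⁻¹ : ℝ) : ℂ) = (d : ℂ)⁻¹ := by
    rw [← Complex.ofReal_mul, ← mul_inv, Real.mul_self_sqrt hdr.le]
    push_cast
    rfl
  have hss : star (((√(d : ℝ))⁻¹ : ℝ) : ℂ) = (((√(d : ℝ))⁻¹ : ℝ) : ℂ) := Complex.conj_ofReal _
  refine ⟨?_, ?_, ?_⟩
  · rintro (i | z)
    · exact zero_le_one
    · change (0 : ℝ) ≤ d ^ 2 / 4 ^ d
      positivity
  · rintro (i | z)
    · simp [dv]
    · simp only [dotProduct, dv, Pi.star_apply, star_mul', hss]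
      have e : ∀ i : Fin d, (((√(d : ℝ))⁻¹ : ℝ) : ℂ) * star (u4 (z i)) *
          ((((√(d : ℝ))⁻¹ : ℝ) : ℂ) * u4 (z i)) = (d : ℂ)⁻¹ := by
        intro i
        calc _ = (((√(d : ℝ))⁻¹ : ℝ) : ℂ) * (((√(d : ℝ))⁻¹ : ℝ) : ℂ) *
              (u4 (z i) * star (u4 (z i))) := by ring
          _ = _ := by rw [u4_norm, hs, mul_one]
      simp only [e, Finset.sum_const, Finset.card_univ, Fintype.card_fin, nsmul_eq_mul]
      exact mul_inv_cancel₀ hdc
  · ext ⟨i, j⟩ ⟨k, l⟩
    rw [Matrix.sum_apply, Fintype.sum_sum_type]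
    have e1 : ∀ m : Fin d, ((dw d (.inl m) : ℂ) • (pj (dv d (.inl m)) ⊗ₖ pj (dv d (.inl m))))
        (i, j) (k, l) = if m = i ∧ m = j ∧ m = k ∧ m = l then 1 else 0 := by
      intro m
      simp only [dw, Complex.ofReal_one, one_smul, kroneckerMap_apply, pj_apply, dv,
        Pi.single_apply]
      by_cases h1 : i = m
      · by_cases h2 : j = m
        · by_cases h3 : k = m
          · by_cases h4 : l = m
            · simp [h1, h2, h3, h4]
            · simp [h1, h2, h3, h4, Ne.symm h4]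
          · simp [h3, Ne.symm h3]
        · simp [h2, Ne.symm h2]
      · simp [h1, Ne.symm h1]
    have e2 : ∀ z : Fin d → Fin 4, ((dw d (.inr z) : ℂ) • (pj (dv d (.inr z)) ⊗ₖ
        pj (dv d (.inr z)))) (i, j) (k, l) =
        ((4 : ℂ) ^ d)⁻¹ * (u4 (z i) * u4 (z j) * star (u4 (z k)) * star (u4 (z l))) := by
      intro z
      simp only [dw, Matrix.smul_apply, kroneckerMap_apply, pj_apply, dv, star_mul', hss,
        smul_eq_mul]
      push_cast
      push_cast at hs
      have h4 : ((4 : ℂ) ^ d) ≠ 0 := pow_ne_zero _ (by norm_num)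
      calc _ = (d : ℂ) ^ 2 / 4 ^ d * (((√(d : ℝ)) : ℂ)⁻¹ * ((√(d : ℝ)) : ℂ)⁻¹) *
            (((√(d : ℝ)) : ℂ)⁻¹ * ((√(d : ℝ)) : ℂ)⁻¹) *
            (u4 (z i) * u4 (z j) * star (u4 (z k)) * star (u4 (z l))) := by ring
        _ = _ := by
          rw [hs]
          field_simp
    simp only [e1, e2]
    rw [← Finset.mul_sum, char_sum, Fintype.card_fin]
    have h4 : ((4 : ℂ) ^ d) ≠ 0 := pow_ne_zero _ (by norm_num)
    have e3 : ∑ m : Fin d, (if m = i ∧ m = j ∧ m = k ∧ m = l then (1 : ℂ) else 0) =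
        if i = j ∧ i = k ∧ i = l then 1 else 0 := by
      rw [Finset.sum_eq_single i]
      · simp
      · intro m _ hm
        rw [if_neg fun h => hm h.1]
      · simp
    rw [e3, Matrix.add_apply, one_apply, Near.flip]
    simp only [Prod.mk.injEq]
    by_cases h1 : i = k ∧ j = l
    · obtain ⟨rfl, rfl⟩ := h1
      by_cases h2 : i = j
      · subst h2
        simp [h4]
      · simp [h2, h4]
    · by_cases h2 : i = l ∧ j = k
      · obtain ⟨rfl, rfl⟩ := h2
        have h3 : ¬ (i = j) := fun h => h1 ⟨h, h.symm⟩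
        simp [h3, h4]
      · rw [if_neg h1, if_neg h2, if_neg (not_or.mpr ⟨h1, h2⟩)]
        rw [if_neg]
        · simp
        · rintro ⟨h3, h5, h6⟩
          exact h1 ⟨h5, by rw [← h3, h6]⟩

end Vale.Agent.P372.Ou
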