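import Vale.Agent.P372.R2.helper492.Ou.Un5

/-! Key distillation is possible if and only if it is possible with some noise. -/

open Matrix Kronecker Filter Topology
open scoped ComplexOrder MatrixOrder

set_option linter.unusedSectionVars false

namespace Vale.Agent.P372.Ou

section gen

variable {A B E : Type} [Fintype A] [DecidableEq A] [Fintype B] [DecidableEq B] [Fintype E]
  [DecidableEq E]

/-- A protocol with small error. -/
theorem exists_protocol {Ψ : Matrix (A × B) E ℂ} (h : 0 < distillableKey Ψ) {δ : ℝ}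
    (hδ : 0 < δ) : ∃ (n ℓ : ℕ) (_ : 0 < ℓ) (T : Type) (_ : Fintype T)
      (f : T → (Fin ℓ → Bool) → Matrix (Fin n → A) (Fin n → A) ℂ)
      (g : T → (Fin ℓ → Bool) → Matrix (Fin n → B) (Fin n → B) ℂ) (ε : ℝ), ε < δ ∧
      LOCC (Fin ℓ → Bool) (Fin n → A) (Fin n → B) T f g ∧ KeyError f g (copies n Ψ) ε := by
  rw [distillableKey] at h
  obtain ⟨r, ⟨ℓ, ε, hp, hε, hr⟩, hr0⟩ := lt_sSup_iff.mp h
  rw [hr] at hr0
  have h1 := Filter.eventually_lt_of_lt_liminf hr0
  have h2 := hε.eventually_lt_const hδ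
  obtain ⟨n, hn1, hn2⟩ := (h1.and h2).exists
  have hn : 0 < ℓ n := by
    rcases Nat.eq_zero_or_pos (ℓ n) with h0 | h0
    · rw [h0] at hn1
      simp at hn1
    · exact h0
  obtain ⟨T, iT, f, g, hL, hK⟩ := hp n
  exact ⟨n, ℓ n, hn, T, iT, f, g, ε n, hn2, hL, hK⟩

theorem locc_pre {K T : Type} [Fintype K] {f : T → K → Matrix A A ℂ} {g : T → K → Matrix B B ℂ}
    {A' : Type} [DecidableEq A'] (hL : LOCC K A B T f g) {R : Type} [Fintype R]
    (V : R → Matrix A A' ℂ) (hV : ∑ r, (V r)ᴴ * V r = 1) :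
    LOCC K A' B (Σ _ : Unit, T) (fun t k => ∑ r, (V r)ᴴ * f t.2 k * V r)
      (fun t k => g t.2 k) :=
  LOCC.alice A Unit R (fun _ => V) (by simpa using hV) (fun _ => T) (fun _ => f) (fun _ => g)
    (fun _ => hL)

theorem locc_preB {K T : Type} [Fintype K] {f : T → K → Matrix A A ℂ} {g : T → K → Matrix B B ℂ}
    {B' : Type} [DecidableEq B'] (hL : LOCC K A B T f g) {R : Type} [Fintype R]
    (V : R → Matrix B B' ℂ) (hV : ∑ r, (V r)ᴴ * V r = 1) :
    LOCC K A B' (Σ _ : Unit, T) (fun t k => f t.2 k)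
      (fun t k => ∑ r, (V r)ᴴ * g t.2 k * V r) :=
  LOCC.bob B Unit R (fun _ => V) (by simpa using hV) (fun _ => T) (fun _ => f) (fun _ => g)
    (fun _ => hL)

/-- The error of a protocol is at least that of the test. -/
theorem keyTest_of_error {ρ : Matrix (A × B) (A × B) ℂ} {Ψ : Matrix (A × B) E ℂ}
    (hΨ : Ψ * Ψᴴ = ρ) {n ℓ : ℕ} (hℓ : 0 < ℓ) {T : Type} [Fintype T]
    {f : T → (Fin ℓ → Bool) → Matrix (Fin n → A) (Fin n → A) ℂ}
    {g : T → (Fin ℓ → Bool) → Matrix (Fin n → B) (Fin n → B) ℂ}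
    (hL : LOCC (Fin ℓ → Bool) (Fin n → A) (Fin n → B) T f g)
    (h : KeyError f g (copies n Ψ) (1 / 64)) : KeyTest (tpow n ρ) Set.univ := by
  obtain ⟨hf, hg⟩ := PC.locc_psd hL
  obtain ⟨τ, X, Y, -, -, hlt⟩ := PC.test_of_keyError (copies n Ψ) ⟨0, hℓ⟩ f g hf hg h
  rw [PC.copies_mul, hΨ] at hlt
  exact ⟨X false, Set.mem_univ _, X true, Set.mem_univ _, Y false, Y true, hlt⟩

theorem keyPos_of_test {ρ : Matrix (A × B) (A × B) ℂ} (h1 : ρ.trace = 1) {n : ℕ}
    (h : KeyTest (tpow n ρ) Set.univ) : KeyPos ρ := by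
  intro E' _ _ Ψ hΨ
  subst hΨ
  exact (keyPos_iff A B E' Ψ h1).mpr ⟨n, h⟩

theorem exists_pur {ρ : Matrix (A × B) (A × B) ℂ} (h : ρ.PosSemidef) :
    ∃ Ψ : Matrix (A × B) (A × B) ℂ, Ψ * Ψᴴ = ρ := by
  obtain ⟨X, hX⟩ := CStarAlgebra.nonneg_iff_eq_star_mul_self.mp h.nonneg
  refine ⟨Xᴴ, ?_⟩
  rw [conjTranspose_conjTranspose]
  exact hX.symm

end gen

section noise

variable {A : Type} [Fintype A] [DecidableEq A]

/-- The dephasing operators. -/
noncomputable def dph (A : Type) [Fintype A] [DecidableEq A] (j : Fin (Fintype.card A)) :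
    Matrix A A ℂ := pj (Pi.single ((Fintype.equivFin A).symm j) 1)

theorem dph_sum : ∑ j, dph A j = 1 := by
  have h : ∑ j, dph A j = ∑ a : A, pj (Pi.single a 1) :=
    (Fintype.equivFin A).symm.sum_comp fun a : A => pj (Pi.single a 1)
  rw [h]
  ext x y
  rw [Matrix.sum_apply, one_apply, Finset.sum_eq_single x]
  · rw [pj_apply, Pi.single_eq_same, one_mul, Pi.single_apply]
    by_cases hxy : x = y
    · rw [if_pos hxy, if_pos hxy.symm, star_one]
    · rw [if_neg hxy, if_neg (Ne.symm hxy), star_zero]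
  · intro a _ ha
    rw [pj_apply, Pi.single_apply, if_neg (Ne.symm ha), zero_mul]
  · simp

theorem dph_herm (j) : (dph A j)ᴴ = dph A j := pj_herm _

theorem dph_sq (j) : dph A j * dph A j = dph A j := by
  rw [dph, pj_pj', nq_single, Complex.ofReal_one, one_smul]

theorem dph_rank (j) : (dph A j).rank ≤ 1 := by
  have := rank_smul_pj 1 (Pi.single ((Fintype.equivFin A).symm j) 1 : A → ℂ)
  rwa [one_smul] at this

theorem dph_left : ∑ j, (dph A j)ᴴ * dph A j = 1 := by
  rw [← dph_sum (A := A)]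
  exact Finset.sum_congr rfl fun j _ => by rw [dph_herm, dph_sq]

theorem dph_right : ∑ j, dph A j * (dph A j)ᴴ = 1 := by
  rw [← dph_sum (A := A)]
  exact Finset.sum_congr rfl fun j _ => by rw [dph_herm, dph_sq]

/-- Without noise nothing happens. -/
theorem noise_zero_sum {n : ℕ} {J : Type} [Fintype J] (K : Fin n → J → Matrix A A ℂ)
    (Z : Matrix (Fin n → A) (Fin n → A) ℂ) :
    ∑ w : Fin n → Option J, (tens fun i => noise 0 (K i) (w i))ᴴ * Z *
      (tens fun i => noise 0 (K i) (w i)) = Z := by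
  classical
  rw [Finset.sum_eq_single (fun _ => none)]
  · have e : (tens fun i => noise 0 (K i) none) = (1 : Matrix (Fin n → A) (Fin n → A) ℂ) := by
      simp only [noise_zero_none]
      exact piT_one
    rw [e, conjTranspose_one, one_mul, mul_one]
  · intro w _ hw
    obtain ⟨i, hi⟩ := Function.ne_iff.mp hw
    obtain ⟨j, hj⟩ := Option.ne_none_iff_exists'.mp hi
    have e : (tens fun i => noise 0 (K i) (w i)) = (0 : Matrix (Fin n → A) (Fin n → A) ℂ) := by
      ext a b
      rw [tens, Matrix.zero_apply]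
      refine Finset.prod_eq_zero (Finset.mem_univ i) ?_
      rw [hj, noise_zero_some, Matrix.zero_apply]
    rw [e, mul_zero]
  · simp

theorem noise_complete {n : ℕ} {J : Type} [Fintype J] {K : J → Matrix A A ℂ} {η : ℝ}
    (hη0 : 0 ≤ η) (hη1 : η ≤ 1) (hK : ∑ j, (K j)ᴴ * K j = 1) :
    ∑ w : Fin n → Option J, (tens fun i => noise η K (w i))ᴴ *
      (tens fun i => noise η K (w i)) = 1 := by
  have h1 : 0 ≤ 1 - η := by linarith
  have e1 : ∑ v : Option J, (noise η K v)ᴴ * noise η K v = 1 := by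
    rw [Fintype.sum_option]
    have e2 : (noise η K none)ᴴ * noise η K none = ((1 - η : ℝ) : ℂ) • (1 : Matrix A A ℂ) := by
      rw [noise, Option.elim_none, conjTranspose_smul, conjTranspose_one, Matrix.smul_mul, one_mul,
        smul_smul, RCLike.star_def, Complex.conj_ofReal, ← Complex.ofReal_mul,
        Real.mul_self_sqrt h1]
    have e3 : ∀ j, (noise η K (some j))ᴴ * noise η K (some j) = (η : ℂ) • ((K j)ᴴ * K j) := by
      intro j
      rw [noise, Option.elim_some, conjTranspose_smul, Matrix.smul_mul, Matrix.mul_smul,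
        smul_smul, RCLike.star_def, Complex.conj_ofReal, ← Complex.ofReal_mul,
        Real.mul_self_sqrt hη0]
    simp only [e2, e3]
    rw [← Finset.smul_sum, hK, ← add_smul, ← Complex.ofReal_add, sub_add_cancel,
      Complex.ofReal_one, one_smul]
  have e4 : ∀ w : Fin n → Option J, (tens fun i => noise η K (w i))ᴴ *
      (tens fun i => noise η K (w i)) = piT fun i => (noise η K (w i))ᴴ * noise η K (w i) := by
    intro w
    change (piT fun i => noise η K (w i))ᴴ * (piT fun i => noise η K (w i)) = _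
    rw [piT_conjTranspose, piT_mul]
  simp only [e4]
  rw [← piT_sum (fun (_ : Fin n) v => (noise η K v)ᴴ * noise η K v)]
  simp only [e1]
  exact piT_one

theorem continuous_noise {J : Type} (K : J → Matrix A A ℂ) (v : Option J) :
    Continuous fun η : ℝ => noise η K v := by
  cases v with
  | none =>
    simp only [noise, Option.elim_none]
    exact (Complex.continuous_ofReal.comp (Real.continuous_sqrt.comp
      (continuous_const.sub continuous_id))).smul continuous_const
  | some j =>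
    simp only [noise, Option.elim_some]
    exact (Complex.continuous_ofReal.comp Real.continuous_sqrt).smul continuous_const

theorem continuous_noisy {n : ℕ} {J : Type} [Fintype J] (K : J → Matrix A A ℂ)
    (Z : Matrix (Fin n → A) (Fin n → A) ℂ) :
    Continuous fun η : ℝ => ∑ w : Fin n → Option J, (tens fun i => noise η K (w i))ᴴ * Z *
      (tens fun i => noise η K (w i)) := by
  have h1 : ∀ w : Fin n → Option J, Continuous fun η : ℝ => (tens fun i => noise η K (w i)) := by
    intro w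
    refine continuous_matrix fun a b => ?_
    simp only [tens]
    exact continuous_finsetProd _ fun i _ => (continuous_noise K (w i)).matrix_elem _ _
  exact continuous_finsetSum _ fun w _ =>
    ((h1 w).matrix_conjTranspose.matrix_mul continuous_const).matrix_mul (h1 w)

end noise

section iff

variable {A B : Type} [Fintype A] [DecidableEq A] [Fintype B] [DecidableEq B]

theorem continuous_eve {E : Type} [Fintype E] (Ψ : Matrix (A × B) E ℂ) (N : Matrix B B ℂ)
    {M : ℝ → Matrix A A ℂ} (hM : Continuous M) : Continuous fun η => eve Ψ (M η) N := by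
  refine continuous_matrix fun e e' => ?_
  simp only [eve]
  exact continuous_finsetSum _ fun p _ => continuous_finsetSum _ fun q _ =>
    ((hM.matrix_elem _ _).mul continuous_const).mul continuous_const

/-- Key distillation is possible if and only if it is possible with some noise. -/
theorem noise_iff {ρ : Matrix (A × B) (A × B) ℂ} (hρ : ρ.PosSemidef) (h1 : ρ.trace = 1) {m : ℕ}
    (hm : 1 ≤ m) {t : ℝ} (ht1 : t ≤ 1) :
    ¬ KeyPos ρ ↔ ∀ η : ℝ, 0 < η → η ≤ 1 → NoKeyAfter ρ m η t := by
  constructor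
  · intro h η _ _ E _ _ Ψ hΨ n ℓ hℓ T _ f g hL _ herr
    exact h (keyPos_of_test h1 (keyTest_of_error hΨ hℓ hL herr))
  · intro h hpos
    obtain ⟨Ψ, hΨ⟩ := exists_pur hρ
    obtain ⟨n, ℓ, hℓ, T, iT, f, g, ε, hε, hL, σ, hσ, hσ1, hsum⟩ :=
      exists_protocol (hpos _ Ψ hΨ) (δ := 1 / 64) (by norm_num)
    obtain ⟨F, hF⟩ : ∃ F : ℝ → T → (Fin ℓ → Bool) → Matrix (Fin n → A) (Fin n → A) ℂ,
        F = fun η t k => ∑ w : Fin n → Option (Fin (Fintype.card A)),
          (tens fun i => noise η (dph A) (w i))ᴴ * f t k * (tens fun i => noise η (dph A) (w i)) :=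
      ⟨_, rfl⟩
    have hcont : Continuous fun η : ℝ => ∑ t, ∑ k, ∑ l, traceNorm (eve (copies n Ψ) (F η t k)
        (g t l) - if k = l then ((Fintype.card (Fin ℓ → Bool) : ℂ)⁻¹) • σ t else 0) := by
      refine continuous_finsetSum _ fun t _ => continuous_finsetSum _ fun k _ =>
        continuous_finsetSum _ fun l _ => continuous_traceNorm.comp ?_
      refine (continuous_eve _ _ ?_).sub continuous_const
      rw [hF]
      exact continuous_noisy _ _
    have h0 : F 0 = f := by
      rw [hF]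
      funext t k
      exact noise_zero_sum (fun _ => dph A) (f t k)
    have hlt : ∀ᶠ η in 𝓝 (0 : ℝ), ∑ t, ∑ k, ∑ l, traceNorm (eve (copies n Ψ) (F η t k)
        (g t l) - if k = l then ((Fintype.card (Fin ℓ → Bool) : ℂ)⁻¹) • σ t else 0) < 1 / 64 := by
      refine hcont.continuousAt.eventually_lt_const ?_
      beta_reduce
      rw [h0]
      exact lt_of_le_of_lt hsum hε
    obtain ⟨δ, hδ, hball⟩ := Metric.eventually_nhds_iff.mp hlt
    obtain ⟨η, hηd⟩ : ∃ η, η = min (δ / 2) 1 := ⟨_, rfl⟩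
    have hη0 : 0 < η := by rw [hηd]; exact lt_min (by linarith) one_pos
    have hη1 : η ≤ 1 := by rw [hηd]; exact min_le_right _ _
    have hηδ : dist η 0 < δ := by
      rw [dist_zero_right, Real.norm_of_nonneg hη0.le, hηd]
      exact lt_of_le_of_lt (min_le_left _ _) (by linarith)
    have hF1 := hball hηδ
    obtain ⟨hfp, hgp⟩ := PC.locc_psd hL
    refine h η hη0 hη1 (A × B) Ψ hΨ n ℓ hℓ (Σ _ : Unit, T) (fun t k => F η t.2 k)
      (fun t k => g t.2 k) ?_ (fun τ => ⟨Finset.univ, ?_, ?_⟩) ?_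
    · rw [hF]
      exact locc_pre hL (fun w : Fin n → Option (Fin (Fintype.card A)) =>
        (tens fun i => noise η (dph A) (w i))) (noise_complete hη0.le hη1 dph_left)
    · refine ⟨Fintype.card A, fun _ => dph A, fun i _ => ⟨fun j => (dph_rank j).trans hm,
        dph_left, ?_⟩, fun k => ⟨f τ.2 k, hfp _ _, ?_⟩⟩
      · rw [dph_right]
        have e : (1 : Matrix A A ℂ) - (t : ℂ) • 1 = ((1 - t : ℝ) : ℂ) • 1 := by
          rw [Complex.ofReal_sub, sub_smul, Complex.ofReal_one, one_smul]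
        rw [e]
        exact PosSemidef.one.smul (Complex.zero_le_real.mpr (by linarith))
      · rw [hF]
        simp only [Finset.mem_univ, if_true]
    · refine ⟨0, fun _ j => j.elim0, fun i hi => ?_, fun k => ⟨g τ.2 k, hgp _ _, ?_⟩⟩
      · rw [Finset.compl_univ] at hi
        exact absurd hi (Finset.notMem_empty i)
      · simp only [Finset.compl_univ, Finset.notMem_empty, if_false]
        exact (noise_zero_sum (fun _ (j : Fin 0) => j.elim0) (g τ.2 k)).symm
    · refine ⟨fun τ => σ τ.2, fun τ => hσ _, ?_, ?_⟩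
      · rw [Fintype.sum_sigma]
        simpa using hσ1
      · rw [Fintype.sum_sigma]
        simpa using hF1.le

end iff

end Vale.Agent.P372.Ou
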