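import Vale.Agent.P372.R2.helper492.Ou.Eq1

/-! Key distillation is possible if and only if it is possible with some menu. -/

open Matrix Kronecker Filter Topology
open scoped ComplexOrder MatrixOrder

set_option linter.unusedSectionVars false

namespace Vale.Agent.P372.Ou

section re

variable {A B A' B' : Type} [Fintype A] [DecidableEq A] [Fintype B] [DecidableEq B]
  [Fintype A'] [DecidableEq A'] [Fintype B'] [DecidableEq B']

theorem tn_subm (e : A' ≃ A) (N : Matrix A A ℂ) : traceNorm (N.submatrix e e) = traceNorm N := by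
  refine le_antisymm (Half.traceNorm_submatrix_le e N) ?_
  have h := Half.traceNorm_submatrix_le e.symm (N.submatrix e e)
  rwa [submatrix_submatrix, Equiv.self_comp_symm, submatrix_id_id] at h

theorem trace_subm (e : A' ≃ A) (N : Matrix A A ℂ) : (N.submatrix e e).trace = N.trace := by
  simp only [Matrix.trace, Matrix.diag, submatrix_apply]
  exact e.sum_comp fun x => N x x

theorem kr_subm (e : A' ≃ A) (f : B' ≃ B) (X : Matrix A A ℂ) (Y : Matrix B B ℂ) :
    X.submatrix e e ⊗ₖ Y.submatrix f f =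
      (X ⊗ₖ Y).submatrix (e.prodCongr f) (e.prodCongr f) := by
  ext x y
  rfl

theorem mul_subm (e : A' ≃ A) (X Y : Matrix A A ℂ) :
    X.submatrix e e * Y.submatrix e e = (X * Y).submatrix e e := submatrix_mul_equiv X Y e e e

theorem keyTest_reindex {ρ : Matrix (A × B) (A × B) ℂ} (e : A' ≃ A) (f : B' ≃ B)
    (h : KeyTest ρ Set.univ) :
    KeyTest (ρ.submatrix (e.prodCongr f) (e.prodCongr f)) Set.univ := by
  obtain ⟨X₀, -, X₁, -, Y₀, Y₁, h⟩ := h
  have hp : ∀ (X X' : Matrix A A ℂ) (Y Y' : Matrix B B ℂ),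
      (X.submatrix e e ⊗ₖ Y.submatrix f f) * ρ.submatrix (e.prodCongr f) (e.prodCongr f) *
        (X'.submatrix e e ⊗ₖ Y'.submatrix f f)ᴴ =
      ((X ⊗ₖ Y) * ρ * (X' ⊗ₖ Y')ᴴ).submatrix (e.prodCongr f) (e.prodCongr f) := by
    intro X X' Y Y'
    rw [kr_subm, kr_subm, conjTranspose_submatrix, mul_subm, mul_subm]
  have hw : ∀ (X : Matrix A A ℂ) (Y : Matrix B B ℂ),
      weight (ρ.submatrix (e.prodCongr f) (e.prodCongr f)) (X.submatrix e e)
        (Y.submatrix f f) = weight ρ X Y := by
    intro X Y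
    rw [weight, weight, hp, trace_subm]
  refine ⟨X₀.submatrix e e, Set.mem_univ _, X₁.submatrix e e, Set.mem_univ _,
    Y₀.submatrix f f, Y₁.submatrix f f, ?_⟩
  rw [hw, hw, hw, hw, hp, tn_subm]
  exact h

/-- Blocks of copies are copies. -/
def blk (A : Type) (n N : ℕ) : (Fin (n * N) → A) ≃ (Fin n → Fin N → A) where
  toFun x i j := x (finProdFinEquiv (i, j))
  invFun y k := y (finProdFinEquiv.symm k).1 (finProdFinEquiv.symm k).2
  left_inv x := by
    funext k
    exact congrArg x (finProdFinEquiv.apply_symm_apply k)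
  right_inv y := by
    funext i j
    have h := finProdFinEquiv.symm_apply_apply (i, j)
    exact congrArg₂ y (congrArg Prod.fst h) (congrArg Prod.snd h)

theorem keyTest_block {ρ : Matrix (A × B) (A × B) ℂ} {n N : ℕ}
    (h : KeyTest (tpow n (tpow N ρ)) Set.univ) : KeyTest (tpow (n * N) ρ) Set.univ := by
  have h1 := keyTest_reindex (blk A n N) (blk B n N) h
  have e : (tpow n (tpow N ρ)).submatrix ((blk A n N).prodCongr (blk B n N))
      ((blk A n N).prodCongr (blk B n N)) = tpow (n * N) ρ := by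
    ext x y
    rw [submatrix_apply]
    simp only [tpow]
    rw [← finProdFinEquiv.prod_comp, Fintype.prod_prod_type]
    rfl
  rwa [e] at h1

end re

section one

variable {A B E : Type} [Fintype A] [DecidableEq A] [Fintype B] [DecidableEq B] [Fintype E]
  [DecidableEq E]

/-- The identification of one system with the one-system block. -/
def ev (A : Type) [DecidableEq A] : Matrix A (Fin 1 → A) ℂ := fun a x => if a = x 0 then 1 else 0

theorem tens_one_apply (M : Matrix A A ℂ) (x y : Fin 1 → A) :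
    tens (fun _ : Fin 1 => M) x y = M (x 0) (y 0) := by
  rw [tens, Fin.prod_univ_one]

theorem ev_conj (M : Matrix A A ℂ) : (ev A)ᴴ * M * ev A = tens fun _ : Fin 1 => M := by
  ext x y
  rw [tens_one_apply, Matrix.mul_apply, Finset.sum_eq_single (y 0)]
  · rw [Matrix.mul_apply, Finset.sum_eq_single (x 0)]
    · simp [ev]
    · intro a _ ha
      simp [ev, ha]
    · simp
  · intro a _ ha
    simp [ev, ha]
  · simp

theorem tens_one_one : tens (fun _ : Fin 1 => (1 : Matrix A A ℂ)) = 1 := piT_one

theorem ev_left : (ev A)ᴴ * ev A = 1 := by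
  have h := ev_conj (1 : Matrix A A ℂ)
  rwa [Matrix.mul_one, tens_one_one] at h

theorem tens_one_mul (M N : Matrix A A ℂ) :
    tens (fun _ : Fin 1 => M) * tens (fun _ : Fin 1 => N) = tens fun _ : Fin 1 => M * N :=
  (piT_mul _ _).symm

theorem tens_one_conj (M : Matrix A A ℂ) :
    (tens fun _ : Fin 1 => M)ᴴ = tens fun _ : Fin 1 => Mᴴ := piT_conjTranspose _

theorem tens_one_sum {J : Type} (s : Finset J) (M : J → Matrix A A ℂ) :
    tens (fun _ : Fin 1 => ∑ j ∈ s, M j) = ∑ j ∈ s, tens fun _ : Fin 1 => M j := by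
  ext x y
  rw [tens_one_apply, Matrix.sum_apply, Matrix.sum_apply]
  simp only [tens_one_apply]

theorem eve_one (Φ : Matrix (A × B) E ℂ) (M : Matrix A A ℂ) (N : Matrix B B ℂ) :
    eve (copies 1 Φ) (tens fun _ : Fin 1 => M) (tens fun _ : Fin 1 => N) =
      (eve Φ M N).submatrix (Equiv.funUnique (Fin 1) E) (Equiv.funUnique (Fin 1) E) := by
  ext x y
  rw [submatrix_apply]
  simp only [eve, tens_one_apply, copies, Fin.prod_univ_one]
  rw [← ((Equiv.funUnique (Fin 1) A).prodCongr (Equiv.funUnique (Fin 1) B)).sum_comp]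
  refine Finset.sum_congr rfl fun p _ => ?_
  rw [← ((Equiv.funUnique (Fin 1) A).prodCongr (Equiv.funUnique (Fin 1) B)).sum_comp]
  rfl

theorem one_block {Φ : Matrix (A × B) E ℂ} {ℓ : ℕ} {T : Type} [Fintype T]
    {f : T → (Fin ℓ → Bool) → Matrix A A ℂ} {g : T → (Fin ℓ → Bool) → Matrix B B ℂ}
    (hL : LOCC (Fin ℓ → Bool) A B T f g) {ε : ℝ} (h : KeyError f g Φ ε) :
    LOCC (Fin ℓ → Bool) (Fin 1 → A) (Fin 1 → B) (Σ _ : Unit, Σ _ : Unit, T)
      (fun t k => tens fun _ : Fin 1 => f t.2.2 k) (fun t k => tens fun _ : Fin 1 => g t.2.2 k) ∧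
    KeyError (T := Σ _ : Unit, Σ _ : Unit, T) (fun t k => tens fun _ : Fin 1 => f t.2.2 k)
      (fun t k => tens fun _ : Fin 1 => g t.2.2 k) (copies 1 Φ) ε := by
  constructor
  · have h1 := locc_preB (locc_pre hL (fun _ : Unit => ev A) (by simpa using ev_left (A := A)))
      (fun _ : Unit => ev B) (by simpa using ev_left (A := B))
    simp only [Finset.univ_unique, Finset.sum_singleton, ev_conj] at h1
    exact h1
  · obtain ⟨σ, hσ, hσ1, hsum⟩ := h
    refine ⟨fun t => (σ t.2.2).submatrix (Equiv.funUnique (Fin 1) E) (Equiv.funUnique (Fin 1) E),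
      fun t => (hσ _).submatrix _, ?_, ?_⟩
    · simp only [trace_subm]
      rw [Fintype.sum_sigma]
      simp only [Finset.univ_unique, Finset.sum_singleton]
      rw [Fintype.sum_sigma]
      simpa using hσ1
    · have e : ∀ (t : T) (k l : Fin ℓ → Bool), traceNorm (eve (copies 1 Φ)
          (tens fun _ : Fin 1 => f t k) (tens fun _ : Fin 1 => g t l) -
          if k = l then ((Fintype.card (Fin ℓ → Bool) : ℂ)⁻¹) • (σ t).submatrix
            (Equiv.funUnique (Fin 1) E) (Equiv.funUnique (Fin 1) E) else 0) =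
          traceNorm (eve Φ (f t k) (g t l) -
            if k = l then ((Fintype.card (Fin ℓ → Bool) : ℂ)⁻¹) • σ t else 0) := by
        intro t k l
        rw [← tn_subm (Equiv.funUnique (Fin 1) E) (eve Φ (f t k) (g t l) - _), eve_one]
        congr 1
        by_cases hkl : k = l
        · rw [if_pos hkl, if_pos hkl]
          rfl
        · rw [if_neg hkl, if_neg hkl]
          rfl
      rw [Fintype.sum_sigma]
      simp only [Finset.univ_unique, Finset.sum_singleton]
      rw [Fintype.sum_sigma]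
      simp only [Finset.univ_unique, Finset.sum_singleton, e]
      exact hsum

theorem menu_all {κ : Type} [Fintype κ] {F : κ → Matrix A A ℂ} (hF : ∀ k, (F k).PosSemidef)
    {r : ℕ} (hr : 1 ≤ r) : Menu (Fintype.card (κ × A)) r (Finset.univ : Finset (Fin 1))
      (fun k => tens fun _ : Fin 1 => F k) := by
  classical
  choose C hC using fun k => exists_eq_conjTranspose_mul_self (hF k)
  obtain ⟨e, -⟩ : ∃ e : κ × A ≃ Fin (Fintype.card (κ × A)), e = e :=
    ⟨Fintype.equivFin (κ × A), rfl⟩
  refine ⟨fun _ j => pj (Pi.single (e.symm j).2 1) * C (e.symm j).1, fun _ j => ?_, fun k =>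
    ⟨fun w => if (e.symm (w 0)).1 = k then 1 else 0, fun w => ?_, ?_⟩⟩
  · refine ((rank_mul_le_left _ _).trans ?_).trans hr
    have := rank_smul_pj 1 (Pi.single (e.symm j).2 1 : A → ℂ)
    rwa [one_smul] at this
  · beta_reduce
    split_ifs
    · exact PosSemidef.one
    · exact PosSemidef.zero
  · obtain ⟨G, hG⟩ : ∃ G : κ × A → Matrix (Fin 1 → A) (Fin 1 → A) ℂ, G = fun x =>
        if x.1 = k then tens fun _ : Fin 1 => (C x.1)ᴴ * pj (Pi.single x.2 1) * C x.1 else 0 :=
      ⟨_, rfl⟩
    have e1 : ∀ w : Fin 1 → Fin (Fintype.card (κ × A)),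
        (tens fun i : Fin 1 => if i ∈ (Finset.univ : Finset (Fin 1)) then
          pj (Pi.single (e.symm (w i)).2 1) * C (e.symm (w i)).1 else 1)ᴴ *
        (if (e.symm (w 0)).1 = k then 1 else 0) *
        (tens fun i : Fin 1 => if i ∈ (Finset.univ : Finset (Fin 1)) then
          pj (Pi.single (e.symm (w i)).2 1) * C (e.symm (w i)).1 else 1) =
        G (e.symm ((Equiv.funUnique (Fin 1) _) w)) := by
      intro w
      have e2 : (tens fun i : Fin 1 => if i ∈ (Finset.univ : Finset (Fin 1)) then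
          pj (Pi.single (e.symm (w i)).2 1) * C (e.symm (w i)).1 else 1) =
          tens fun _ : Fin 1 => pj (Pi.single (e.symm (w 0)).2 1) * C (e.symm (w 0)).1 := by
        congr 1
        funext i
        rw [if_pos (Finset.mem_univ i), Subsingleton.elim i 0]
      have e3 : (Equiv.funUnique (Fin 1) (Fin (Fintype.card (κ × A)))) w = w 0 := rfl
      rw [e2, e3, hG]
      beta_reduce
      by_cases hk : (e.symm (w 0)).1 = k
      · rw [if_pos hk, if_pos hk, mul_one, tens_one_conj, tens_one_mul, conjTranspose_mul, pj_herm]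
        congr 1
        funext _
        rw [Matrix.mul_assoc, ← Matrix.mul_assoc (pj _) (pj _), pj_pj', nq_single,
          Complex.ofReal_one, one_smul, Matrix.mul_assoc]
      · rw [if_neg hk, if_neg hk, Matrix.mul_zero, Matrix.zero_mul]
    rw [Finset.sum_congr rfl fun w _ => e1 w,
      (Equiv.funUnique (Fin 1) (Fin (Fintype.card (κ × A)))).sum_comp fun j => G (e.symm j),
      e.symm.sum_comp G, hG, Fintype.sum_prod_type, Finset.sum_eq_single k]
    · simp only [if_true]
      rw [← tens_one_sum]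
      congr 1
      funext _
      rw [← Matrix.sum_mul, ← Matrix.mul_sum]
      have e4 : ∑ a : A, pj (Pi.single a 1 : A → ℂ) = 1 := by
        have h := dph_sum (A := A)
        rw [← h]
        exact ((Fintype.equivFin A).symm.sum_comp fun a : A => pj (Pi.single a 1)).symm
      rw [e4, mul_one, ← hC]
    · intro k' _ hk'
      refine Finset.sum_eq_zero fun a _ => ?_
      rw [if_neg hk']
    · simp

end one

section iff

variable {A B : Type} [Fintype A] [DecidableEq A] [Fintype B] [DecidableEq B]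

/-- Key distillation is possible if and only if it is possible with some menu. -/
theorem menu_iff {ρ : Matrix (A × B) (A × B) ℂ} (hρ : ρ.PosSemidef) (h1 : ρ.trace = 1) {m : ℕ}
    (hm : 1 ≤ m) : ¬ KeyPos ρ ↔ ∀ M N : ℕ, NoKeyMenu (tpow N ρ) M m := by
  constructor
  · intro h M N E _ _ Φ hΦ n ℓ hℓ T _ f g hL _ herr
    exact h (keyPos_of_test h1 (keyTest_block (keyTest_of_error hΦ hℓ hL herr)))
  · intro h hpos
    obtain ⟨Ψ, hΨ⟩ := exists_pur hρ
    obtain ⟨n, ℓ, hℓ, T, iT, f, g, ε, hε, hL, herr⟩ :=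
      exists_protocol (hpos _ Ψ hΨ) (δ := 1 / 64) (by norm_num)
    obtain ⟨hfp, hgp⟩ := PC.locc_psd hL
    obtain ⟨hL1, σ, hσ, hσ1, hsum⟩ := one_block hL herr
    have hcard : 0 < Fintype.card ((Fin ℓ → Bool) × (Fin n → A)) := by
      rw [Fintype.card_pos_iff]
      have : Nonempty A := by
        by_contra hA
        have : IsEmpty A := not_nonempty_iff.mp hA
        rw [Matrix.trace, Finset.univ_eq_empty, Finset.sum_empty] at h1
        exact zero_ne_one h1
      exact ⟨(fun _ => true, fun _ => Classical.arbitrary A)⟩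
    refine h (Fintype.card ((Fin ℓ → Bool) × (Fin n → A))) n (Fin n → A × B) (copies n Ψ) ?_ 1 ℓ
      hℓ _ _ _ hL1 (fun τ => ⟨Finset.univ, ?_, ?_⟩) ⟨σ, hσ, hσ1, hsum.trans hε.le⟩
    · rw [PC.copies_mul, hΨ]
    · exact menu_all (fun k => hfp τ.2.2 k) hm
    · rw [Finset.compl_univ]
      refine menu_trivial hcard fun k => ?_
      have h2 := (hgp τ.2.2 k).conjTranspose_mul_mul_same (ev (Fin n → B))
      rwa [ev_conj] at h2

end iff

end Vale.Agent.P372.Ou
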