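import Vale.Agent.P372.R2.helper492.Ou.Eq2

/-! The equivalences, in terms of the distillable key. -/

open Matrix Kronecker
open scoped ComplexOrder

namespace Vale.Agent.P372.Ou

theorem equivs (A B E : Type) [Fintype A] [DecidableEq A] [Fintype B] [DecidableEq B] [Fintype E]
    [DecidableEq E] (Ψ : Matrix (A × B) E ℂ) (h1 : (Ψ * Ψᴴ).trace = 1) (m : ℕ) (hm : 1 ≤ m) :
    (∀ t : ℝ, t ≤ 1 → (¬ 0 < distillableKey Ψ ↔
      ∀ η : ℝ, 0 < η → η ≤ 1 → NoKeyAfter (Ψ * Ψᴴ) m η t)) ∧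
    (¬ 0 < distillableKey Ψ ↔ ∀ M N : ℕ, NoKeyMenu (tpow N (Ψ * Ψᴴ)) M m) := by
  have hp : (Ψ * Ψᴴ).PosSemidef := posSemidef_self_mul_conjTranspose Ψ
  have h2 : 0 < distillableKey Ψ ↔ KeyPos (Ψ * Ψᴴ) := by
    constructor
    · intro h
      obtain ⟨n, hn⟩ := (keyPos_iff A B E Ψ h1).mp h
      exact keyPos_of_test h1 hn
    · intro h
      exact h E Ψ rfl
  exact ⟨fun t ht => (not_congr h2).trans (noise_iff hp h1 hm ht),
    (not_congr h2).trans (menu_iff hp h1 hm)⟩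

end Vale.Agent.P372.Ou
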