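import Vale.Agent.P372.R2.helper492.Ou.Asm

/-! Werner states, single copies. -/

open Matrix Kronecker
open scoped ComplexOrder MatrixOrder

set_option linter.unusedSectionVars false

namespace Vale.Agent.P372.Ou

open Vale.Agent.P372.Half (tf)
open Vale.Agent.P372.PC (IsPr)

variable {d : ℕ}

theorem real_trace {E : Type} [Fintype E] [DecidableEq E] {P : Matrix E E ℂ} (h : IsPr P) :
    P.trace = ((P.trace.re : ℝ) : ℂ) := by
  have h1 : star P.trace = P.trace := by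
    rw [← trace_conjTranspose, h.1]
  exact (Complex.conj_eq_iff_re.mp h1).symm

/-- The parameter of the labels for a Werner state. -/
theorem eta_num {t η₀ : ℝ} (hd : 3 ≤ d) (h0 : η₀ ≤ 1 / 4) (ht : 1 / d < t)
    (ht2 : t ≤ (1 + η₀) / (d - η₀)) : ∃ η : ℝ, 0 ≤ η ∧ η ≤ η₀ ∧ (d - η) * t = 1 + η := by
  have hdr : (3 : ℝ) ≤ d := by exact_mod_cast hd
  have hd0 : (0 : ℝ) < d := by linarith
  have ht0 : 0 < t := lt_trans (by positivity) ht
  have htd : 1 < t * d := by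
    rw [div_lt_iff₀ hd0] at ht
    exact ht
  rw [le_div_iff₀ (by linarith)] at ht2
  refine ⟨(t * d - 1) / (1 + t), div_nonneg (by linarith) (by linarith), ?_, ?_⟩
  · rw [div_le_iff₀ (by linarith)]
    linarith
  · field_simp
    ring

theorem werner_eq {t η : ℝ} (hη : (d - η) * t = 1 + η) (hη2 : 0 < (d : ℝ) - η) :
    Near.werner d t = (((((d : ℝ) ^ 2 - t * d)⁻¹ * (d - η)⁻¹ : ℝ)) : ℂ) • wr d η := by
  rw [Near.werner, wr, ← hη]
  have e : (((((d : ℝ) ^ 2 - t * d)⁻¹ * (d - η)⁻¹ : ℝ)) : ℂ) • (((d - η : ℝ) : ℂ) •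
      (1 : Matrix (Fin d × Fin d) (Fin d × Fin d) ℂ) - (((d - η) * t : ℝ) : ℂ) • Near.flip d) =
      (((((d : ℝ) ^ 2 - t * d)⁻¹ * (d - η)⁻¹ : ℝ)) : ℂ) • (((d - η : ℝ) : ℂ) •
      (1 - (t : ℂ) • Near.flip d)) := by
    rw [smul_sub ((d - η : ℝ) : ℂ), smul_smul ((d - η : ℝ) : ℂ), Complex.ofReal_mul (d - η)]
  rw [e, smul_smul, ← Complex.ofReal_mul]
  congr 3
  field_simp

theorem werner_one (M : ℕ) (hd : 3 ≤ d) :
    ∃ t₀ : ℝ, 1 / d < t₀ ∧ t₀ ≤ 1 ∧ ∀ t : ℝ, 1 / d < t → t ≤ t₀ →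
      NoKeyMenu (Near.werner d t) M (d - 2) := by
  have hdr : (3 : ℝ) ≤ d := by exact_mod_cast hd
  have hd0 : 0 < d := by omega
  have hd0r : (0 : ℝ) < d := by linarith
  have hdes := isDes hd0
  obtain ⟨r, hr0, hr1, hr⟩ := exists_unif (Fin M) (Fin d ⊕ (Fin d → Fin 4)) hd0 hdes.unit
  have hη₀ : r ^ 2 / 4 ≤ 1 / 4 := by nlinarith
  have hη₀' : 0 < r ^ 2 / 4 := by positivity
  refine ⟨(1 + r ^ 2 / 4) / (d - r ^ 2 / 4), ?_, ?_, fun t ht ht2 => ?_⟩
  · rw [div_lt_div_iff₀ hd0r (by linarith)]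
    nlinarith
  · rw [div_le_one (by linarith)]
    linarith
  · obtain ⟨η, hη0, hη1, hη2⟩ := eta_num hd hη₀ ht ht2
    have hηd : 1 + 2 * η < (d : ℝ) := by linarith
    have ht1 : t ≤ 1 := by
      by_contra hcon
      push Not at hcon
      nlinarith
    have hD : 0 < (d : ℝ) ^ 2 - t * d := by
      have h1 : t * d ≤ 1 * d := mul_le_mul_of_nonneg_right ht1 hd0r.le
      nlinarith
    rw [werner_eq hη2 (by linarith)]
    have hwr := wr_posDef hη0 hηd
    have hdet : IsUnit (wr d η).det := (Matrix.isUnit_iff_isUnit_det _).mp hwr.isUnit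
    have hcast : (((d - 2 : ℕ) : ℕ) : ℝ) = d - 2 := by
      rw [Nat.cast_sub (by omega)]
      norm_num
    have hPS : ∀ p : Fin M → Matrix (Fin d) (Fin d) ℂ,
        (∀ j, IsPr (p j) ∧ (p j).trace.re ≤ ((d - 2 : ℕ) : ℝ)) →
        ∃ b : Fin d ⊕ (Fin d → Fin 4) → Fin d → ℂ, IsDes (dw d) b ∧
          ∀ j l, nq (p j *ᵥ b l) ≤ 1 - r := by
      intro p hp
      obtain ⟨U, hU, hU2⟩ := hr p fun j => ⟨(hp j).1.1, (hp j).1.2, by
        rw [← hcast]
        exact (hp j).2⟩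
      exact ⟨fun l => U *ᵥ dv d l, hdes.rotate hU.1 hU.2, hU2⟩
    refine noKey_of_dat (L := Fin d ⊕ (Fin d → Fin 4))
      (mul_nonneg (inv_nonneg.mpr hD.le) (inv_nonneg.mpr (by linarith))) hwr.posSemidef M (d - 2)
      (fun p hp => ?_) (fun p hp => ?_)
    · obtain ⟨b, hb, hq⟩ := hPS p hp
      refine ⟨fun l => (dw d l : ℂ) • al η (b l), fun l => pj (b l),
        fun l => (wr d η)⁻¹ * (((dw d l : ℂ) • al η (b l)) ⊗ₖ pj (b l)), fun l => ?_,
        fun l => pj_psd _, sum_al hb η, fun l => ?_, fun l j => ?_, fun j => ?_⟩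
      · rw [conjTranspose_smul, al_herm, RCLike.star_def, Complex.conj_ofReal]
      · rw [← Matrix.mul_assoc, Matrix.mul_nonsing_inv _ hdet, one_mul]
      · rw [Matrix.mul_smul, Matrix.smul_mul]
        exact (comp_psd (hp j).1 (hb.unit l) hr0 (hq j l) hη0 hη1).smul
          (Complex.zero_le_real.mpr (hb.nn l))
      · exact ct_true hb (hp j).1 (real_trace (hp j).1) (by rw [← hcast]; exact (hp j).2) hr0
          (hq j) hη0 hη1 hηd
    · obtain ⟨b, hb, hq⟩ := hPS p hp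
      refine ⟨fun l => pj (b l), fun l => (dw d l : ℂ) • al η (b l),
        fun l => (wr d η)⁻¹ * (pj (b l) ⊗ₖ ((dw d l : ℂ) • al η (b l))), fun l => pj_psd _,
        fun l => ?_, ?_, fun l => ?_, fun l j => ?_, fun j => ?_⟩
      · rw [conjTranspose_smul, al_herm, RCLike.star_def, Complex.conj_ofReal]
      · rw [← flip_wr η, ← sum_al hb η, Matrix.mul_sum, Matrix.sum_mul]
        exact Finset.sum_congr rfl fun l _ => (flip_conj _ _).symm
      · rw [← Matrix.mul_assoc, Matrix.mul_nonsing_inv _ hdet, one_mul]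
      · rw [Matrix.mul_smul, Matrix.smul_mul]
        exact (comp_psd (hp j).1 (hb.unit l) hr0 (hq j l) hη0 hη1).smul
          (Complex.zero_le_real.mpr (hb.nn l))
      · exact ct_false hb (hp j).1 (real_trace (hp j).1) (by rw [← hcast]; exact (hp j).2) hr0
          (hq j) hη0 hη1 hηd

end Vale.Agent.P372.Ou
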