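import Vale.Agent.P372.R2.helper492.Ou.States
import Vale.Agent.P372.R2.helper492.Ou.Res1

/-! The parts of the final theorem. -/

open Matrix Kronecker
open scoped ComplexOrder MatrixOrder

set_option linter.unusedSectionVars false

namespace Vale.Agent.P372.Ou

open Vale.Agent.P372.PC (IsPr)

variable {g k : ℕ}

theorem sepState_eq : sepState g k = (((tt g k)⁻¹ : ℝ) : ℂ) • base g k := rfl

theorem IsSep.smul {A B : Type} [Fintype A] [Fintype B] {ρ : Matrix (A × B) (A × B) ℂ}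
    (h : IsSep ρ) {c : ℝ} (hc : 0 ≤ c) : IsSep ((c : ℂ) • ρ) := by
  obtain ⟨n, M, N, hM, hN, rfl⟩ := h
  refine ⟨n, fun r => (c : ℂ) • M r, N, fun r => (hM r).smul (Complex.zero_le_real.mpr hc), hN, ?_⟩
  rw [Finset.smul_sum]
  refine Finset.sum_congr rfl fun r _ => ?_
  rw [smul_kronecker]

theorem sep_base (hg : 0 < g) (hk : 0 < k) : IsSep (base g k) := by
  have h := base_sum (isDes hk) (isDes hg)
  obtain ⟨e⟩ : Nonempty ((Fin k ⊕ (Fin k → Fin 4)) × (Fin g ⊕ (Fin g → Fin 4)) ≃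
    Fin (Fintype.card ((Fin k ⊕ (Fin k → Fin 4)) × (Fin g ⊕ (Fin g → Fin 4))))) :=
    ⟨Fintype.equivFin _⟩
  refine ⟨_, fun r => ((dw k (e.symm r).1 * (dw g (e.symm r).2 / (g + 1)) : ℝ) : ℂ) •
    alp g (dv k (e.symm r).1), fun r => pj (dv g (e.symm r).2) ⊗ₖ pj (dv k (e.symm r).1),
    fun r => ?_, fun r => (pj_psd _).kronecker (pj_psd _), ?_⟩
  · refine (alp_pr ((isDes hk).unit _)).psd.smul (Complex.zero_le_real.mpr ?_)
    exact mul_nonneg ((isDes hk).nn _) (div_nonneg ((isDes hg).nn _) (by positivity))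
  · rw [← h, ← e.symm.sum_comp]
    refine Finset.sum_congr rfl fun r _ => ?_
    rw [smul_kronecker]

theorem sep_sepState (hg : 0 < g) (hk : 2 ≤ k) : IsSep (sepState g k) := by
  rw [sepState_eq]
  exact IsSep.smul (sep_base hg (by omega)) (inv_nonneg.mpr (tt_pos hg hk).2.le)

theorem not_sep_of {ρ : Matrix ((Fin g × Fin k) × (Fin g × Fin k)) _ ℂ} {c : ℝ} (hc : 0 < c)
    (h : (ff ρ).re < 0 ∨ k * (fs ρ).re < (ff ρ).re) : ¬ IsSep ((c : ℂ) • ρ) := by
  intro hs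
  have h1 := IsSep.smul hs (inv_nonneg.mpr hc.le)
  rw [smul_smul, ← Complex.ofReal_mul, inv_mul_cancel₀ hc.ne', Complex.ofReal_one, one_smul] at h1
  obtain ⟨h2, h3⟩ := sep_wit h1
  rcases h with h | h <;> linarith

theorem near_ent (hg : 0 < g) (hk : 2 ≤ k) {δ : ℝ} (hδ : 0 < δ) :
    ∃ ρ : Matrix ((Fin g × Fin k) × (Fin g × Fin k)) ((Fin g × Fin k) × (Fin g × Fin k)) ℂ,
      ρ.PosDef ∧ ρ.trace = 1 ∧ (∀ p q, ‖ρ p q - sepState g k p q‖ ≤ δ) ∧ ¬ IsSep ρ := by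
  obtain ⟨ht3, ht⟩ := tt_pos hg hk
  have hg1 : (1 : ℝ) ≤ g := by exact_mod_cast hg
  have hk2 : (2 : ℝ) ≤ k := by exact_mod_cast hk
  have hgk : (2 : ℝ) ≤ g * k := by nlinarith
  obtain ⟨T, hT⟩ : ∃ T, T = tt g k := ⟨_, rfl⟩
  obtain ⟨η, hη⟩ : ∃ η : ℝ, η = min (1 / 4) (δ * T / 2) := ⟨_, rfl⟩
  have hT0 : 0 < T := hT ▸ ht
  have hη0 : 0 < η := by rw [hη]; positivity
  have hη1 : η ≤ 1 / 4 := by rw [hη]; exact min_le_left _ _
  have hη2 : η ≤ δ * T / 2 := by rw [hη]; exact min_le_right _ _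
  have hs : (0 : ℝ) = (-η * (g * k) + η / (g * k) * (g * k) ^ 2) / tt g k := by
    have : -η * (g * k) + η / (g * k) * (g * k) ^ 2 = 0 := by
      field_simp
      ring
    rw [this, zero_div]
  have hy : 0 < η / (g * k) := by positivity
  have hy1 : η / (g * k) ≤ η := div_le_self hη0.le (by linarith)
  have hTi : 0 < T⁻¹ := inv_pos.mpr hT0
  have hpd : (st g k (-η) (η / (g * k))).PosDef := by
    refine st_posDef hs zero_le_one ?_
    rw [abs_neg, abs_of_pos hη0]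
    linarith
  refine ⟨((T⁻¹ : ℝ) : ℂ) • st g k (-η) (η / (g * k)), hpd.smul (Complex.zero_lt_real.mpr hTi),
    ?_, fun p q => ?_, not_sep_of hTi (Or.inl ?_)⟩
  · rw [trace_smul, trace_st ht, ← hT, smul_eq_mul, ← Complex.ofReal_mul,
      inv_mul_cancel₀ hT0.ne', Complex.ofReal_one]
  · have h1 := st_close hs p q
    rw [abs_zero, zero_mul, zero_add, abs_neg, abs_of_pos hη0, abs_of_pos hy] at h1
    rw [sepState_eq, ← hT, Matrix.smul_apply, Matrix.smul_apply, ← smul_sub, norm_smul,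
      Complex.norm_real, Real.norm_of_nonneg hTi.le]
    calc T⁻¹ * ‖st g k (-η) (η / (g * k)) p q - base g k p q‖ ≤ T⁻¹ * (2 * (δ * T / 2)) := by
          refine mul_le_mul_of_nonneg_left ?_ hTi.le
          linarith
      _ = δ := by field_simp
  · rw [ff_st, Complex.ofReal_re]
    have e : -η * (g * k) ^ 2 + η / (g * k) * (g * k) = -(η * ((g * k) ^ 2 - 1)) := by
      field_simp
      ring
    rw [e]
    have : (0 : ℝ) < (g * k) ^ 2 - 1 := by nlinarith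
    have := mul_pos hη0 this
    linarith

theorem near_ppt (hk : 2 ≤ k) (hgk : k < g) {δ : ℝ} (hδ : 0 < δ) :
    ∃ ρ : Matrix ((Fin g × Fin k) × (Fin g × Fin k)) ((Fin g × Fin k) × (Fin g × Fin k)) ℂ,
      ρ.PosDef ∧ (parTranspose ρ).PosDef ∧ ρ.trace = 1 ∧
      (∀ p q, ‖ρ p q - sepState g k p q‖ ≤ δ) ∧ ¬ IsSep ρ := by
  have hg : 0 < g := by omega
  obtain ⟨ht3, ht⟩ := tt_pos hg hk
  have hk2 : (2 : ℝ) ≤ k := by exact_mod_cast hk
  have hkg : (k : ℝ) + 1 ≤ g := by exact_mod_cast hgk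
  have hgk0 : (0 : ℝ) < g * k := by positivity
  obtain ⟨T, hT⟩ : ∃ T, T = tt g k := ⟨_, rfl⟩
  obtain ⟨η, hη⟩ : ∃ η : ℝ, η = min (1 / 4) (δ * T / (k + 3)) := ⟨_, rfl⟩
  have hT0 : 0 < T := hT ▸ ht
  have hη0 : 0 < η := by rw [hη]; positivity
  have hη1 : η ≤ 1 / 4 := by rw [hη]; exact min_le_left _ _
  have hη2 : η ≤ δ * T / (k + 3) := by rw [hη]; exact min_le_right _ _
  obtain ⟨y, hy⟩ : ∃ y : ℝ, y = η / (2 * (g * k)) := ⟨_, rfl⟩
  have hy0 : 0 < y := by rw [hy]; positivity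
  have hyg : y * (g * k) = η / 2 := by
    rw [hy]
    field_simp
  have hgk2 : (2 : ℝ) ≤ g * k := by nlinarith
  have hy1 : y ≤ η := by nlinarith
  obtain ⟨s, hs⟩ : ∃ s : ℝ, s = (η * (g * k) + y * (g * k) ^ 2) / tt g k := ⟨_, rfl⟩
  have hs2 : s = (3 / 2 * η * (g * k)) / tt g k := by
    rw [hs]
    congr 1
    have : y * (g * k : ℝ) ^ 2 = (y * (g * k)) * (g * k) := by ring
    rw [this, hyg]
    ring
  have hs0 : 0 ≤ s := by rw [hs2]; positivity
  have hs1 : s ≤ η / 2 := by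
    rw [hs2, div_le_iff₀ ht]
    nlinarith
  have hTi : 0 < T⁻¹ := inv_pos.mpr hT0
  have hpd : (st g k η y).PosDef := by
    refine st_posDef hs (by linarith) ?_
    rw [abs_of_pos hη0]
    nlinarith
  have hpt : (parTranspose (st g k η y)).PosDef := pt_st hs (by linarith) hη0.le hy0
  have hpt2 : parTranspose (((T⁻¹ : ℝ) : ℂ) • st g k η y) =
      ((T⁻¹ : ℝ) : ℂ) • parTranspose (st g k η y) := rfl
  refine ⟨((T⁻¹ : ℝ) : ℂ) • st g k η y, hpd.smul (Complex.zero_lt_real.mpr hTi), ?_, ?_,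
    fun p q => ?_, not_sep_of hTi (Or.inr ?_)⟩
  · rw [hpt2]
    exact hpt.smul (Complex.zero_lt_real.mpr hTi)
  · rw [trace_smul, trace_st ht, ← hT, smul_eq_mul, ← Complex.ofReal_mul,
      inv_mul_cancel₀ hT0.ne', Complex.ofReal_one]
  · have h1 := st_close hs p q
    rw [abs_of_nonneg hs0, abs_of_pos hη0, abs_of_pos hy0] at h1
    rw [sepState_eq, ← hT, Matrix.smul_apply, Matrix.smul_apply, ← smul_sub, norm_smul,
      Complex.norm_real, Real.norm_of_nonneg hTi.le]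
    have h2 : ‖st g k η y p q - base g k p q‖ ≤ η * (k + 3) := by nlinarith
    calc T⁻¹ * ‖st g k η y p q - base g k p q‖ ≤ T⁻¹ * ((δ * T / (k + 3)) * (k + 3)) := by
          refine mul_le_mul_of_nonneg_left (h2.trans ?_) hTi.le
          exact mul_le_mul_of_nonneg_right hη2 (by linarith)
      _ = δ := by field_simp
  · rw [ff_st, fs_st, Complex.ofReal_re, Complex.ofReal_re]
    have e1 : (η * (g * k) ^ 2 + y * (g * k) : ℝ) - k * (η * (g * k ^ 2) + y * (g ^ 2 * k)) =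
        η * (g * k) * (k * (g - k)) + y * (g * k) - (y * (g * k)) * (g * k) := by ring
    rw [hyg] at e1
    have e2 : η * (g * k) * (k * (g - k)) + η / 2 - η / 2 * (g * k) =
        η * (g * k) * (k * (g - k) - 1) + η / 2 + η / 2 * (g * k) := by ring
    have h3 : (0 : ℝ) ≤ k * (g - k) - 1 := by nlinarith
    have h4 : 0 ≤ η * (g * k) * (k * (g - k) - 1) := by positivity
    have h5 : 0 < η / 2 * (g * k) := by positivity
    linarith

/-- Hermitian matrices with small entries. -/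
theorem bd_of_entries {X : Type} [Fintype X] [DecidableEq X] {D : Matrix X X ℂ} (hD : Dᴴ = D)
    {δ : ℝ} (hδ : 0 ≤ δ) (h : ∀ p q, ‖D p q‖ ≤ δ) : Bd D (δ * Fintype.card X) := by
  have hb : ∀ x : X → ℂ, ‖star x ⬝ᵥ (D *ᵥ x)‖ ≤ δ * Fintype.card X * nq x := by
    intro x
    have h1 : ‖star x ⬝ᵥ (D *ᵥ x)‖ ≤ ∑ p, ∑ q, ‖x p‖ * (δ * ‖x q‖) := by
      refine (norm_sum_le _ _).trans (Finset.sum_le_sum fun p _ => ?_)
      rw [norm_mul, Pi.star_apply, norm_star, ← Finset.mul_sum]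
      refine mul_le_mul_of_nonneg_left ?_ (norm_nonneg _)
      refine (norm_sum_le _ _).trans (Finset.sum_le_sum fun q _ => ?_)
      rw [norm_mul]
      exact mul_le_mul_of_nonneg_right (h p q) (norm_nonneg _)
    have h2 : ∑ p, ∑ q, ‖x p‖ * (δ * ‖x q‖) = δ * (∑ p, ‖x p‖) ^ 2 := by
      rw [sq, Finset.sum_mul_sum, Finset.mul_sum]
      refine Finset.sum_congr rfl fun p _ => ?_
      rw [Finset.mul_sum]
      exact Finset.sum_congr rfl fun q _ => by ring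
    have h3 : (∑ p, ‖x p‖) ^ 2 ≤ Fintype.card X * nq x := by
      have h4 := Finset.sum_mul_sq_le_sq_mul_sq (Finset.univ : Finset X) (fun _ => (1 : ℝ))
        (fun p => ‖x p‖)
      simpa [nq] using h4
    rw [h2] at h1
    calc ‖star x ⬝ᵥ (D *ᵥ x)‖ ≤ δ * (∑ p, ‖x p‖) ^ 2 := h1
      _ ≤ δ * (Fintype.card X * nq x) := mul_le_mul_of_nonneg_left h3 hδ
      _ = _ := by ring
  have hreal : ∀ x : X → ℂ, star x ⬝ᵥ (D *ᵥ x) = ((star x ⬝ᵥ (D *ᵥ x)).re : ℂ) := by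
    intro x
    have h1 : star (star x ⬝ᵥ (D *ᵥ x)) = star x ⬝ᵥ (D *ᵥ x) := by
      rw [← star_dotProduct, star_mulVec, hD, dotProduct_mulVec]
    exact (Complex.conj_eq_iff_re.mp h1).symm
  refine ⟨?_, ?_⟩
  · refine psd_of ?_ (fun x => δ * Fintype.card X * nq x - (star x ⬝ᵥ (D *ᵥ x)).re) (fun x => ?_)
      (fun x => ?_)
    · rw [IsHermitian, conjTranspose_sub, conjTranspose_smul, conjTranspose_one, hD,
        RCLike.star_def, Complex.conj_ofReal]
    · rw [sub_mulVec, smul_mulVec, one_mulVec, dotProduct_sub, dotProduct_smul, dot_self,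
        smul_eq_mul, hreal]
      push_cast
      simp
    · have := (le_abs_self _).trans ((Complex.abs_re_le_norm _).trans (hb x))
      linarith
  · refine psd_of ?_ (fun x => δ * Fintype.card X * nq x + (star x ⬝ᵥ (D *ᵥ x)).re) (fun x => ?_)
      (fun x => ?_)
    · rw [IsHermitian, conjTranspose_add, conjTranspose_smul, conjTranspose_one, hD,
        RCLike.star_def, Complex.conj_ofReal]
    · rw [add_mulVec, smul_mulVec, one_mulVec, dotProduct_add, dotProduct_smul, dot_self,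
        smul_eq_mul, hreal]
      push_cast
      simp
    · have := (neg_abs_le _).trans' (neg_le_neg ((Complex.abs_re_le_norm _).trans (hb x)))
      linarith

theorem base_herm : (base g k)ᴴ = base g k := by
  have h := (base_low (g := g) (k := k)).isHermitian.eq
  rw [conjTranspose_sub, conjTranspose_smul, conjTranspose_one, RCLike.star_def,
    Complex.conj_ofReal] at h
  exact sub_left_injective h

/-- States with entries close to those of the separable state. -/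
theorem close_bd (hg : 0 < g) (hk : 2 ≤ k) {ε : ℝ} (hε : 0 < ε) :
    ∃ δ : ℝ, 0 < δ ∧ ∀ ρ : Matrix ((Fin g × Fin k) × (Fin g × Fin k))
      ((Fin g × Fin k) × (Fin g × Fin k)) ℂ, ρ.PosSemidef →
      (∀ p q, ‖ρ p q - sepState g k p q‖ ≤ δ) →
      ∃ (c : ℝ) (R : Matrix ((Fin g × Fin k) × (Fin g × Fin k))
        ((Fin g × Fin k) × (Fin g × Fin k)) ℂ), 0 ≤ c ∧ Bd (R - base g k) ε ∧
        ρ = (c : ℂ) • R := by
  obtain ⟨-, ht⟩ := tt_pos hg hk
  obtain ⟨T, hT⟩ : ∃ T, T = tt g k := ⟨_, rfl⟩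
  rw [← hT] at ht
  obtain ⟨n, hn⟩ : ∃ n : ℕ, n = Fintype.card ((Fin g × Fin k) × (Fin g × Fin k)) := ⟨_, rfl⟩
  have hn0 : (0 : ℝ) ≤ n := Nat.cast_nonneg n
  refine ⟨ε / (T * (n + 1)), by positivity, fun ρ hρ hc => ?_⟩
  have hTρ : ρ = ((T⁻¹ : ℝ) : ℂ) • ((T : ℂ) • ρ) := by
    rw [smul_smul, ← Complex.ofReal_mul, inv_mul_cancel₀ ht.ne', Complex.ofReal_one, one_smul]
  refine ⟨T⁻¹, (T : ℂ) • ρ, inv_nonneg.mpr ht.le, ?_, hTρ⟩
  have hD : ((T : ℂ) • ρ - base g k)ᴴ = (T : ℂ) • ρ - base g k := by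
    rw [conjTranspose_sub, conjTranspose_smul, hρ.isHermitian.eq, base_herm, RCLike.star_def,
      Complex.conj_ofReal]
  have hent : ∀ p q, ‖((T : ℂ) • ρ - base g k) p q‖ ≤ ε / (n + 1) := by
    intro p q
    have h1 : ((T : ℂ) • ρ - base g k) p q = (T : ℂ) * (ρ p q - sepState g k p q) := by
      rw [sepState_eq, ← hT, Matrix.sub_apply, Matrix.smul_apply, Matrix.smul_apply, smul_eq_mul,
        smul_eq_mul, mul_sub, ← mul_assoc, ← Complex.ofReal_mul, mul_inv_cancel₀ ht.ne',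
        Complex.ofReal_one, one_mul]
    rw [h1, norm_mul, Complex.norm_real, Real.norm_of_nonneg ht.le]
    calc T * ‖ρ p q - sepState g k p q‖ ≤ T * (ε / (T * (n + 1))) :=
          mul_le_mul_of_nonneg_left (hc p q) ht.le
      _ = ε / (n + 1) := by field_simp
  refine (bd_of_entries hD (by positivity) hent).mono ?_
  rw [← hn, div_mul_eq_mul_div, div_le_iff₀ (by positivity)]
  nlinarith

theorem nb_entries (g k m M N : ℕ) (hg : 0 < g) (hk : 2 * m + 2 ≤ k) :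
    ∃ δ : ℝ, 0 < δ ∧ ∀ ρ : Matrix ((Fin g × Fin k) × (Fin g × Fin k))
      ((Fin g × Fin k) × (Fin g × Fin k)) ℂ, ρ.PosSemidef → ρ.trace = 1 →
      (∀ p q, ‖ρ p q - sepState g k p q‖ ≤ δ) → NoKeyMenu (tpow N ρ) M m := by
  obtain ⟨ε, hε, h⟩ := nb g k m M N hg hk
  obtain ⟨δ, hδ, hδ'⟩ := close_bd (g := g) (k := k) hg (by omega) hε
  refine ⟨δ, hδ, fun ρ hρ _ hc => ?_⟩
  obtain ⟨c, R, hc0, hR, hcR⟩ := hδ' ρ hρ hc
  rw [hcR]
  exact h R hR c hc0

end Vale.Agent.P372.Ou
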