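import Vale.Agent.P372.R2.helper492.Ou.Rot
import Vale.Agent.P372.R2.helper492.Ou.BlockDat

/-! The labels of one copy, for a state close to a separable boundary state. -/

open Matrix Kronecker
open scoped ComplexOrder MatrixOrder

set_option linter.unusedSectionVars false

namespace Vale.Agent.P372

namespace Ou

open Vale.Agent.P372.PC (IsPr pa pa_psd pa_sub pa_add pa_smul_one)

variable {g k : ℕ}

/-- The separable boundary state (up to a factor). -/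
def base (g k : ℕ) :
    Matrix ((Fin g × Fin k) × (Fin g × Fin k)) ((Fin g × Fin k) × (Fin g × Fin k)) ℂ :=
  (k : ℂ) • 1 - swapK g k

theorem swapK_eq : swapK g k = ((1 : Matrix (Fin g × Fin g) (Fin g × Fin g) ℂ) ⊗ₖ
    Near.flip k).submatrix (fun p => ((p.1.1, p.2.1), (p.1.2, p.2.2)))
      (fun p => ((p.1.1, p.2.1), (p.1.2, p.2.2))) := by
  ext ⟨⟨a, i⟩, ⟨b, j⟩⟩ ⟨⟨a', i'⟩, ⟨b', j'⟩⟩
  simp only [swapK, submatrix_apply, kroneckerMap_apply, Near.flip, one_apply, Prod.mk.injEq]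
  by_cases h1 : a = a' <;> by_cases h2 : b = b' <;> simp [h1, h2]

theorem re_inj : Function.Injective (fun p : (Fin g × Fin k) × (Fin g × Fin k) =>
    ((p.1.1, p.2.1), (p.1.2, p.2.2))) := by
  rintro ⟨⟨a, i⟩, ⟨b, j⟩⟩ ⟨⟨a', i'⟩, ⟨b', j'⟩⟩ h
  simp only [Prod.mk.injEq] at h ⊢
  tauto

theorem one_sub_swapK : (1 - swapK g k).PosSemidef := by
  have h := ((PosSemidef.one (n := Fin g × Fin g) (R := ℂ)).kronecker
    (Near.one_sub_flip k)).submatrix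
      (fun p : (Fin g × Fin k) × (Fin g × Fin k) => ((p.1.1, p.2.1), (p.1.2, p.2.2)))
  have e : 1 - swapK g k = ((1 : Matrix (Fin g × Fin g) (Fin g × Fin g) ℂ) ⊗ₖ
      (1 - Near.flip k)).submatrix
      (fun p : (Fin g × Fin k) × (Fin g × Fin k) => ((p.1.1, p.2.1), (p.1.2, p.2.2)))
      (fun p : (Fin g × Fin k) × (Fin g × Fin k) => ((p.1.1, p.2.1), (p.1.2, p.2.2))) := by
    rw [swapK_eq, ← submatrix_one _ (re_inj (g := g) (k := k))]
    ext p q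
    simp only [Matrix.sub_apply, submatrix_apply, kroneckerMap_apply]
    rw [← one_kronecker_one, kroneckerMap_apply]
    ring
  rw [e]
  exact h

variable {Lk Lg : Type} [Fintype Lk] [DecidableEq Lk] [Fintype Lg] [DecidableEq Lg]
variable {ν : Lk → ℝ} {b : Lk → Fin k → ℂ} {μ : Lg → ℝ} {e : Lg → Fin g → ℂ}

theorem IsDes.entries {d : ℕ} {L : Type} [Fintype L] {ν : L → ℝ} {b : L → Fin d → ℂ}
    (h : IsDes ν b) (i i' j j' : Fin d) :
    ∑ l, (ν l : ℂ) * (pj (b l) i i' * pj (b l) j j') =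
      (if i = i' ∧ j = j' then 1 else 0) + (if i = j' ∧ j = i' then 1 else 0) := by
  have h1 := congrFun (congrFun h.two (i, j)) (i', j')
  rw [Matrix.sum_apply, Matrix.add_apply, one_apply, Near.flip] at h1
  simp only [Matrix.smul_apply, smul_eq_mul, kroneckerMap_apply, Prod.mk.injEq] at h1
  exact h1

theorem IsDes.entries1 {d : ℕ} {L : Type} [Fintype L] {ν : L → ℝ} {b : L → Fin d → ℂ}
    (h : IsDes ν b) (j j' : Fin d) :
    ∑ l, (ν l : ℂ) * pj (b l) j j' = if j = j' then (d : ℂ) + 1 else 0 := by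
  have h1 := congrFun (congrFun h.one j) j'
  rw [Matrix.sum_apply] at h1
  simp only [Matrix.smul_apply, smul_eq_mul, one_apply, mul_ite, mul_one, mul_zero] at h1
  exact h1

theorem sw_sum (h : IsDes ν b) :
    ∑ l, (ν l : ℂ) • (((1 : Matrix (Fin g) (Fin g) ℂ) ⊗ₖ pj (b l)) ⊗ₖ
      ((1 : Matrix (Fin g) (Fin g) ℂ) ⊗ₖ pj (b l))) = 1 + swapK g k := by
  ext ⟨⟨a, i⟩, ⟨c, j⟩⟩ ⟨⟨a', i'⟩, ⟨c', j'⟩⟩
  rw [Matrix.sum_apply]
  simp only [Matrix.smul_apply, smul_eq_mul, kroneckerMap_apply, Matrix.add_apply, swapK,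
    one_apply, Prod.mk.injEq]
  have e1 : ∀ l, (ν l : ℂ) * ((if a = a' then 1 else 0) * pj (b l) i i' *
      ((if c = c' then 1 else 0) * pj (b l) j j')) = (if a = a' ∧ c = c' then 1 else 0) *
      ((ν l : ℂ) * (pj (b l) i i' * pj (b l) j j')) := by
    intro l
    by_cases h1 : a = a' <;> by_cases h2 : c = c' <;> simp [h1, h2]
  simp only [e1]
  rw [← Finset.mul_sum, h.entries]
  by_cases h1 : a = a' <;> by_cases h2 : c = c' <;> simp [h1, h2]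

theorem pj_pr {d : ℕ} {v : Fin d → ℂ} (h : star v ⬝ᵥ v = 1) : IsPr (pj v) := by
  refine ⟨pj_herm v, ?_⟩
  rw [pj_pj, ← dot_self, h, one_smul]

theorem kron_pr {X Y : Type} [Fintype X] [DecidableEq X] [Fintype Y] [DecidableEq Y]
    {P : Matrix X X ℂ} {Q : Matrix Y Y ℂ} (hP : IsPr P) (hQ : IsPr Q) : IsPr (P ⊗ₖ Q) := by
  refine ⟨?_, ?_⟩
  · rw [conjTranspose_kronecker, hP.1, hQ.1]
  · rw [← mul_kronecker_mul, hP.2, hQ.2]

theorem alp_pr {v : Fin k → ℂ} (h : star v ⬝ᵥ v = 1) : IsPr (alp g v) :=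
  (kron_pr isPr_one (pj_pr h)).compl

theorem sum_left (h : IsDes μ e) (Z : Matrix (Fin g × Fin k) (Fin g × Fin k) ℂ)
    (w : Matrix (Fin k) (Fin k) ℂ) :
    ∑ x, ((μ x / (g + 1) : ℝ) : ℂ) • (Z ⊗ₖ (pj (e x) ⊗ₖ w)) =
      Z ⊗ₖ ((1 : Matrix (Fin g) (Fin g) ℂ) ⊗ₖ w) := by
  have hg : ((g : ℂ) + 1) ≠ 0 := by exact_mod_cast Nat.succ_ne_zero g
  ext ⟨⟨a, i⟩, ⟨c, j⟩⟩ ⟨⟨a', i'⟩, ⟨c', j'⟩⟩
  rw [Matrix.sum_apply]
  simp only [Matrix.smul_apply, smul_eq_mul, kroneckerMap_apply, one_apply]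
  have e1 : ∀ x, ((μ x / (g + 1) : ℝ) : ℂ) * (Z (a, i) (a', i') * (pj (e x) c c' * w j j')) =
      (Z (a, i) (a', i') * w j j' / (g + 1)) * ((μ x : ℂ) * pj (e x) c c') := by
    intro x
    push_cast
    ring
  simp only [e1]
  rw [← Finset.mul_sum, h.entries1]
  by_cases hc : c = c'
  · simp only [hc, if_true]
    field_simp
  · simp [hc]

/-- The labels of the unperturbed state. -/
theorem lay (h : IsDes ν b) (h' : IsDes μ e) :
    Lay (fun l : Lk × Lg => alp g (b l.1)) (fun l => pj (e l.2) ⊗ₖ pj (b l.1))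
      (fun l => ν l.1 * (μ l.2 / (g + 1))) (k + 1) := by
  have hg : (0 : ℝ) < (g : ℝ) + 1 := by positivity
  refine ⟨fun l => alp_pr (h.unit _), fun l => kron_pr (pj_pr (h'.unit _)) (pj_pr (h.unit _)),
    fun l => mul_nonneg (h.nn _) (div_nonneg (h'.nn _) hg.le), ?_, ?_⟩
  · have e1 : ∑ l : Lk × Lg, ((ν l.1 * (μ l.2 / (g + 1)) : ℝ) : ℂ) •
        ((1 - alp g (b l.1)) ⊗ₖ (pj (e l.2) ⊗ₖ pj (b l.1))) = 1 + swapK g k := by
      rw [Fintype.sum_prod_type, ← sw_sum h]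
      refine Finset.sum_congr rfl fun l _ => ?_
      rw [← sum_left h', Finset.smul_sum]
      refine Finset.sum_congr rfl fun x _ => ?_
      rw [smul_smul, alp, sub_sub_cancel, Complex.ofReal_mul]
    rw [e1]
    have e2 : (2 : ℂ) • (1 : Matrix ((Fin g × Fin k) × (Fin g × Fin k)) _ ℂ) - (1 + swapK g k) =
        1 - swapK g k := by
      rw [two_smul]
      abel
    rw [e2]
    exact one_sub_swapK
  · ext ⟨c, j⟩ ⟨c', j'⟩
    rw [Matrix.sum_apply, Fintype.sum_prod_type]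
    simp only [Matrix.smul_apply, smul_eq_mul, kroneckerMap_apply, one_apply, Prod.mk.injEq]
    have e1 : ∀ l x, ((ν l * (μ x / (g + 1)) : ℝ) : ℂ) * (pj (e x) c c' * pj (b l) j j') =
        ((ν l : ℂ) * pj (b l) j j' / (g + 1)) * ((μ x : ℂ) * pj (e x) c c') := by
      intro l x
      push_cast
      ring
    simp only [e1]
    have hgc : ((g : ℂ) + 1) ≠ 0 := by exact_mod_cast Nat.succ_ne_zero g
    have e2 : ∀ l, ∑ x, ((ν l : ℂ) * pj (b l) j j' / (g + 1)) * ((μ x : ℂ) * pj (e x) c c') =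
        (if c = c' then 1 else 0) * ((ν l : ℂ) * pj (b l) j j') := by
      intro l
      rw [← Finset.mul_sum, h'.entries1]
      by_cases hc : c = c'
      · simp only [hc, if_true]
        field_simp
      · simp [hc]
    simp only [e2]
    rw [← Finset.mul_sum, h.entries1]
    by_cases hc : c = c' <;> by_cases hj : j = j' <;> simp [hc, hj]

theorem base_sum (h : IsDes ν b) (h' : IsDes μ e) :
    ∑ l : Lk × Lg, ((ν l.1 * (μ l.2 / (g + 1)) : ℝ) : ℂ) •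
      (alp g (b l.1) ⊗ₖ (pj (e l.2) ⊗ₖ pj (b l.1))) = base g k := by
  have hL := lay (g := g) h h'
  have e1 : ∑ l : Lk × Lg, ((ν l.1 * (μ l.2 / (g + 1)) : ℝ) : ℂ) •
      ((1 - alp g (b l.1)) ⊗ₖ (pj (e l.2) ⊗ₖ pj (b l.1))) = 1 + swapK g k := by
    rw [Fintype.sum_prod_type, ← sw_sum h]
    refine Finset.sum_congr rfl fun l _ => ?_
    rw [← sum_left h', Finset.smul_sum]
    refine Finset.sum_congr rfl fun x _ => ?_
    rw [smul_smul, alp, sub_sub_cancel, Complex.ofReal_mul]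
  have e2 : ∑ l : Lk × Lg, ((ν l.1 * (μ l.2 / (g + 1)) : ℝ) : ℂ) •
      ((1 : Matrix (Fin g × Fin k) (Fin g × Fin k) ℂ) ⊗ₖ (pj (e l.2) ⊗ₖ pj (b l.1))) =
      ((k + 1 : ℝ) : ℂ) • 1 := by
    have h1 := congrArg (fun Z => (1 : Matrix (Fin g × Fin k) (Fin g × Fin k) ℂ) ⊗ₖ Z) hL.one
    beta_reduce at h1
    rw [kron_sum_right, kronecker_smul, one_kronecker_one] at h1
    rw [← h1]
    refine Finset.sum_congr rfl fun l _ => ?_
    rw [kronecker_smul]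
  have e3 : ∀ l : Lk × Lg, ((ν l.1 * (μ l.2 / (g + 1)) : ℝ) : ℂ) •
      (alp g (b l.1) ⊗ₖ (pj (e l.2) ⊗ₖ pj (b l.1))) =
      ((ν l.1 * (μ l.2 / (g + 1)) : ℝ) : ℂ) •
      ((1 : Matrix (Fin g × Fin k) (Fin g × Fin k) ℂ) ⊗ₖ (pj (e l.2) ⊗ₖ pj (b l.1))) -
      ((ν l.1 * (μ l.2 / (g + 1)) : ℝ) : ℂ) •
      ((1 - alp g (b l.1)) ⊗ₖ (pj (e l.2) ⊗ₖ pj (b l.1))) := by
    intro l
    ext p q
    simp only [Matrix.smul_apply, Matrix.sub_apply, kroneckerMap_apply, smul_eq_mul]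
    ring
  simp only [e3]
  rw [Finset.sum_sub_distrib, e1, e2, base]
  push_cast
  rw [add_smul, one_smul]
  abel

/-- The operator `tr_B [W (1 ⊗ T)]`. -/
def tb {X Y : Type} [Fintype X] [Fintype Y] (T : Matrix Y Y ℂ)
    (W : Matrix (X × Y) (X × Y) ℂ) : Matrix X X ℂ :=
  pa T (W.submatrix Prod.swap Prod.swap)

/-- The dual label operator. -/
noncomputable def du (g k : ℕ) (u : Fin g → ℂ) (v : Fin k → ℂ) :
    Matrix (Fin g × Fin k) (Fin g × Fin k) ℂ :=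
  (pj u - ((1 / (g + 1) : ℝ) : ℂ) • 1) ⊗ₖ (pj v - ((1 / (k + 1) : ℝ) : ℂ) • 1)

theorem IsDes.dual {d : ℕ} {L : Type} [Fintype L] {ν : L → ℝ} {b : L → Fin d → ℂ}
    (h : IsDes ν b) (s s' t t' : Fin d) :
    ∑ l, (ν l : ℂ) * ((pj (b l) - ((1 / (d + 1) : ℝ) : ℂ) • (1 : Matrix (Fin d) (Fin d) ℂ)) s s' *
      pj (b l) t t') = if s = t' ∧ t = s' then 1 else 0 := by
  have hd : ((d : ℂ) + 1) ≠ 0 := by exact_mod_cast Nat.succ_ne_zero d
  have e1 : ∀ l, (ν l : ℂ) * ((pj (b l) - ((1 / (d + 1) : ℝ) : ℂ) •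
      (1 : Matrix (Fin d) (Fin d) ℂ)) s s' * pj (b l) t t') =
      (ν l : ℂ) * (pj (b l) s s' * pj (b l) t t') -
      (if s = s' then 1 / ((d : ℂ) + 1) else 0) * ((ν l : ℂ) * pj (b l) t t') := by
    intro l
    rw [Matrix.sub_apply, Matrix.smul_apply, one_apply, smul_eq_mul]
    push_cast
    by_cases hs : s = s' <;> simp [hs] <;> ring
  simp only [e1]
  rw [Finset.sum_sub_distrib, h.entries, ← Finset.mul_sum, h.entries1]
  by_cases hs : s = s' <;> by_cases ht : t = t' <;> simp [hs, ht]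
  field_simp
  ring

theorem Bd.mono {X : Type} [Fintype X] [DecidableEq X] {Z : Matrix X X ℂ} {a b : ℝ} (h : Bd Z a)
    (hab : a ≤ b) : Bd Z b := by
  have h1 : (((b - a : ℝ) : ℂ) • (1 : Matrix X X ℂ)).PosSemidef :=
    PosSemidef.one.smul (Complex.zero_le_real.mpr (sub_nonneg.mpr hab))
  refine ⟨?_, ?_⟩
  · convert h.1.add h1 using 1
    push_cast
    module
  · convert h.2.add h1 using 1
    push_cast
    module

theorem Bd.smul {X : Type} [Fintype X] [DecidableEq X] {Z : Matrix X X ℂ} {a c : ℝ} (h : Bd Z a)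
    (hc : 0 ≤ c) : Bd ((c : ℂ) • Z) (c * a) := by
  refine ⟨?_, ?_⟩
  · convert h.1.smul (Complex.zero_le_real.mpr hc) using 1
    push_cast
    module
  · convert h.2.smul (Complex.zero_le_real.mpr hc) using 1
    push_cast
    module

theorem tb_sub_one {X Y : Type} [Fintype X] [DecidableEq X] [Fintype Y] [DecidableEq Y]
    {T : Matrix Y Y ℂ} (hT : T.PosSemidef) {t : ℝ} (ht : T.trace = (t : ℂ))
    {W : Matrix (X × Y) (X × Y) ℂ} {a : ℝ} (h : Bd W a) : Bd (tb T W) (a * t) := by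
  have hs : Function.Injective (Prod.swap : Y × X → X × Y) := Prod.swap_injective
  have h' := h.subm hs
  have e1 : pa T ((a : ℂ) • 1) = (((a * t : ℝ)) : ℂ) • (1 : Matrix X X ℂ) := by
    rw [pa_smul_one, ht, Complex.ofReal_mul]
  refine ⟨?_, ?_⟩
  · have h1 := pa_psd hT h'.1
    rwa [pa_sub, e1] at h1
  · have h1 := pa_psd hT h'.2
    rwa [pa_add, e1] at h1

theorem pa_sub_left {X Y : Type} [Fintype X] [DecidableEq X] [Fintype Y] [DecidableEq Y]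
    (T T' : Matrix Y Y ℂ) (Z : Matrix (Y × X) (Y × X) ℂ) : pa (T - T') Z = pa T Z - pa T' Z := by
  ext b b'
  simp only [pa, Matrix.sub_apply, sub_mul, Finset.sum_sub_distrib]

theorem Bd.neg {X : Type} [Fintype X] [DecidableEq X] {Z : Matrix X X ℂ} {a : ℝ} (h : Bd Z a) :
    Bd (-Z) a := by
  refine ⟨?_, ?_⟩
  · rw [sub_neg_eq_add]
    exact h.2
  · rw [← sub_eq_add_neg]
    exact h.1

theorem du_bd {u : Fin g → ℂ} {v : Fin k → ℂ} (hu : star u ⬝ᵥ u = 1) (hv : star v ⬝ᵥ v = 1)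
    {W : Matrix ((Fin g × Fin k) × (Fin g × Fin k)) ((Fin g × Fin k) × (Fin g × Fin k)) ℂ}
    {a : ℝ} (ha : 0 ≤ a) (h : Bd W a) : Bd (tb (du g k u v) W) (4 * a) := by
  obtain ⟨x, hx⟩ : ∃ x : ℝ, x = 1 / (g + 1) := ⟨_, rfl⟩
  obtain ⟨y, hy⟩ : ∃ y : ℝ, y = 1 / (k + 1) := ⟨_, rfl⟩
  have hx0 : 0 ≤ x := by rw [hx]; positivity
  have hy0 : 0 ≤ y := by rw [hy]; positivity
  have hxg : x * g ≤ 1 := by
    rw [hx, one_div, inv_mul_le_iff₀ (by positivity)]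
    linarith
  have hyk : y * k ≤ 1 := by
    rw [hy, one_div, inv_mul_le_iff₀ (by positivity)]
    linarith
  have hg0 : (0 : ℝ) ≤ g := Nat.cast_nonneg g
  have hk0 : (0 : ℝ) ≤ k := Nat.cast_nonneg k
  have e1 : du g k u v = (pj u ⊗ₖ pj v + ((x * y : ℝ) : ℂ) • 1) -
      ((y : ℂ) • (pj u ⊗ₖ 1) + (x : ℂ) • (1 ⊗ₖ pj v)) := by
    rw [du, ← hx, ← hy]
    ext ⟨a, i⟩ ⟨a', i'⟩
    rw [← one_kronecker_one]
    simp only [kroneckerMap_apply, Matrix.sub_apply, Matrix.add_apply, Matrix.smul_apply,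
      smul_eq_mul]
    push_cast
    ring
  have p1 : (pj u ⊗ₖ pj v + ((x * y : ℝ) : ℂ) •
      (1 : Matrix (Fin g × Fin k) (Fin g × Fin k) ℂ)).PosSemidef :=
    ((pj_psd u).kronecker (pj_psd v)).add
      (PosSemidef.one.smul (Complex.zero_le_real.mpr (mul_nonneg hx0 hy0)))
  have p2 : ((y : ℂ) • (pj u ⊗ₖ (1 : Matrix (Fin k) (Fin k) ℂ)) +
      (x : ℂ) • ((1 : Matrix (Fin g) (Fin g) ℂ) ⊗ₖ pj v)).PosSemidef :=
    (((pj_psd u).kronecker PosSemidef.one).smul (Complex.zero_le_real.mpr hy0)).add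
      ((PosSemidef.one.kronecker (pj_psd v)).smul (Complex.zero_le_real.mpr hx0))
  have t1 : (pj u ⊗ₖ pj v + ((x * y : ℝ) : ℂ) •
      (1 : Matrix (Fin g × Fin k) (Fin g × Fin k) ℂ)).trace = ((1 + x * y * (g * k) : ℝ) : ℂ) := by
    rw [trace_add, trace_kronecker, pj_trace, pj_trace, hu, hv, trace_smul, trace_one,
      Fintype.card_prod, Fintype.card_fin, Fintype.card_fin, smul_eq_mul]
    push_cast
    ring
  have t2 : ((y : ℂ) • (pj u ⊗ₖ (1 : Matrix (Fin k) (Fin k) ℂ)) +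
      (x : ℂ) • ((1 : Matrix (Fin g) (Fin g) ℂ) ⊗ₖ pj v)).trace = ((y * k + x * g : ℝ) : ℂ) := by
    rw [trace_add, trace_smul, trace_smul, trace_kronecker, trace_kronecker, pj_trace, pj_trace,
      hu, hv, trace_one, trace_one, Fintype.card_fin, Fintype.card_fin, smul_eq_mul, smul_eq_mul]
    push_cast
    ring
  have b1 := tb_sub_one p1 t1 h
  have b2 := (tb_sub_one p2 t2 h).neg
  have b3 := b1.add b2
  have e2 : tb (du g k u v) W = tb (pj u ⊗ₖ pj v + ((x * y : ℝ) : ℂ) • 1) W +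
      -tb ((y : ℂ) • (pj u ⊗ₖ 1) + (x : ℂ) • (1 ⊗ₖ pj v)) W := by
    rw [← sub_eq_add_neg, tb, tb, tb, ← pa_sub_left, e1]
  rw [e2]
  refine b3.mono ?_
  have h1 : x * y * (g * k) = (x * g) * (y * k) := by ring
  have h2 : (x * g) * (y * k) ≤ 1 * 1 :=
    mul_le_mul hxg hyk (mul_nonneg hy0 hk0) (by norm_num)
  rw [← mul_add, mul_comm 4 a]
  refine mul_le_mul_of_nonneg_left ?_ ha
  rw [h1]
  linarith

theorem pert_sum (h : IsDes ν b) (h' : IsDes μ e)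
    (W : Matrix ((Fin g × Fin k) × (Fin g × Fin k)) ((Fin g × Fin k) × (Fin g × Fin k)) ℂ) :
    ∑ l : Lk × Lg, ((ν l.1 * μ l.2 : ℝ) : ℂ) •
      (tb (du g k (e l.2) (b l.1)) W ⊗ₖ (pj (e l.2) ⊗ₖ pj (b l.1))) = W := by
  ext ⟨x, ⟨c, j⟩⟩ ⟨x', ⟨c', j'⟩⟩
  rw [Matrix.sum_apply]
  simp only [Matrix.smul_apply, smul_eq_mul, kroneckerMap_apply, tb, pa, submatrix_apply,
    Prod.swap_prod_mk, Finset.mul_sum, Finset.sum_mul]
  rw [Finset.sum_comm]
  have e1 : ∀ y : Fin g × Fin k, ∑ l : Lk × Lg, ∑ y' : Fin g × Fin k,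
      ((ν l.1 * μ l.2 : ℝ) : ℂ) * (du g k (e l.2) (b l.1) y y' * W (x, y') (x', y) *
        (pj (e l.2) c c' * pj (b l.1) j j')) =
      ∑ y' : Fin g × Fin k, W (x, y') (x', y) *
        ((if y.2 = j' ∧ j = y'.2 then 1 else 0) * (if y.1 = c' ∧ c = y'.1 then 1 else 0)) := by
    intro y
    rw [Finset.sum_comm]
    refine Finset.sum_congr rfl fun y' _ => ?_
    rw [← h.dual y.2 y'.2 j j', ← h'.dual y.1 y'.1 c c', Finset.sum_mul_sum, Finset.mul_sum,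
      Fintype.sum_prod_type]
    refine Finset.sum_congr rfl fun l _ => ?_
    rw [Finset.mul_sum]
    refine Finset.sum_congr rfl fun l' _ => ?_
    simp only [du, kroneckerMap_apply]
    push_cast
    ring
  simp only [e1]
  rw [Finset.sum_eq_single (c', j'), Finset.sum_eq_single (c, j)]
  · simp
  · rintro ⟨c₁, j₁⟩ _ hne
    have : ¬ ((j' = j' ∧ j = j₁) ∧ (c' = c' ∧ c = c₁)) := by
      rintro ⟨⟨-, h1⟩, ⟨-, h2⟩⟩
      exact hne (by rw [h1, h2])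
    by_cases h1 : j = j₁ <;> by_cases h2 : c = c₁ <;> simp_all
  · simp
  · rintro ⟨c₁, j₁⟩ _ hne
    refine Finset.sum_eq_zero fun y' _ => ?_
    have : ¬ (j₁ = j' ∧ c₁ = c') := by
      rintro ⟨h1, h2⟩
      exact hne (by rw [h1, h2])
    by_cases h1 : j₁ = j' <;> by_cases h2 : c₁ = c' <;> simp_all
  · simp

end Ou

end Vale.Agent.P372
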