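import Vale.Agent.P372.R2.helper492.Ou.Chain
import Vale.Agent.P372.R2.helper492.Sites

/-! Blocks of copies: lifting the labels, perturbations. -/

open Matrix Kronecker
open scoped ComplexOrder MatrixOrder

set_option linter.unusedSectionVars false

namespace Vale.Agent.P372.Ou

open Vale.Agent.P372.Half (tf)
open Vale.Agent.P372.PC (IsPr at1 tf_apply tf_kron)

section lift

variable {X Y : Type} [Fintype X] [DecidableEq X] [Fintype Y] [DecidableEq Y] {N : ℕ}

theorem at1_apply (i : Fin N) (v : Matrix X X ℂ) (p q : Fin N → X) :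
    at1 i v p q = v (p i) (q i) * ∏ j ∈ Finset.univ.erase i, (1 : Matrix X X ℂ) (p j) (q j) := by
  rw [at1, piT_apply, ← Finset.mul_prod_erase _ _ (Finset.mem_univ i), if_pos rfl]
  congr 1
  refine Finset.prod_congr rfl fun j hj => ?_
  rw [if_neg (Finset.ne_of_mem_erase hj)]

theorem at1_one (i : Fin N) : at1 i (1 : Matrix X X ℂ) = 1 := by
  rw [← piT_one, at1]
  congr 1
  funext j
  split_ifs <;> rfl

theorem at1_mul (i : Fin N) (u v : Matrix X X ℂ) : at1 i u * at1 i v = at1 i (u * v) := by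
  rw [at1, at1, at1, ← piT_mul]
  congr 1
  funext j
  split_ifs <;> simp

theorem at1_conj (i : Fin N) (u : Matrix X X ℂ) : (at1 i u)ᴴ = at1 i uᴴ := by
  rw [at1, at1, piT_conjTranspose]
  congr 1
  funext j
  split_ifs <;> simp

theorem at1_pr (i : Fin N) {u : Matrix X X ℂ} (h : IsPr u) : IsPr (at1 i u) := by
  refine ⟨?_, ?_⟩
  · rw [at1_conj, h.1]
  · rw [at1_mul, h.2]

theorem at1_comm {i j : Fin N} (hij : i ≠ j) (u v : Matrix X X ℂ) :
    at1 i u * at1 j v = at1 j v * at1 i u := by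
  rw [at1, at1, ← piT_mul, ← piT_mul]
  congr 1
  funext k
  by_cases h1 : k = i
  · have h2 : k ≠ j := fun e => hij (h1.symm.trans e)
    rw [if_pos h1, if_neg h2, mul_one, one_mul]
  · rw [if_neg h1, one_mul, mul_one]

theorem at1_sub (i : Fin N) (u v : Matrix X X ℂ) : at1 i (u - v) = at1 i u - at1 i v := by
  ext p q
  rw [Matrix.sub_apply, at1_apply, at1_apply, at1_apply, Matrix.sub_apply, sub_mul]

theorem at1_smul (i : Fin N) (c : ℂ) (u : Matrix X X ℂ) : at1 i (c • u) = c • at1 i u := by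
  ext p q
  rw [Matrix.smul_apply, at1_apply, at1_apply, Matrix.smul_apply, smul_eq_mul, smul_eq_mul,
    mul_assoc]

theorem at1_sum {L : Type} (s : Finset L) (i : Fin N) (u : L → Matrix X X ℂ) :
    at1 i (∑ l ∈ s, u l) = ∑ l ∈ s, at1 i (u l) := by
  ext p q
  rw [at1_apply, Matrix.sum_apply, Matrix.sum_apply, Finset.sum_mul]
  exact Finset.sum_congr rfl fun l _ => (at1_apply _ _ _ _).symm

/-- The operator `Z` on the copy `i` of both parties. -/
def at2 (i : Fin N) (Z : Matrix (X × Y) (X × Y) ℂ) :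
    Matrix ((Fin N → X) × (Fin N → Y)) ((Fin N → X) × (Fin N → Y)) ℂ :=
  tf (fun j => if j = i then Z else 1)

theorem at2_apply (i : Fin N) (Z : Matrix (X × Y) (X × Y) ℂ) (p q : (Fin N → X) × (Fin N → Y)) :
    at2 i Z p q = Z (p.1 i, p.2 i) (q.1 i, q.2 i) * ∏ j ∈ Finset.univ.erase i,
      (1 : Matrix (X × Y) (X × Y) ℂ) (p.1 j, p.2 j) (q.1 j, q.2 j) := by
  rw [at2, tf_apply, ← Finset.mul_prod_erase _ _ (Finset.mem_univ i), if_pos rfl]
  congr 1
  refine Finset.prod_congr rfl fun j hj => ?_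
  rw [if_neg (Finset.ne_of_mem_erase hj)]

theorem at2_kron (i : Fin N) (u : Matrix X X ℂ) (v : Matrix Y Y ℂ) :
    at2 i (u ⊗ₖ v) = at1 i u ⊗ₖ at1 i v := by
  rw [at2, at1, at1, ← tf_kron]
  congr 1
  funext j
  split_ifs
  · rfl
  · rw [one_kronecker_one]

theorem at2_one (i : Fin N) : at2 i (1 : Matrix (X × Y) (X × Y) ℂ) = 1 := by
  rw [← one_kronecker_one, at2_kron, at1_one, at1_one, one_kronecker_one]

theorem at2_sub (i : Fin N) (u v : Matrix (X × Y) (X × Y) ℂ) :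
    at2 i (u - v) = at2 i u - at2 i v := by
  ext p q
  rw [Matrix.sub_apply, at2_apply, at2_apply, at2_apply, Matrix.sub_apply, sub_mul]

theorem at2_smul (i : Fin N) (c : ℂ) (u : Matrix (X × Y) (X × Y) ℂ) :
    at2 i (c • u) = c • at2 i u := by
  ext p q
  rw [Matrix.smul_apply, at2_apply, at2_apply, Matrix.smul_apply, smul_eq_mul, smul_eq_mul,
    mul_assoc]

theorem at2_sum {L : Type} (s : Finset L) (i : Fin N) (u : L → Matrix (X × Y) (X × Y) ℂ) :
    at2 i (∑ l ∈ s, u l) = ∑ l ∈ s, at2 i (u l) := by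
  ext p q
  rw [at2_apply, Matrix.sum_apply, Matrix.sum_apply, Finset.sum_mul]
  exact Finset.sum_congr rfl fun l _ => (at2_apply _ _ _ _).symm

theorem at2_psd (i : Fin N) {Z : Matrix (X × Y) (X × Y) ℂ} (h : Z.PosSemidef) :
    (at2 i Z).PosSemidef := by
  rw [at2]
  refine PC.tf_posSemidef fun j => ?_
  split_ifs
  · exact h
  · exact PosSemidef.one

variable {L : Type} [Fintype L] [DecidableEq L]

theorem Lay.lift {α : L → Matrix X X ℂ} {c : L → Matrix Y Y ℂ} {ν : L → ℝ} {κ : ℝ}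
    (h : Lay α c ν κ) (i : Fin N) : Lay (fun l => at1 i (α l)) (fun l => at1 i (c l)) ν κ := by
  refine ⟨fun l => at1_pr i (h.pr l), fun l => at1_pr i (h.pc l), h.nn, ?_, ?_⟩
  · have e : (2 : ℂ) • 1 - ∑ l, (ν l : ℂ) • ((1 - at1 i (α l)) ⊗ₖ at1 i (c l)) =
        at2 i ((2 : ℂ) • 1 - ∑ l, (ν l : ℂ) • ((1 - α l) ⊗ₖ c l)) := by
      rw [at2_sub, at2_smul, at2_one, at2_sum]
      congr 1
      refine Finset.sum_congr rfl fun l _ => ?_
      rw [at2_smul, at2_kron, at1_sub, at1_one]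
    rw [e]
    exact at2_psd i h.two
  · rw [← at1_one i, ← at1_smul, ← h.one, at1_sum]
    exact Finset.sum_congr rfl fun l _ => (at1_smul _ _ _).symm

theorem apr_one {E : Type} [Fintype E] [DecidableEq E] :
    ∀ n : ℕ, Apr n (fun _ => (1 : Matrix E E ℂ)) = 1 := by
  intro n
  induction n with
  | zero => rfl
  | succ n ih => rw [Apr, ih, one_mul]

theorem apr_single {E : Type} [Fintype E] [DecidableEq E] :
    ∀ (n : ℕ) (i : Fin n) (M : Fin n → Matrix E E ℂ),
      Apr n (fun j => if i = j then M j else 1) = M i := by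
  intro n
  induction n with
  | zero => intro i; exact i.elim0
  | succ n ih =>
    intro i M
    rw [Apr]
    refine Fin.cases ?_ (fun i => ?_) i
    · rw [if_pos rfl]
      have : (fun j : Fin n => if (0 : Fin (n + 1)) = j.succ then M j.succ else 1) =
          fun _ => 1 := by
        funext j
        rw [if_neg (Fin.succ_ne_zero j).symm]
      rw [this, apr_one, mul_one]
    · rw [if_neg (Fin.succ_ne_zero i), one_mul]
      have : (fun j : Fin n => if i.succ = j.succ then M j.succ else 1) =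
          fun j => if i = j then M j.succ else 1 := by
        funext j
        simp only [Fin.succ_inj]
      rw [this, ih i fun j => M j.succ]

theorem apr_piT {ι E : Type} [Fintype ι] [DecidableEq ι] [Fintype E] [DecidableEq E] :
    ∀ (n : ℕ) (u : Fin n → ι → Matrix E E ℂ),
      Apr n (fun j => piT (u j)) = piT (fun i => Apr n (fun j => u j i)) := by
  intro n
  induction n with
  | zero => intro u; simp only [Apr]; exact piT_one.symm
  | succ n ih =>
    intro u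
    rw [Apr, ih fun j => u j.succ, ← piT_mul]
    rfl

theorem apr_at1 (M : Fin N → Matrix X X ℂ) : Apr N (fun i => at1 i (M i)) = piT M := by
  simp only [at1]
  rw [apr_piT]
  congr 1
  funext i
  exact apr_single N i M

/-- The certificate for a block of copies. -/
theorem chainT {κ m : ℝ} (hκ : 0 ≤ κ - 2 * m - 2) {α : Fin N → L → Matrix X X ℂ}
    {c : Fin N → L → Matrix Y Y ℂ} {ν : Fin N → L → ℝ} (hl : ∀ i, Lay (α i) (c i) (ν i) κ)
    {P : Matrix (Fin N → X) (Fin N → X) ℂ} (hP : IsPr P) (hm : P.trace.re ≤ m) :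
    ∃ S : (Fin N → L) → Matrix (Fin N → X) (Fin N → X) ℂ,
      (∀ z, (piT (fun i => α i (z i)) - S z).PosSemidef) ∧ (∀ z, S z * P = 0) ∧
      (∑ z : Fin N → L, ((∏ i, ν i (z i) : ℝ) : ℂ) • (S z ⊗ₖ piT (fun i => c i (z i))) -
        (((κ - 2 * m - 2) ^ N : ℝ) : ℂ) • ((1 - P) ⊗ₖ 1)).PosSemidef := by
  obtain ⟨S, h1, h2, h3⟩ := chain hκ N (fun i l => at1 i (α i l)) (fun i l => at1 i (c i l)) ν
    (fun i => (hl i).lift i) (fun i j hij l l' => at1_comm hij _ _)
    (fun i j hij l l' => at1_comm hij _ _) hP hm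
  simp only [apr_at1] at h1 h3
  exact ⟨S, h1, h2, h3⟩

end lift

section pert

variable {X : Type} [Fintype X] [DecidableEq X]

theorem pert {A A' P S : Matrix X X ℂ} (hA : IsPr A) (hP : IsPr P) {r ε : ℝ} (hr : 0 < r)
    (hε : 0 ≤ ε) (h1 : (A' - A + (ε : ℂ) • 1).PosSemidef)
    (h2 : (P * A * P - (r : ℂ) • P).PosSemidef) (h3 : (A - S).PosSemidef)
    (hδ : 2 * ε / r ≤ 1) :
    (A' - (((1 - 2 * ε / r : ℝ) : ℂ) • S - ((2 * ε / r + ε : ℝ) : ℂ) • (1 - P))).PosSemidef := by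
  obtain ⟨δ, hδ'⟩ : ∃ δ, δ = 2 * ε / r := ⟨_, rfl⟩
  rw [← hδ'] at hδ ⊢
  have hδ0 : 0 ≤ δ := by rw [hδ']; positivity
  have hδr : δ * r = 2 * ε := by rw [hδ']; field_simp
  obtain ⟨Q, hQ⟩ : ∃ Q, Q = 1 - P := ⟨_, rfl⟩
  have hQp : IsPr Q := hQ ▸ hP.compl
  have hPQ : P + Q = 1 := by rw [hQ]; abel
  have k1 : ((P + (2 : ℂ) • Q) * A * (P + (2 : ℂ) • Q)).PosSemidef := by
    have h := hA.psd.mul_mul_conjTranspose_same (P + (2 : ℂ) • Q)
    rwa [conjTranspose_add, conjTranspose_smul, hP.1, hQp.1,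
      show star (2 : ℂ) = 2 by simp] at h
  have k2 : (Q * (1 - A) * Q).PosSemidef := by
    have h := hA.compl.psd.mul_mul_conjTranspose_same Q
    rwa [hQp.1] at h
  have e : A' - (((1 - δ : ℝ) : ℂ) • S - ((δ + ε : ℝ) : ℂ) • Q) =
      (A' - A + (ε : ℂ) • 1) + ((1 - δ : ℝ) : ℂ) • (A - S) +
      ((δ / 2 : ℝ) : ℂ) • ((P + (2 : ℂ) • Q) * A * (P + (2 : ℂ) • Q)) +
      ((δ / 2 : ℝ) : ℂ) • (P * A * P - (r : ℂ) • P) + (δ : ℂ) • (Q * (1 - A) * Q) := by
    have e1 : (P + (2 : ℂ) • Q) * A * (P + (2 : ℂ) • Q) =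
        P * A * P + (2 : ℂ) • (P * A * Q) + (2 : ℂ) • (Q * A * P) + (4 : ℂ) • (Q * A * Q) := by
      simp only [Matrix.add_mul, Matrix.mul_add, Matrix.smul_mul, Matrix.mul_smul]
      module
    have e2 : Q * (1 - A) * Q = Q - Q * A * Q := by
      rw [Matrix.mul_sub, mul_one, Matrix.sub_mul, hQp.2]
    have e3 : A = P * A * P + P * A * Q + Q * A * P + Q * A * Q := by
      calc A = (P + Q) * A * (P + Q) := by rw [hPQ, one_mul, mul_one]
        _ = _ := by
          simp only [Matrix.add_mul, Matrix.mul_add]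
          abel
    have e4 : ((δ / 2 : ℝ) : ℂ) • ((r : ℂ) • P) = (ε : ℂ) • P := by
      rw [smul_smul, ← Complex.ofReal_mul]
      congr 2
      linarith
    have e5 : (1 : Matrix X X ℂ) = P + Q := hPQ.symm
    rw [e1, e2, smul_sub (((δ / 2 : ℝ) : ℂ)) (P * A * P), e4, e5]
    obtain ⟨U, hU⟩ : ∃ U, U = P * A * P := ⟨_, rfl⟩
    obtain ⟨V, hV⟩ : ∃ V, V = P * A * Q := ⟨_, rfl⟩
    obtain ⟨W, hW⟩ : ∃ W, W = Q * A * P := ⟨_, rfl⟩
    obtain ⟨Z, hZ⟩ : ∃ Z, Z = Q * A * Q := ⟨_, rfl⟩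
    rw [← hU, ← hV, ← hW, ← hZ] at e3 ⊢
    rw [e3]
    push_cast
    module
  rw [← hQ, e]
  exact ((((h1.add (h3.smul (Complex.zero_le_real.mpr (by linarith)))).add
    (k1.smul (Complex.zero_le_real.mpr (by linarith)))).add
    (h2.smul (Complex.zero_le_real.mpr (by linarith)))).add
    (k2.smul (Complex.zero_le_real.mpr hδ0)))

end pert

end Vale.Agent.P372.Ou
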