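import Vale.Agent.P372.R2.helper492.Ou.Cert2
import Vale.Agent.P372.R2.helper492.NearSites

/-! The certificate for many copies. -/

open Matrix Kronecker
open scoped ComplexOrder MatrixOrder

set_option linter.unusedSectionVars false

namespace Vale.Agent.P372.Ou

open Vale.Agent.P372.Half (tf)
open Vale.Agent.P372.PC (IsPr kron_sw tf_apply tf_kron tf_sum)

theorem sum_entries_nonneg {W : Type} [Fintype W] [DecidableEq W] {N : Matrix W W ℂ}
    (hN : N.PosSemidef) : 0 ≤ (∑ w, ∑ w', N w w').re := by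
  have h := hN.dotProduct_mulVec_nonneg (fun _ => 1)
  have h2 : star (fun _ : W => (1 : ℂ)) ⬝ᵥ (N *ᵥ fun _ => 1) = ∑ w, ∑ w', N w w' := by
    simp [dotProduct, mulVec]
  rw [h2] at h
  exact (Complex.le_def.mp h).1

theorem sum_four {W X : Type} [Fintype W] [Fintype X] (F : W × X → W × X → ℂ) :
    ∑ w, ∑ w', F w w' = ∑ z, ∑ z', ∑ p, ∑ q, F (z, p) (z', q) := by
  rw [Fintype.sum_prod_type]
  refine Finset.sum_congr rfl fun z _ => ?_
  rw [Finset.sum_comm]
  rw [Fintype.sum_prod_type]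
  refine Finset.sum_congr rfl fun z' _ => ?_
  rw [Finset.sum_comm]

variable {ι : Type} [Fintype ι] [DecidableEq ι]
variable {A B : Type} [Fintype A] [DecidableEq A] [Fintype B] [DecidableEq B]
variable {L : Type} [Fintype L] [DecidableEq L]

theorem contr {σ K : ι → L → Matrix (A × B) (A × B) ℂ} {T : ι → Matrix (A × B) (A × B) ℂ}
    (hC : ∀ i, Ct (σ i) (K i) (T i))
    {G : Matrix ((ι → A) × (ι → B)) ((ι → A) × (ι → B)) ℂ} (hG : G.PosSemidef)
    (hGT : tf T * G * tf T = G) (c : (ι → L) → ℝ) :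
    ∑ z, ∑ z', c z * c z' * (G * (tf (fun i => σ i (z i)) * tf (fun i => K i (z' i)))).trace.re ≤
      ∑ z, c z ^ 2 * (G * tf (fun i => σ i (z i))).trace.re := by
  classical
  let e : (ι → L) × ((ι → A) × (ι → B)) → (ι → L × (A × B)) :=
    fun w i => (w.1 i, (w.2.1 i, w.2.2 i))
  have hN : ((piT (fun i => Dm (σ i) (T i)) - piT (fun i => Hm (σ i) (K i) (T i))).submatrix
      e e).PosSemidef :=
    (Near.piT_sub_piT_posSemidef (fun i => (hC i).1) fun i => (hC i).2).submatrix e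
  have hG' : (Gᵀ.submatrix (fun w : (ι → L) × ((ι → A) × (ι → B)) => w.2)
      (fun w => w.2)).PosSemidef := hG.transpose.submatrix _
  have hc : (vecMulVec (fun w : (ι → L) × ((ι → A) × (ι → B)) => (c w.1 : ℂ))
      (star fun w : (ι → L) × ((ι → A) × (ι → B)) => (c w.1 : ℂ))).PosSemidef :=
    posSemidef_vecMulVec_self_star _
  have hall := sum_entries_nonneg ((hN.hadamard hG').hadamard hc)
  have hentry : ∀ w w' : (ι → L) × ((ι → A) × (ι → B)),
      ((((piT (fun i => Dm (σ i) (T i)) - piT (fun i => Hm (σ i) (K i) (T i))).submatrix e e) ⊙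
        (Gᵀ.submatrix (fun w : (ι → L) × ((ι → A) × (ι → B)) => w.2) (fun w => w.2))) ⊙
        (vecMulVec (fun w : (ι → L) × ((ι → A) × (ι → B)) => (c w.1 : ℂ))
          (star fun w : (ι → L) × ((ι → A) × (ι → B)) => (c w.1 : ℂ)))) w w' =
      (c w.1 * c w'.1 : ℝ) * (G w'.2 w.2 *
        ((if w.1 = w'.1 then (tf T * tf (fun i => σ i (w.1 i)) * tf T) w.2 w'.2 else 0) -
          (tf T * (tf (fun i => σ i (w.1 i)) * tf (fun i => K i (w'.1 i))) * tf T) w.2 w'.2)) := by
    rintro ⟨z, p⟩ ⟨z', p'⟩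
    simp only [hadamard_apply, submatrix_apply, Matrix.sub_apply, transpose_apply,
      vecMulVec_apply, Pi.star_apply, e]
    have hst : star (c z' : ℂ) = (c z' : ℂ) := by simp
    have h1 : piT (fun i => Dm (σ i) (T i)) (fun i => (z i, (p.1 i, p.2 i)))
        (fun i => (z' i, (p'.1 i, p'.2 i))) =
        if z = z' then (tf T * tf (fun i => σ i (z i)) * tf T) p p' else 0 := by
      rw [piT_apply]
      by_cases hz : z = z'
      · subst hz
        rw [if_pos rfl, Half.tf_mul, Half.tf_mul, tf_apply]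
        refine Finset.prod_congr rfl fun i _ => ?_
        rw [Dm, if_pos rfl]
      · rw [if_neg hz]
        obtain ⟨i, hi⟩ := Function.ne_iff.mp hz
        refine Finset.prod_eq_zero (Finset.mem_univ i) ?_
        rw [Dm, if_neg hi]
    have h2 : piT (fun i => Hm (σ i) (K i) (T i)) (fun i => (z i, (p.1 i, p.2 i)))
        (fun i => (z' i, (p'.1 i, p'.2 i))) =
        (tf T * (tf (fun i => σ i (z i)) * tf (fun i => K i (z' i))) * tf T) p p' := by
      rw [piT_apply, Half.tf_mul, Half.tf_mul, Half.tf_mul, tf_apply]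
      rfl
    rw [hst, h1, h2]
    push_cast
    ring
  simp only [hentry] at hall
  rw [sum_four] at hall
  have htr : ∀ M : Matrix ((ι → A) × (ι → B)) ((ι → A) × (ι → B)) ℂ,
      ∑ p, ∑ q, G q p * (tf T * M * tf T) p q = (G * M).trace := by
    intro M
    have h1 : ∑ p, ∑ q, G q p * (tf T * M * tf T) p q = (G * (tf T * M * tf T)).trace := by
      simp only [Matrix.trace, Matrix.diag, Matrix.mul_apply (M := G)]
      exact Finset.sum_comm
    rw [h1]
    conv_rhs => rw [← hGT]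
    calc (G * (tf T * M * tf T)).trace = ((G * tf T * M) * tf T).trace := by
          simp only [Matrix.mul_assoc]
      _ = (tf T * (G * tf T * M)).trace := trace_mul_comm _ _
      _ = _ := by simp only [Matrix.mul_assoc]
  have e1 : ∀ z z' : ι → L, ∑ p : (ι → A) × (ι → B), ∑ q : (ι → A) × (ι → B),
      ((c z * c z' : ℝ) : ℂ) * (G q p *
        ((if z = z' then (tf T * tf (fun i => σ i (z i)) * tf T) p q else 0) -
          (tf T * (tf (fun i => σ i (z i)) * tf (fun i => K i (z' i))) * tf T) p q)) =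
      ((c z * c z' : ℝ) : ℂ) * ((if z = z' then (G * tf (fun i => σ i (z i))).trace else 0) -
        (G * (tf (fun i => σ i (z i)) * tf (fun i => K i (z' i)))).trace) := by
    intro z z'
    rw [← htr (tf (fun i => σ i (z i)) * tf (fun i => K i (z' i)))]
    have e2 : (if z = z' then (G * tf (fun i => σ i (z i))).trace else 0) =
        ∑ p, ∑ q, G q p * (if z = z' then (tf T * tf (fun i => σ i (z i)) * tf T) p q else 0) := by
      split_ifs
      · exact (htr _).symm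
      · simp
    rw [e2, ← Finset.sum_sub_distrib, Finset.mul_sum]
    refine Finset.sum_congr rfl fun p _ => ?_
    rw [← Finset.sum_sub_distrib, Finset.mul_sum]
    refine Finset.sum_congr rfl fun q _ => ?_
    rw [mul_sub]
  simp only [e1] at hall
  simp only [mul_sub, Complex.re_sum, Complex.sub_re, Finset.sum_sub_distrib,
    Complex.re_ofReal_mul] at hall
  have e3 : ∀ z : ι → L, ∑ z' : ι → L, c z * c z' * (if z = z' then
      (G * tf (fun i => σ i (z i))).trace else 0).re =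
      c z ^ 2 * (G * tf (fun i => σ i (z i))).trace.re := by
    intro z
    rw [Finset.sum_eq_single z]
    · rw [if_pos rfl]
      ring
    · intro z' _ hz
      rw [if_neg (Ne.symm hz)]
      simp
    · simp
  simp only [e3] at hall
  linarith

/-- Sums of positive operators supported on products of the ranges of the projections `p i (w i)`. -/
def Supp {E J : Type} [Fintype E] [DecidableEq E] [Fintype J] (p : ι → J → Matrix E E ℂ)
    (P : Matrix (ι → E) (ι → E) ℂ) : Prop :=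
  ∃ Z : (ι → J) → Matrix (ι → E) (ι → E) ℂ, P = ∑ w, Z w ∧ ∀ w, (Z w).PosSemidef ∧
    piT (fun i => p i (w i)) * Z w * piT (fun i => p i (w i)) = Z w

theorem Supp.add {E J : Type} [Fintype E] [DecidableEq E] [Fintype J] {p : ι → J → Matrix E E ℂ}
    {P Q : Matrix (ι → E) (ι → E) ℂ} (hP : Supp p P) (hQ : Supp p Q) : Supp p (P + Q) := by
  obtain ⟨Z, rfl, hZ⟩ := hP
  obtain ⟨Y, rfl, hY⟩ := hQ
  refine ⟨fun w => Z w + Y w, Finset.sum_add_distrib.symm, fun w => ⟨(hZ w).1.add (hY w).1, ?_⟩⟩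
  rw [Matrix.mul_add, Matrix.add_mul, (hZ w).2, (hY w).2]

theorem Supp.smul {E J : Type} [Fintype E] [DecidableEq E] [Fintype J] {p : ι → J → Matrix E E ℂ}
    {P : Matrix (ι → E) (ι → E) ℂ} (hP : Supp p P) {a : ℝ} (ha : 0 ≤ a) :
    Supp p ((a : ℂ) • P) := by
  obtain ⟨Z, rfl, hZ⟩ := hP
  refine ⟨fun w => (a : ℂ) • Z w, Finset.smul_sum, fun w =>
    ⟨(hZ w).1.smul (Complex.zero_le_real.mpr ha), ?_⟩⟩
  rw [Matrix.mul_smul, Matrix.smul_mul, (hZ w).2]

theorem Supp.tr {E J : Type} [Fintype E] [DecidableEq E] [Fintype J] {p : ι → J → Matrix E E ℂ}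
    {P : Matrix (ι → E) (ι → E) ℂ} (hP : Supp p P) {α : ι → Matrix E E ℂ}
    (hα : ∀ i j, (p i j * α i * p i j).PosSemidef) : 0 ≤ (P * piT α).trace := by
  obtain ⟨Z, rfl, hZ⟩ := hP
  rw [Matrix.sum_mul, trace_sum]
  refine Finset.sum_nonneg fun w _ => ?_
  obtain ⟨h1, h2⟩ := hZ w
  have e : (Z w * piT α).trace = (Z w * piT (fun i => p i (w i) * α i * p i (w i))).trace := by
    rw [piT_mul, piT_mul]
    conv_lhs => rw [← h2]
    calc _ = (piT (fun i => p i (w i)) * (Z w * piT (fun i => p i (w i)) * piT α)).trace := by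
          simp only [Matrix.mul_assoc]
      _ = ((Z w * piT (fun i => p i (w i)) * piT α) * piT (fun i => p i (w i))).trace :=
          trace_mul_comm _ _
      _ = _ := by simp only [Matrix.mul_assoc]
  rw [e]
  have h3 : (piT (fun i => p i (w i) * α i * p i (w i))).PosSemidef :=
    piT_posSemidef fun i => hα i (w i)
  obtain ⟨C, hC⟩ := exists_eq_conjTranspose_mul_self h3
  rw [hC, ← Matrix.mul_assoc, trace_mul_comm, ← Matrix.mul_assoc]
  exact (h1.mul_mul_conjTranspose_same C).trace_nonneg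

theorem re_nonneg {z : ℂ} (h : 0 ≤ z) : 0 ≤ z.re ∧ z = (z.re : ℂ) := by
  have := Complex.le_def.mp h
  refine ⟨this.1, ?_⟩
  apply Complex.ext
  · simp
  · simpa using this.2.symm

/-- The observable for many copies. -/
theorem so_sites {JA JB : Type} [Fintype JA] [Fintype JB] {R : Matrix (A × B) (A × B) ℂ}
    {α : ι → L → Matrix A A ℂ} {β : ι → L → Matrix B B ℂ} {K : ι → L → Matrix (A × B) (A × B) ℂ}
    {p : ι → JA → Matrix A A ℂ} {q : ι → JB → Matrix B B ℂ}
    (hαH : ∀ i l, (α i l)ᴴ = α i l) (hβH : ∀ i l, (β i l)ᴴ = β i l)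
    (hsum : ∀ i, ∑ l, α i l ⊗ₖ β i l = R) (hK : ∀ i l, R * K i l = α i l ⊗ₖ β i l)
    (hα : ∀ i l j, (p i j * α i l * p i j).PosSemidef)
    (hβ : ∀ i l j, (q i j * β i l * q i j).PosSemidef)
    (hC : ∀ i j j', Ct (fun l => α i l ⊗ₖ β i l) (K i) (p i j ⊗ₖ q i j'))
    {P₀ P₁ : Matrix (ι → A) (ι → A) ℂ} {Q₀ Q₁ : Matrix (ι → B) (ι → B) ℂ}
    (hP₀ : Supp p P₀) (hP₁ : Supp p P₁) (hQ₀ : Supp q Q₀) (hQ₁ : Supp q Q₁) :
    SO (tf fun _ : ι => R) P₀ P₁ Q₀ Q₁ := by
  classical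
  obtain ⟨σ, hσ⟩ : ∃ σ : (ι → L) → Matrix ((ι → A) × (ι → B)) ((ι → A) × (ι → B)) ℂ,
      ∀ z, σ z = tf (fun i => α i (z i) ⊗ₖ β i (z i)) := ⟨_, fun _ => rfl⟩
  obtain ⟨κ, hκ⟩ : ∃ κ : (ι → L) → Matrix ((ι → A) × (ι → B)) ((ι → A) × (ι → B)) ℂ,
      ∀ z, κ z = tf (fun i => K i (z i)) := ⟨_, fun _ => rfl⟩
  have hRσ : (tf fun _ : ι => R) = ∑ z, σ z := by
    simp only [hσ]
    rw [← tf_sum (κ := fun _ => L) (fun i l => α i l ⊗ₖ β i l)]
    congr 1
    funext i
    exact (hsum i).symm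
  have hRκ : ∀ z, (tf fun _ : ι => R) * κ z = σ z := by
    intro z
    rw [hκ, hσ, Half.tf_mul]
    congr 1
    funext i
    exact hK i (z i)
  have hσH : ∀ z, (σ z)ᴴ = σ z := by
    intro z
    rw [hσ, Half.tf_conjTranspose]
    congr 1
    funext i
    rw [conjTranspose_kronecker, hαH, hβH]
  -- the products
  have hprod : ∀ z (P : Matrix (ι → A) (ι → A) ℂ) (Q : Matrix (ι → B) (ι → B) ℂ),
      Supp p P → Supp q Q → 0 ≤ ((P * piT fun i => α i (z i)).trace).re ∧
      0 ≤ ((Q * piT fun i => β i (z i)).trace).re ∧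
      pr (σ z) P Q = ((P * piT fun i => α i (z i)).trace).re *
        ((Q * piT fun i => β i (z i)).trace).re := by
    intro z P Q hP hQ
    obtain ⟨h1, h2⟩ := re_nonneg (hP.tr (α := fun i => α i (z i)) fun i j => hα i (z i) j)
    obtain ⟨h3, h4⟩ := re_nonneg (hQ.tr (α := fun i => β i (z i)) fun i j => hβ i (z i) j)
    refine ⟨h1, h3, ?_⟩
    rw [pr, hσ, tf_kron, ← mul_kronecker_mul, trace_kronecker, h2, h4, ← Complex.ofReal_mul,
      Complex.ofReal_re, Complex.ofReal_re, Complex.ofReal_re]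
  choose c hc using fun z => label_num (hprod z P₀ Q₀ hP₀ hQ₀).1 (hprod z P₁ Q₁ hP₁ hQ₁).1
    (hprod z P₀ Q₀ hP₀ hQ₀).2.1 (hprod z P₁ Q₁ hP₁ hQ₁).2.1
  have hRk : (tf fun _ : ι => R) * ∑ z, (c z : ℂ) • κ z = ∑ z, (c z : ℂ) • σ z := by
    rw [Matrix.mul_sum]
    refine Finset.sum_congr rfl fun z _ => ?_
    rw [Matrix.mul_smul, hRκ]
  have hlin : ∀ (P : Matrix (ι → A) (ι → A) ℂ) (Q : Matrix (ι → B) (ι → B) ℂ),
      pr (∑ z, (c z : ℂ) • σ z) P Q = ∑ z, c z * pr (σ z) P Q := by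
    intro P Q
    rw [pr, Matrix.mul_sum, trace_sum, Complex.re_sum]
    refine Finset.sum_congr rfl fun z _ => ?_
    rw [Matrix.mul_smul, trace_smul, smul_eq_mul, Complex.re_ofReal_mul, pr]
  have hone : ∀ (P : Matrix (ι → A) (ι → A) ℂ) (Q : Matrix (ι → B) (ι → B) ℂ),
      pr (tf fun _ : ι => R) P Q = ∑ z, pr (σ z) P Q := by
    intro P Q
    rw [hRσ, pr, Matrix.mul_sum, trace_sum, Complex.re_sum]
    exact Finset.sum_congr rfl fun z _ => rfl
  refine ⟨∑ z, (c z : ℂ) • κ z, ?_, ?_⟩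
  · rw [hRk, conjTranspose_sum]
    refine Finset.sum_congr rfl fun z _ => ?_
    rw [conjTranspose_smul, hσH, RCLike.star_def, Complex.conj_ofReal]
  · have hquad : pr ((tf fun _ : ι => R) * (∑ z, (c z : ℂ) • κ z) * ∑ z, (c z : ℂ) • κ z)
        (P₀ + P₁) (Q₀ + Q₁) ≤ ∑ z, c z ^ 2 * pr (σ z) (P₀ + P₁) (Q₀ + Q₁) := by
      obtain ⟨Z, hZ, hZ'⟩ := hP₀.add hP₁
      obtain ⟨Y, hY, hY'⟩ := hQ₀.add hQ₁
      have hw : ∀ w w', ∑ z, ∑ z', c z * c z' * ((Z w ⊗ₖ Y w') * (σ z * κ z')).trace.re ≤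
          ∑ z, c z ^ 2 * ((Z w ⊗ₖ Y w') * σ z).trace.re := by
        intro w w'
        have hG : tf (fun i => p i (w i) ⊗ₖ q i (w' i)) * (Z w ⊗ₖ Y w') *
            tf (fun i => p i (w i) ⊗ₖ q i (w' i)) = Z w ⊗ₖ Y w' := by
          rw [tf_kron, ← mul_kronecker_mul, ← mul_kronecker_mul, (hZ' w).2, (hY' w').2]
        have h1 := contr (fun i => hC i (w i) (w' i)) ((hZ' w).1.kronecker (hY' w').1) hG c
        simp only [hσ, hκ]
        exact h1
      have hex : ∀ M : Matrix ((ι → A) × (ι → B)) ((ι → A) × (ι → B)) ℂ,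
          pr M (P₀ + P₁) (Q₀ + Q₁) = ∑ w, ∑ w', ((Z w ⊗ₖ Y w') * M).trace.re := by
        intro M
        have h1 : (P₀ + P₁) ⊗ₖ (Q₀ + Q₁) = ∑ w, ∑ w', Z w ⊗ₖ Y w' := by
          rw [hZ, hY]
          ext a b
          simp only [kroneckerMap_apply, Matrix.sum_apply, Finset.sum_mul_sum]
        rw [pr, h1, Matrix.sum_mul, trace_sum, Complex.re_sum]
        refine Finset.sum_congr rfl fun w _ => ?_
        rw [Matrix.sum_mul, trace_sum, Complex.re_sum]
      rw [hRk, hex]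
      have h2 : ∀ w w', ((Z w ⊗ₖ Y w') * ((∑ z, (c z : ℂ) • σ z) * ∑ z, (c z : ℂ) • κ z)).trace.re =
          ∑ z, ∑ z', c z * c z' * ((Z w ⊗ₖ Y w') * (σ z * κ z')).trace.re := by
        intro w w'
        rw [Matrix.sum_mul, Matrix.mul_sum, trace_sum, Complex.re_sum]
        refine Finset.sum_congr rfl fun z _ => ?_
        rw [Matrix.mul_sum, Matrix.mul_sum, trace_sum, Complex.re_sum]
        refine Finset.sum_congr rfl fun z' _ => ?_
        have e : (Z w ⊗ₖ Y w') * (((c z : ℂ) • σ z) * ((c z' : ℂ) • κ z')) =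
            ((c z * c z' : ℝ) : ℂ) • ((Z w ⊗ₖ Y w') * (σ z * κ z')) := by
          simp only [Matrix.smul_mul, Matrix.mul_smul, smul_smul]
          push_cast
          rw [mul_comm (c z' : ℂ)]
        rw [e, trace_smul, smul_eq_mul, Complex.re_ofReal_mul]
      have h3 : ∑ z, c z ^ 2 * pr (σ z) (P₀ + P₁) (Q₀ + Q₁) =
          ∑ w, ∑ w', ∑ z, c z ^ 2 * ((Z w ⊗ₖ Y w') * σ z).trace.re := by
        simp only [hex, Finset.mul_sum]
        rw [Finset.sum_comm]
        exact Finset.sum_congr rfl fun w _ => Finset.sum_comm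
      rw [h3]
      refine Finset.sum_le_sum fun w _ => Finset.sum_le_sum fun w' _ => ?_
      rw [h2]
      exact hw w w'
    rw [hRk] at hquad ⊢
    rw [hlin, hlin, hone, hone, hone, hone]
    have h4 : ∀ z, pr (σ z) (P₀ + P₁) (Q₀ + Q₁) =
        (((P₀ * piT fun i => α i (z i)).trace).re + ((P₁ * piT fun i => α i (z i)).trace).re) *
        (((Q₀ * piT fun i => β i (z i)).trace).re + ((Q₁ * piT fun i => β i (z i)).trace).re) := by
      intro z
      rw [(hprod z _ _ (hP₀.add hP₁) (hQ₀.add hQ₁)).2.2, Matrix.add_mul, Matrix.add_mul, trace_add,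
        trace_add, Complex.add_re, Complex.add_re]
    simp only [h4] at hquad
    have h5 := Finset.sum_le_sum fun z (_ : z ∈ Finset.univ) => hc z
    simp only [(hprod _ _ _ hP₀ hQ₀).2.2, (hprod _ _ _ hP₀ hQ₁).2.2, (hprod _ _ _ hP₁ hQ₀).2.2,
      (hprod _ _ _ hP₁ hQ₁).2.2]
    have h6 : ∀ (x y w v : (ι → L) → ℝ), ∑ z, (x z + y z - 2 * (c z * (x z - y z)) + c z ^ 2 * w z) ≤
        ∑ z, v z → ∑ z, x z + ∑ z, y z - 2 * (∑ z, c z * x z - ∑ z, c z * y z) +
          ∑ z, c z ^ 2 * w z ≤ ∑ z, v z := by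
      intro x y w v h
      refine le_trans (le_of_eq ?_) h
      simp only [Finset.mul_sum, ← Finset.sum_add_distrib, ← Finset.sum_sub_distrib]
      refine Finset.sum_congr rfl fun z _ => ?_
      ring
    have h7 := h6 (fun z => (P₀ * piT fun i => α i (z i)).trace.re *
        (Q₀ * piT fun i => β i (z i)).trace.re) (fun z => (P₁ * piT fun i => α i (z i)).trace.re *
        (Q₁ * piT fun i => β i (z i)).trace.re) _ _ h5
    beta_reduce at h7
    rw [Finset.sum_add_distrib] at h7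
    linarith only [hquad, h7]

end Vale.Agent.P372.Ou
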