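import Vale.Agent.P372.R2.helper492.Ou.Labels

/-! Neighbourhoods of a separable boundary state. -/

open Matrix Kronecker
open scoped ComplexOrder MatrixOrder

set_option linter.unusedSectionVars false

namespace Vale.Agent.P372.Ou

open Vale.Agent.P372.Half (tf)
open Vale.Agent.P372.PC (IsPr)

section swap

variable {A B : Type} [Fintype A] [DecidableEq A] [Fintype B] [DecidableEq B]

theorem dat_swap {J L : Type} [Fintype L] [DecidableEq L] {R : Matrix (A × B) (A × B) ℂ}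
    {p : J → Matrix B B ℂ} {a : L → Matrix B B ℂ} {b : L → Matrix A A ℂ}
    {K : L → Matrix (B × A) (B × A) ℂ}
    (h : DatA (R.submatrix Prod.swap Prod.swap) p a b K) :
    DatB R p b a (fun l => (K l).submatrix Prod.swap Prod.swap) := by
  obtain ⟨h1, h2, h3, h4, h5, h6⟩ := h
  have hmul : ∀ X Y : Matrix (B × A) (B × A) ℂ, (X * Y).submatrix Prod.swap Prod.swap =
      X.submatrix Prod.swap Prod.swap * Y.submatrix Prod.swap Prod.swap := fun X Y =>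
    (submatrix_mul_equiv X Y Prod.swap (Equiv.prodComm A B) Prod.swap).symm
  have hkr : ∀ (X : Matrix B B ℂ) (Y : Matrix A A ℂ),
      (X ⊗ₖ Y).submatrix Prod.swap Prod.swap = Y ⊗ₖ X := by
    intro X Y
    ext x y
    simp only [submatrix_apply, kroneckerMap_apply, Prod.fst_swap, Prod.snd_swap]
    exact mul_comm _ _
  have hR : (R.submatrix Prod.swap Prod.swap).submatrix Prod.swap Prod.swap = R := by
    ext x y
    simp only [submatrix_apply, Prod.swap_swap]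
  refine ⟨h2, h1, ?_, fun l => ?_, h5, fun j => ?_⟩
  · rw [← hR, ← h3]
    ext x y
    simp only [submatrix_apply, Matrix.sum_apply, kroneckerMap_apply, Prod.fst_swap, Prod.snd_swap]
    exact Finset.sum_congr rfl fun l _ => mul_comm _ _
  · have h7 := congrArg (fun Z => Z.submatrix (Prod.swap : A × B → B × A) Prod.swap) (h4 l)
    beta_reduce at h7
    rw [hmul, hR, hkr] at h7
    exact h7
  · obtain ⟨k1, k2⟩ := h6 j
    have e1 : ∀ l l' : L, ((1 : Matrix A A ℂ) ⊗ₖ p j * ((b l ⊗ₖ a l) *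
        (K l').submatrix Prod.swap Prod.swap) * ((1 : Matrix A A ℂ) ⊗ₖ p j)) =
        ((p j ⊗ₖ 1) * ((a l ⊗ₖ b l) * K l') * (p j ⊗ₖ 1)).submatrix Prod.swap Prod.swap := by
      intro l l'
      rw [hmul, hmul, hmul, hkr, hkr]
    have e2 : ∀ l : L, ((1 : Matrix A A ℂ) ⊗ₖ p j * (b l ⊗ₖ a l) * ((1 : Matrix A A ℂ) ⊗ₖ p j)) =
        ((p j ⊗ₖ 1) * (a l ⊗ₖ b l) * (p j ⊗ₖ 1)).submatrix Prod.swap Prod.swap := by
      intro l
      rw [hmul, hmul, hkr, hkr]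
    have e3 : Hm (fun l => b l ⊗ₖ a l) (fun l => (K l).submatrix Prod.swap Prod.swap)
        (1 ⊗ₖ p j) = (Hm (fun l => a l ⊗ₖ b l) K (p j ⊗ₖ 1)).submatrix
        (fun x => (x.1, x.2.swap)) (fun x => (x.1, x.2.swap)) := by
      ext x y
      rw [submatrix_apply, Hm, Hm, e1]
      rfl
    have e4 : Dm (fun l => b l ⊗ₖ a l) (1 ⊗ₖ p j) = (Dm (fun l => a l ⊗ₖ b l)
        (p j ⊗ₖ 1)).submatrix (fun x => (x.1, x.2.swap)) (fun x => (x.1, x.2.swap)) := by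
      ext x y
      rw [submatrix_apply, Dm, Dm, e2]
      rfl
    refine ⟨?_, ?_⟩
    · rw [e3]
      exact k1.submatrix _
    · rw [e3, e4]
      exact k2.submatrix (fun x : L × (A × B) => ((x.1, x.2.swap) : L × (B × A)))

end swap

variable {g k : ℕ}

theorem base_low : (base g k - ((k - 1 : ℝ) : ℂ) • 1).PosSemidef := by
  have e : base g k - ((k - 1 : ℝ) : ℂ) • 1 = 1 - swapK g k := by
    rw [base]
    push_cast
    rw [sub_smul, one_smul]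
    abel
  rw [e]
  exact one_sub_swapK

theorem base_swap : (base g k).submatrix Prod.swap Prod.swap = base g k := by
  ext p q
  simp only [base, submatrix_apply, Matrix.sub_apply, Matrix.smul_apply, one_apply, swapK,
    Prod.fst_swap, Prod.snd_swap, Prod.swap_inj]
  congr 2
  exact propext ⟨fun h => ⟨h.2.1, h.1, h.2.2.2, h.2.2.1⟩, fun h => ⟨h.2.1, h.1, h.2.2.2, h.2.2.1⟩⟩

theorem rot_unit {U : Matrix (Fin k) (Fin k) ℂ} (h : Uᴴ * U = 1) {v : Fin k → ℂ}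
    (hv : star v ⬝ᵥ v = 1) : star (U *ᵥ v) ⬝ᵥ (U *ᵥ v) = 1 := by
  rw [star_mulVec, dotProduct_mulVec, vecMul_vecMul, h, vecMul_one, hv]

theorem tf_posDef {A B : Type} [Fintype A] [DecidableEq A] [Fintype B] [DecidableEq B] {N : ℕ}
    {R : Matrix (A × B) (A × B) ℂ} {a : ℝ} (ha : 0 < a) (h : (R - (a : ℂ) • 1).PosSemidef) :
    (tf fun _ : Fin N => R).PosDef := by
  have hone : ((a : ℂ) • (1 : Matrix (A × B) (A × B) ℂ)).PosSemidef :=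
    PosSemidef.one.smul (Complex.zero_le_real.mpr ha.le)
  have k1 := PC.tf_mono (ι := Fin N) (fun _ => hone) (fun _ => h)
  rw [PC.tf_smul_one] at k1
  have h2 : (((a ^ Fintype.card (Fin N) : ℝ) : ℂ) •
      (1 : Matrix ((Fin N → A) × (Fin N → B)) ((Fin N → A) × (Fin N → B)) ℂ)).PosDef :=
    PosDef.one.smul (Complex.zero_lt_real.mpr (pow_pos ha _))
  have h3 := h2.add_posSemidef k1
  rwa [add_sub_cancel] at h3

/-- The constants. -/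
theorem nb_num {r : ℝ} (hr0 : 0 < r) (hr1 : r ≤ 1) (g k N : ℕ) :
    ∃ ε₁ ε₂ : ℝ, 0 < ε₁ ∧ 0 < ε₂ ∧ ε₁ ≤ 1 / 8 ∧ (1 + ε₁) ^ N - 1 ≤ ε₂ ∧
      (2 * ε₂ / r + ε₂) * ((k : ℝ) + 1) ^ N ≤ 1 - 2 * ε₂ / r ∧
      (g + 1) * (4 * (ε₁ / (4 * (g + 1)))) = ε₁ ∧ 0 < ε₁ / (4 * (g + 1)) ∧
      ε₁ / (4 * (g + 1)) ≤ 1 / 8 := by
  obtain ⟨κ, hκ⟩ : ∃ κ : ℝ, κ = k + 1 := ⟨_, rfl⟩
  have hκ1 : 1 ≤ κ := by rw [hκ]; linarith [(Nat.cast_nonneg k : (0 : ℝ) ≤ k)]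
  have hκN : 1 ≤ κ ^ N := one_le_pow₀ hκ1
  have h3N : (1 : ℝ) ≤ 3 ^ N := one_le_pow₀ (by norm_num)
  obtain ⟨ε₂, hε₂⟩ : ∃ ε₂ : ℝ, ε₂ = r / (8 * κ ^ N) := ⟨_, rfl⟩
  have hε₂0 : 0 < ε₂ := by rw [hε₂]; positivity
  obtain ⟨ε₁, hε₁⟩ : ∃ ε₁ : ℝ, ε₁ = ε₂ / 3 ^ N := ⟨_, rfl⟩
  have hε₁0 : 0 < ε₁ := by rw [hε₁]; positivity
  have hε₂1 : ε₂ ≤ 1 / 8 := by
    rw [hε₂, div_le_div_iff₀ (by positivity) (by norm_num)]
    nlinarith
  have hε₁2 : ε₁ ≤ ε₂ := by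
    rw [hε₁]
    exact div_le_self hε₂0.le h3N
  have hpow : (1 + ε₁) ^ N - 1 ≤ ε₂ := by
    have h1 := pow_le_three hε₁0.le (by linarith) N
    have h2 : 3 ^ N * ε₁ = ε₂ := by
      rw [hε₁]
      field_simp
    linarith
  have hδ : (2 * ε₂ / r + ε₂) * κ ^ N ≤ 1 - 2 * ε₂ / r := by
    have e1 : 2 * ε₂ / r = 1 / (4 * κ ^ N) := by
      rw [hε₂]
      field_simp
      norm_num
    have e2 : ε₂ ≤ 1 / (8 * κ ^ N) := by
      rw [hε₂]
      exact div_le_div_of_nonneg_right hr1 (by positivity)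
    have e3 : 1 / (4 * κ ^ N) * κ ^ N = 1 / 4 := by field_simp
    have e4 : 1 / (8 * κ ^ N) * κ ^ N = 1 / 8 := by field_simp
    have e5 : 1 / (4 * κ ^ N) ≤ 1 / 4 := by
      apply one_div_le_one_div_of_le (by norm_num)
      linarith
    rw [e1]
    have e6 : ε₂ * κ ^ N ≤ 1 / (8 * κ ^ N) * κ ^ N :=
      mul_le_mul_of_nonneg_right e2 (by positivity)
    rw [add_mul, e3]
    linarith
  have hg : (0 : ℝ) ≤ g := Nat.cast_nonneg g
  refine ⟨ε₁, ε₂, hε₁0, hε₂0, by linarith, hpow, by rw [← hκ]; exact hδ, ?_, by positivity, ?_⟩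
  · field_simp
  · have : ε₁ / (4 * (g + 1)) ≤ ε₁ := div_le_self hε₁0.le (by linarith)
    linarith

/-- The labels of a block. -/
abbrev LL (g k N : ℕ) : Type :=
  Fin N → (Fin k ⊕ (Fin k → Fin 4)) × (Fin g ⊕ (Fin g → Fin 4))

theorem pert_eq {g k : ℕ} (hg : 0 < g) {U : Matrix (Fin k) (Fin k) ℂ}
    (hd : IsDes (dw k) (fun l => U *ᵥ dv k l))
    (R : Matrix ((Fin g × Fin k) × (Fin g × Fin k)) ((Fin g × Fin k) × (Fin g × Fin k)) ℂ) :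
    ∑ l : (Fin k ⊕ (Fin k → Fin 4)) × (Fin g ⊕ (Fin g → Fin 4)),
      (((dw k l.1 * (dw g l.2 / (g + 1)) : ℝ) : ℂ) • (alp g (U *ᵥ dv k l.1) +
        ((g + 1 : ℝ) : ℂ) • tb (du g k (dv g l.2) (U *ᵥ dv k l.1)) (R - base g k))) ⊗ₖ
        (pj (dv g l.2) ⊗ₖ pj (U *ᵥ dv k l.1)) = R := by
  have hdes' := isDes hg
  have hgc : ((g + 1 : ℝ) : ℂ) ≠ 0 := by exact_mod_cast Nat.succ_ne_zero g
  have e1 : ∀ l : (Fin k ⊕ (Fin k → Fin 4)) × (Fin g ⊕ (Fin g → Fin 4)),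
      (((dw k l.1 * (dw g l.2 / (g + 1)) : ℝ) : ℂ) • (alp g (U *ᵥ dv k l.1) +
        ((g + 1 : ℝ) : ℂ) • tb (du g k (dv g l.2) (U *ᵥ dv k l.1)) (R - base g k))) ⊗ₖ
        (pj (dv g l.2) ⊗ₖ pj (U *ᵥ dv k l.1)) =
      ((dw k l.1 * (dw g l.2 / (g + 1)) : ℝ) : ℂ) • (alp g (U *ᵥ dv k l.1) ⊗ₖ
        (pj (dv g l.2) ⊗ₖ pj (U *ᵥ dv k l.1))) +
      ((dw k l.1 * dw g l.2 : ℝ) : ℂ) •
        (tb (du g k (dv g l.2) (U *ᵥ dv k l.1)) (R - base g k) ⊗ₖ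
        (pj (dv g l.2) ⊗ₖ pj (U *ᵥ dv k l.1))) := by
    intro l
    have e2 : ((dw k l.1 * dw g l.2 : ℝ) : ℂ) =
        ((dw k l.1 * (dw g l.2 / (g + 1)) : ℝ) : ℂ) * ((g + 1 : ℝ) : ℂ) := by
      rw [← Complex.ofReal_mul]
      congr 1
      field_simp
    rw [e2]
    ext p q
    simp only [Matrix.smul_apply, Matrix.add_apply, kroneckerMap_apply, smul_eq_mul]
    ring
  simp only [e1]
  rw [Finset.sum_add_distrib, base_sum hd hdes', pert_sum hd hdes', add_sub_cancel]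

theorem nb_core {g k m M N : ℕ} (hg : 0 < g) (hk : (2 * m + 2 : ℝ) ≤ k) {r ε₁ ε₂ ε : ℝ}
    (hr0 : 0 < r) (hε₁0 : 0 < ε₁) (hε₂0 : 0 < ε₂) (hpow : (1 + ε₁) ^ N - 1 ≤ ε₂)
    (hδ : (2 * ε₂ / r + ε₂) * ((k : ℝ) + 1) ^ N ≤ 1 - 2 * ε₂ / r)
    (hεg : (g + 1) * (4 * ε) = ε₁) (hε0 : 0 < ε)
    {R : Matrix ((Fin g × Fin k) × (Fin g × Fin k)) ((Fin g × Fin k) × (Fin g × Fin k)) ℂ}
    (hR : Bd (R - base g k) ε) (hpd : (tf fun _ : Fin N => R).PosDef)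
    {P : Fin M → Matrix (Fin N → Fin g × Fin k) (Fin N → Fin g × Fin k) ℂ}
    (hP : ∀ j, IsPr (P j) ∧ (P j).trace.re ≤ m) {U : Fin N → Matrix (Fin k) (Fin k) ℂ}
    (hd : ∀ i, IsDes (dw k) (fun l => U i *ᵥ dv k l))
    (hPr : ∀ j (z : Fin N → (Fin k ⊕ (Fin k → Fin 4))),
      (P j * piT (fun i => alp g (U i *ᵥ dv k (z i))) * P j - (r : ℂ) • P j).PosSemidef) :
    ∃ (a b : LL g k N → Matrix (Fin N → Fin g × Fin k) (Fin N → Fin g × Fin k) ℂ)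
      (K : LL g k N → Matrix ((Fin N → Fin g × Fin k) × (Fin N → Fin g × Fin k))
        ((Fin N → Fin g × Fin k) × (Fin N → Fin g × Fin k)) ℂ),
      DatA (tf fun _ : Fin N => R) P a b K := by
  have hm0 : (0 : ℝ) ≤ m := Nat.cast_nonneg m
  have hdes' := isDes hg
  have hbd : ∀ i (l : (Fin k ⊕ (Fin k → Fin 4)) × (Fin g ⊕ (Fin g → Fin 4))),
      Bd (((g + 1 : ℝ) : ℂ) • tb (du g k (dv g l.2) (U i *ᵥ dv k l.1)) (R - base g k)) ε₁ := by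
    intro i l
    rw [← hεg]
    exact (du_bd (hdes'.unit l.2) ((hd i).unit l.1) hε0.le hR).smul (by positivity)
  obtain ⟨α, hα⟩ : ∃ α : Fin N → (Fin k ⊕ (Fin k → Fin 4)) × (Fin g ⊕ (Fin g → Fin 4)) →
      Matrix (Fin g × Fin k) (Fin g × Fin k) ℂ, α = fun i l => alp g (U i *ᵥ dv k l.1) :=
    ⟨_, rfl⟩
  obtain ⟨α', hα'⟩ : ∃ α' : Fin N → (Fin k ⊕ (Fin k → Fin 4)) × (Fin g ⊕ (Fin g → Fin 4)) →
      Matrix (Fin g × Fin k) (Fin g × Fin k) ℂ, α' = fun i l => alp g (U i *ᵥ dv k l.1) +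
      ((g + 1 : ℝ) : ℂ) • tb (du g k (dv g l.2) (U i *ᵥ dv k l.1)) (R - base g k) :=
    ⟨_, rfl⟩
  obtain ⟨c, hc⟩ : ∃ c : Fin N → (Fin k ⊕ (Fin k → Fin 4)) × (Fin g ⊕ (Fin g → Fin 4)) →
      Matrix (Fin g × Fin k) (Fin g × Fin k) ℂ,
      c = fun i l => pj (dv g l.2) ⊗ₖ pj (U i *ᵥ dv k l.1) := ⟨_, rfl⟩
  obtain ⟨ν, hν⟩ : ∃ ν : Fin N → (Fin k ⊕ (Fin k → Fin 4)) × (Fin g ⊕ (Fin g → Fin 4)) → ℝ,
      ν = fun _ l => dw k l.1 * (dw g l.2 / (g + 1)) := ⟨_, rfl⟩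
  have k1 : ∀ i, Lay (α i) (c i) (ν i) (k + 1) := by
    intro i
    have h := lay (g := g) (hd i) hdes'
    rw [hα, hc, hν]
    exact h
  have k2 : ∀ i l, Bd (α' i l - α i l) ε₁ := by
    intro i l
    rw [hα, hα']
    beta_reduce
    rw [add_sub_cancel_left]
    exact hbd i l
  have k3 : ∀ i, ∑ l, ((ν i l : ℂ) • α' i l) ⊗ₖ c i l = R := by
    intro i
    have h := pert_eq hg (hd i) R
    rw [hν, hα', hc]
    exact h
  have k4 : ∀ i l, (α' i l)ᴴ = α' i l := by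
    intro i l
    have h1 := (k2 i l).herm
    rw [conjTranspose_sub, ((k1 i).pr l).1] at h1
    exact sub_left_injective h1
  have k5 : ∀ j (z : LL g k N), (P j * piT (fun i => α i (z i)) * P j -
      (r : ℂ) • P j).PosSemidef := by
    intro j z
    rw [hα]
    exact hPr j fun i => (z i).1
  have k6 : ∀ z : LL g k N, Bd (piT (fun i => α' i (z i)) - piT (fun i => α i (z i))) ε₂ :=
    fun z => (bd_piT hε₁0.le N _ _ (fun i => IsPr.bd ((k1 i).pr _)) fun i => k2 i (z i)).mono hpow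
  clear hα hα' hc hν hbd hPr
  exact block_dat (κ := (k : ℝ) + 1) (m := (m : ℝ)) (r := r) (ε := ε₂) (by linarith)
    (by linarith) k1 hr0 hε₂0.le k6 k4 k3 hpd hδ (fun j => (hP j).1) (fun j => (hP j).2) k5

theorem nb_dat (g k m M N : ℕ) (hg : 0 < g) (hk : 2 * m + 2 ≤ k) :
    ∃ ε : ℝ, 0 < ε ∧ ∀ R : Matrix ((Fin g × Fin k) × (Fin g × Fin k))
        ((Fin g × Fin k) × (Fin g × Fin k)) ℂ, Bd (R - base g k) ε →
      (tf fun _ : Fin N => R).PosDef ∧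
      ∀ P : Fin M → Matrix (Fin N → Fin g × Fin k) (Fin N → Fin g × Fin k) ℂ,
        (∀ j, IsPr (P j) ∧ (P j).trace.re ≤ m) →
        ∃ (a b : LL g k N → Matrix (Fin N → Fin g × Fin k) (Fin N → Fin g × Fin k) ℂ)
          (K : LL g k N → Matrix ((Fin N → Fin g × Fin k) × (Fin N → Fin g × Fin k))
            ((Fin N → Fin g × Fin k) × (Fin N → Fin g × Fin k)) ℂ),
          DatA (tf fun _ : Fin N => R) P a b K := by
  have hk0 : 0 < k := by omega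
  have hkr : (2 * m + 2 : ℝ) ≤ k := by exact_mod_cast hk
  have hm0 : (0 : ℝ) ≤ m := Nat.cast_nonneg m
  have hdes := isDes hk0
  have hb0 : ∀ l, dv k l ≠ 0 := by
    intro l h
    have h1 := hdes.unit l
    rw [h] at h1
    simp at h1
  obtain ⟨r, hr0, hr1, hr⟩ := exists_unifs (g := g) N (Fin M) (Fin k ⊕ (Fin k → Fin 4))
    (m := m) (by omega) hb0 (fun U l hU => alp_pr (rot_unit hU (hdes.unit l)))
  obtain ⟨ε₁, ε₂, hε₁0, hε₂0, -, hpow, hδ, hεg, hε0, hε1⟩ := nb_num hr0 hr1 g k N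
  refine ⟨ε₁ / (4 * (g + 1)), hε0, fun R hR => ?_⟩
  have hlow : (R - ((k - 1 - ε₁ / (4 * (g + 1)) : ℝ) : ℂ) • 1).PosSemidef := by
    have h1 := hR.2.add (base_low (g := g) (k := k))
    have e : R - ((k - 1 - ε₁ / (4 * (g + 1)) : ℝ) : ℂ) • 1 =
        ((ε₁ / (4 * (g + 1)) : ℝ) : ℂ) • 1 + (R - base g k) +
          (base g k - ((k - 1 : ℝ) : ℂ) • 1) := by
      rw [Complex.ofReal_sub ((k : ℝ) - 1), sub_smul]
      abel
    rw [e]
    exact h1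
  have hpd : (tf fun _ : Fin N => R).PosDef := tf_posDef (by linarith) hlow
  refine ⟨hpd, fun P hP => ?_⟩
  obtain ⟨U, hU, hPr⟩ := hr P fun j => ⟨(hP j).1.1, (hP j).1.2, (hP j).2⟩
  exact nb_core hg hkr hr0 hε₁0 hε₂0 hpow hδ hεg hε0 hR hpd hP
    (fun i => hdes.rotate (hU i).1 (hU i).2) hPr

theorem nb (g k m M N : ℕ) (hg : 0 < g) (hk : 2 * m + 2 ≤ k) :
    ∃ ε : ℝ, 0 < ε ∧ ∀ R, Bd (R - base g k) ε → ∀ c : ℝ, 0 ≤ c →
      NoKeyMenu (tpow N ((c : ℂ) • R)) M m := by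
  obtain ⟨ε, hε, key⟩ := nb_dat g k m M N hg hk
  refine ⟨ε, hε, fun R hR c hc => ?_⟩
  obtain ⟨hpd, hA⟩ := key R hR
  have hRs : Bd (R.submatrix Prod.swap Prod.swap - base g k) ε := by
    have h1 := hR.subm (Y := (Fin g × Fin k) × (Fin g × Fin k)) (e := Prod.swap)
      Prod.swap_injective
    have e : (R - base g k).submatrix Prod.swap Prod.swap =
        R.submatrix Prod.swap Prod.swap - base g k := by
      conv_rhs => rw [← base_swap]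
      rfl
    rwa [e] at h1
  obtain ⟨-, hB⟩ := key _ hRs
  rw [PC.tpow_smul]
  refine noKey_of_dat (L := LL g k N) (pow_nonneg hc N) hpd.posSemidef M m hA fun p hp => ?_
  obtain ⟨a, b, K, h⟩ := hB p hp
  exact ⟨b, a, _, dat_swap (R := tf fun _ : Fin N => R) h⟩

end Vale.Agent.P372.Ou
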