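import Vale.Agent.P372.R2.helper492.Ou.Bi

/-! Noisy measurements with any number of outcomes. -/

open Matrix Kronecker
open scoped ComplexOrder MatrixOrder

set_option linter.unusedSectionVars false

namespace Vale.Agent.P372.Ou

open Vale.Agent.P372.Half (tf)
open Vale.Agent.P372.PC (IsPr)

section core

variable {A B : Type} [Fintype A] [DecidableEq A] [Fintype B] [DecidableEq B]

/-- From labelled decompositions to protocols, for menus of any size. -/
theorem noKey_core {L : Type} [Fintype L] [DecidableEq L] {R : Matrix (A × B) (A × B) ℂ}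
    {c : ℝ} (hc : 0 ≤ c) (hR : R.PosSemidef) {E : Type} [Fintype E] [DecidableEq E]
    {Ψ : Matrix (A × B) E ℂ} (hΨ : Ψ * Ψᴴ = (c : ℂ) • R) {n ℓ : ℕ} (hℓ : 0 < ℓ) {T : Type}
    [Fintype T] {f : T → (Fin ℓ → Bool) → Matrix (Fin n → A) (Fin n → A) ℂ}
    {g : T → (Fin ℓ → Bool) → Matrix (Fin n → B) (Fin n → B) ℂ}
    (hL : LOCC (Fin ℓ → Bool) (Fin n → A) (Fin n → B) T f g)
    (hS : ∀ t, ∃ (J J' : Type) (_ : Fintype J) (_ : Fintype J') (p : Fin n → J → Matrix A A ℂ)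
      (q : Fin n → J' → Matrix B B ℂ), (∀ i j, IsPr (p i j)) ∧ (∀ i j, IsPr (q i j)) ∧
      (∀ k, Supp p (f t k)) ∧ (∀ k, Supp q (g t k)) ∧
      ∀ i, ((∀ j, q i j = 1) ∧ ∃ (α : L → Matrix A A ℂ) (β : L → Matrix B B ℂ)
          (K : L → Matrix (A × B) (A × B) ℂ), DatA R (p i) α β K) ∨
        ((∀ j, p i j = 1) ∧ ∃ (α : L → Matrix A A ℂ) (β : L → Matrix B B ℂ)
          (K : L → Matrix (A × B) (A × B) ℂ), DatB R (q i) α β K)) :
    ¬ KeyError f g (copies n Ψ) (1 / 64) := by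
  intro herr
  obtain ⟨hf, hg⟩ := PC.locc_psd hL
  obtain ⟨t, X, Y, hX, hY, hlt⟩ := PC.test_of_keyError (copies n Ψ) ⟨0, hℓ⟩ f g hf hg herr
  rw [PC.copies_mul, hΨ, PC.tpow_smul] at hlt
  obtain ⟨J, J', _, _, p, q, hp1, hq1, hp4, hq4, hdat⟩ := hS t
  have hex : ∀ i, ∃ (α : L → Matrix A A ℂ) (β : L → Matrix B B ℂ)
      (K : L → Matrix (A × B) (A × B) ℂ), (∀ l, (α l)ᴴ = α l) ∧ (∀ l, (β l)ᴴ = β l) ∧
      ∑ l, α l ⊗ₖ β l = R ∧ (∀ l, R * K l = α l ⊗ₖ β l) ∧
      (∀ l j, (p i j * α l * p i j).PosSemidef) ∧ (∀ l j, (q i j * β l * q i j).PosSemidef) ∧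
      ∀ j j', Ct (fun l => α l ⊗ₖ β l) K (p i j ⊗ₖ q i j') := by
    intro i
    rcases hdat i with ⟨hi, α, β, K, h1, h2, h3, h4, h5, h6⟩ | ⟨hi, α, β, K, h1, h2, h3, h4, h5, h6⟩
    · refine ⟨α, β, K, h1, fun l => (h2 l).isHermitian.eq, h3, h4, h5, fun l j => ?_,
        fun j j' => ?_⟩
      · rw [hi j, one_mul, mul_one]
        exact h2 l
      · rw [hi j']
        exact h6 j
    · refine ⟨α, β, K, fun l => (h1 l).isHermitian.eq, h2, h3, h4, fun l j => ?_, h5,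
        fun j j' => ?_⟩
      · rw [hi j, one_mul, mul_one]
        exact h1 l
      · rw [hi j]
        exact h6 j'
  choose α β K h1 h2 h3 h4 h5 h6 h7 using hex
  have hXs : ∀ b, Supp p ((X b)ᴴ * X b) := by
    intro b
    rw [hX b]
    refine Supp.sum _ fun k _ => ?_
    split_ifs
    · exact hp4 k
    · exact Supp.zero p
  have hYs : ∀ b, Supp q ((Y b)ᴴ * Y b) := by
    intro b
    rw [hY b]
    refine Supp.sum _ fun k _ => ?_
    split_ifs
    · exact hq4 k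
    · exact Supp.zero q
  have hRn : (tf fun _ : Fin n => R).PosSemidef := PC.tf_posSemidef fun _ => hR
  have hTT : PC.TT (tf fun _ : Fin n => R) (X false) (X true) (Y false) (Y true) := by
    refine TT_of_SO hRn _ _ _ _ fun a b ha hb => ?_
    exact so_sites h1 h2 h3 h4 h5 h6 h7 ((hXs false).smul ha.le)
      ((hXs true).smul (inv_nonneg.mpr ha.le)) ((hYs false).smul hb.le)
      ((hYs true).smul (inv_nonneg.mpr hb.le))
  exact absurd hlt (not_lt.mpr (PC.TT_smul (pow_nonneg hc n) hTT))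

end core

section vec

variable {E : Type} [Fintype E] [DecidableEq E]

/-- Phases without cancellation. -/
theorem exists_phase {Z : Type} [Finite Z] {A : Z → Matrix E E ℂ} {w : E → E → ℂ} {x : ℝ}
    (hx : 0 < x) (hw : ∀ z i, A z *ᵥ w i ≠ 0) (v : E → ℂ) :
    ∃ s : ℕ, ∀ z i (b : Bool), A z *ᵥ (v + ((x * (if b then 1 else -1) : ℝ) : ℂ) •
      (om s • w i)) ≠ 0 := by
  have hfin : (⋃ z, ⋃ i, ⋃ b : Bool, {s : ℕ | A z *ᵥ (v + ((x * (if b then 1 else -1) : ℝ) : ℂ) •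
      (om s • w i)) = 0}).Finite := by
    refine Set.finite_iUnion fun z => Set.finite_iUnion fun i => Set.finite_iUnion fun b => ?_
    refine Set.Subsingleton.finite ?_
    intro s hs s' hs'
    have h1 : A z *ᵥ (v + ((x * (if b then 1 else -1) : ℝ) : ℂ) • (om s • w i)) = 0 := hs
    have h2 : A z *ᵥ (v + ((x * (if b then 1 else -1) : ℝ) : ℂ) • (om s' • w i)) = 0 := hs'
    rw [mulVec_add, mulVec_smul, mulVec_smul] at h1 h2
    have h3 : (((x * (if b then 1 else -1) : ℝ) : ℂ) * (om s - om s')) • (A z *ᵥ w i) = 0 := by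
      have h4 : ((x * (if b then 1 else -1) : ℝ) : ℂ) • (om s • (A z *ᵥ w i)) =
          ((x * (if b then 1 else -1) : ℝ) : ℂ) • (om s' • (A z *ᵥ w i)) := by
        have h5 := h1.trans h2.symm
        exact add_left_cancel h5
      rw [mul_sub, sub_smul, mul_smul, mul_smul, h4, sub_self]
    rcases smul_eq_zero.mp h3 with h4 | h4
    · have hx' : ((x * (if b then 1 else -1) : ℝ) : ℂ) ≠ 0 := by
        have : x * (if b then (1 : ℝ) else -1) ≠ 0 := by
          refine mul_ne_zero hx.ne' ?_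
          split_ifs <;> norm_num
        exact_mod_cast this
      exact om_inj (sub_eq_zero.mp ((mul_eq_zero.mp h4).resolve_left hx'))
    · exact absurd h4 (hw z i)
  obtain ⟨s, hs⟩ := hfin.infinite_compl.nonempty
  refine ⟨s, fun z i b h => hs ?_⟩
  exact Set.mem_iUnion.mpr ⟨z, Set.mem_iUnion.mpr ⟨i, Set.mem_iUnion.mpr ⟨b, h⟩⟩⟩

theorem exists_phase_unif {Z : Type} [Fintype Z] {A : Z → Matrix E E ℂ} {w : E → E → ℂ} {x : ℝ}
    (hx : 0 < x) (hw : ∀ z i, A z *ᵥ w i ≠ 0) :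
    ∃ r : ℝ, 0 < r ∧ r ≤ 1 ∧ ∀ v : E → ℂ, nq v ≤ 1 → ∃ s : ℕ, ∀ z i (b : Bool),
      r ≤ nq (A z *ᵥ (v + ((x * (if b then 1 else -1) : ℝ) : ℂ) • (om s • w i))) := by
  have hcont : Continuous fun v : E → ℂ => nq v := by
    simp only [nq]
    exact continuous_finsetSum _ fun i _ => ((continuous_apply i).norm).pow 2
  have hK : IsCompact {v : E → ℂ | nq v ≤ 1} := by
    have h1 : IsCompact (Set.pi Set.univ fun _ : E => Metric.closedBall (0 : ℂ) 1) :=
      isCompact_univ_pi fun _ => isCompact_closedBall _ _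
    refine h1.of_isClosed_subset (isClosed_le hcont continuous_const) ?_
    intro v hv
    rw [Set.mem_univ_pi]
    intro i
    rw [mem_closedBall_zero_iff]
    have h2 : ‖v i‖ ^ 2 ≤ nq v :=
      Finset.single_le_sum (f := fun i => ‖v i‖ ^ 2) (fun i _ => by positivity)
        (Finset.mem_univ i)
    have h3 : nq v ≤ 1 := hv
    exact (sq_le_one_iff₀ (norm_nonneg _)).mp (h2.trans h3)
  obtain ⟨O, hO⟩ : ∃ O : ℕ × ℕ → Set (E → ℂ), ∀ y, O y = ⋂ z, ⋂ i, ⋂ b : Bool,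
      {v | 1 / ((y.2 : ℝ) + 1) < nq (A z *ᵥ (v + ((x * (if b then 1 else -1) : ℝ) : ℂ) •
        (om y.1 • w i)))} := ⟨_, fun _ => rfl⟩
  have hopen : ∀ y, IsOpen (O y) := by
    intro y
    rw [hO]
    refine isOpen_iInter_of_finite fun z => isOpen_iInter_of_finite fun i =>
      isOpen_iInter_of_finite fun b => ?_
    refine isOpen_lt continuous_const (hcont.comp ?_)
    exact (Continuous.matrix_mulVec continuous_const (continuous_id.add continuous_const))
  have hcov : {v : E → ℂ | nq v ≤ 1} ⊆ ⋃ y, O y := by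
    intro v _
    obtain ⟨s, hs⟩ := exists_phase hx hw v
    have h1 : ∀ y : Z × E × Bool, ∃ n : ℕ, 1 / ((n : ℝ) + 1) <
        nq (A y.1 *ᵥ (v + ((x * (if y.2.2 then 1 else -1) : ℝ) : ℂ) • (om s • w y.2.1))) := by
      intro y
      refine exists_nat_one_div_lt (lt_of_le_of_ne (nq_nonneg _) fun h => ?_)
      exact hs y.1 y.2.1 y.2.2 (nq_eq_zero h.symm)
    choose f hf using h1
    refine Set.mem_iUnion.mpr ⟨(s, Finset.univ.sup f), ?_⟩
    rw [hO]
    refine Set.mem_iInter.mpr fun z => Set.mem_iInter.mpr fun i => Set.mem_iInter.mpr fun b => ?_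
    have h2 := hf (z, i, b)
    have h3 : f (z, i, b) ≤ Finset.univ.sup f := Finset.le_sup (Finset.mem_univ _)
    have h4 : (f (z, i, b) : ℝ) ≤ ((Finset.univ.sup f : ℕ) : ℝ) := by exact_mod_cast h3
    have h5 : 1 / (((Finset.univ.sup f : ℕ) : ℝ) + 1) ≤ 1 / ((f (z, i, b) : ℝ) + 1) :=
      one_div_le_one_div_of_le (by positivity) (by linarith)
    exact lt_of_le_of_lt h5 h2
  obtain ⟨t, ht⟩ := hK.elim_finite_subcover O hopen hcov
  refine ⟨1 / ((t.sup Prod.snd : ℕ) + 1 : ℝ), by positivity, ?_, fun v hv => ?_⟩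
  · rw [div_le_one (by positivity)]
    have : (0 : ℝ) ≤ ((t.sup Prod.snd : ℕ) : ℝ) := Nat.cast_nonneg _
    linarith
  · have h1 := ht hv
    obtain ⟨y, h1⟩ := Set.mem_iUnion.mp h1
    obtain ⟨hy, h1⟩ := Set.mem_iUnion.mp h1
    rw [hO] at h1
    refine ⟨y.1, fun z i b => ?_⟩
    have h2 : 1 / ((y.2 : ℝ) + 1) < nq (A z *ᵥ (v + ((x * (if b then 1 else -1) : ℝ) : ℂ) •
        (om y.1 • w i))) := Set.mem_iInter.mp (Set.mem_iInter.mp (Set.mem_iInter.mp h1 z) i) b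
    have h3 : y.2 ≤ t.sup Prod.snd := Finset.le_sup (f := Prod.snd) hy
    have h4 : (y.2 : ℝ) ≤ ((t.sup Prod.snd : ℕ) : ℝ) := by exact_mod_cast h3
    have h5 : 1 / (((t.sup Prod.snd : ℕ) : ℝ) + 1) ≤ 1 / ((y.2 : ℝ) + 1) :=
      one_div_le_one_div_of_le (by positivity) (by linarith)
    exact h5.trans h2.le

end vec

end Vale.Agent.P372.Ou
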