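import Vale.Agent.P372.R2.helper492.Ou.Noise

/-! Noisy measurements: the decomposition of the effects. -/

open Matrix Kronecker
open scoped ComplexOrder MatrixOrder

set_option linter.unusedSectionVars false

namespace Vale.Agent.P372.Ou

open Vale.Agent.P372.Half (tf)
open Vale.Agent.P372.PC (IsPr)

section split

variable {E : Type} [Fintype E] [DecidableEq E]

theorem nq_smul' (c : ℂ) (v : E → ℂ) : nq (c • v) = ‖c‖ ^ 2 * nq v := by
  simp only [nq, Pi.smul_apply, smul_eq_mul, norm_mul, mul_pow, Finset.mul_sum]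

theorem nq_add_le (u v : E → ℂ) : nq (u + v) ≤ 2 * nq u + 2 * nq v := by
  simp only [nq, Finset.mul_sum, ← Finset.sum_add_distrib, Pi.add_apply]
  refine Finset.sum_le_sum fun i _ => ?_
  have h := norm_add_le (u i) (v i)
  nlinarith [norm_nonneg (u i + v i), norm_nonneg (u i), norm_nonneg (v i),
    sq_nonneg (‖u i‖ - ‖v i‖)]

theorem nq_single (i : E) : nq (Pi.single i 1 : E → ℂ) = 1 := by
  rw [nq, Finset.sum_eq_single i]
  · simp
  · intro j _ hj
    simp [Pi.single_eq_of_ne hj]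
  · simp

theorem nq_zero : nq (0 : E → ℂ) = 0 := by
  simp [nq]

theorem pj_tr (v : E → ℂ) : (pj v).trace = (nq v : ℂ) := (pj_trace v).trans (dot_self v)

/-- Adding noise. -/
theorem pj_noise (v : E → ℂ) (x : ℝ) {c : ℂ} (hc : ‖c‖ = 1) :
    ∑ i : E, ∑ b : Bool, pj (v + ((x * (if b then 1 else -1) : ℝ) : ℂ) •
      (c • (Pi.single i 1 : E → ℂ))) =
      ((2 * Fintype.card E : ℝ) : ℂ) • pj v + ((2 * x ^ 2 : ℝ) : ℂ) • 1 := by
  have hc' : c * star c = 1 := by
    rw [RCLike.star_def, RCLike.mul_conj, hc]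
    norm_num
  ext p q
  have e1 : ∀ i : E, (∑ b : Bool, pj (v + ((x * (if b then 1 else -1) : ℝ) : ℂ) •
      (c • (Pi.single i 1 : E → ℂ)))) p q =
      2 * (v p * star (v q)) + 2 * (x : ℂ) ^ 2 * ((Pi.single i 1 : E → ℂ) p *
        star ((Pi.single i 1 : E → ℂ) q)) := by
    intro i
    obtain ⟨a, ha⟩ : ∃ a, a = (Pi.single i 1 : E → ℂ) p := ⟨_, rfl⟩
    obtain ⟨b, hb⟩ : ∃ b, b = (Pi.single i 1 : E → ℂ) q := ⟨_, rfl⟩
    simp only [Fintype.sum_bool, Matrix.add_apply, pj_apply, Pi.add_apply, Pi.smul_apply,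
      smul_eq_mul, star_add, star_mul', ← ha, ← hb, if_true, mul_one, Bool.false_eq_true,
      if_false, mul_neg, Complex.ofReal_neg, neg_mul, star_neg]
    rw [show star (x : ℂ) = x by rw [RCLike.star_def, Complex.conj_ofReal]]
    linear_combination (2 * (x : ℂ) ^ 2 * a * star b) * hc'
  rw [Matrix.sum_apply]
  simp only [e1]
  rw [Finset.sum_add_distrib, Finset.sum_const, Finset.card_univ, nsmul_eq_mul, ← Finset.mul_sum]
  have e2 : ∑ i : E, (Pi.single i 1 : E → ℂ) p * star ((Pi.single i 1 : E → ℂ) q) =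
      (1 : Matrix E E ℂ) p q := by
    rw [Finset.sum_eq_single p]
    · rw [Pi.single_eq_same, one_mul, one_apply]
      by_cases h : p = q
      · subst h
        simp
      · rw [if_neg h, Pi.single_eq_of_ne (Ne.symm h), star_zero]
    · intro i _ hi
      rw [Pi.single_eq_of_ne hi.symm, zero_mul]
    · simp
  rw [e2, Matrix.add_apply, Matrix.smul_apply, Matrix.smul_apply, pj_apply, smul_eq_mul,
    smul_eq_mul]
  push_cast
  ring

theorem pj_sand {A : Matrix E E ℂ} (hA : IsPr A) (u : E → ℂ) :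
    pj u * A * pj u = (nq (A *ᵥ u) : ℂ) • pj u := by
  have h1 : pj u * A * pj u = (star u ⬝ᵥ (A *ᵥ u)) • pj u := by
    rw [pj, vecMulVec_mul, vecMulVec_mul_vecMulVec, ← dotProduct_mulVec]
    ext i j
    simp only [vecMulVec_apply, Pi.smul_apply, smul_eq_mul, Matrix.smul_apply]
    ring
  rw [h1, IsPr.dot_self hA]

theorem pj_pj' (u : E → ℂ) : pj u * pj u = (nq u : ℂ) • pj u := by
  have h := pj_sand (isPr_one (E := E)) u
  rwa [mul_one, one_mulVec] at h

/-- The normalised projection. -/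
noncomputable def np (u : E → ℂ) : Matrix E E ℂ := (((nq u)⁻¹ : ℝ) : ℂ) • pj u

theorem np_pr {u : E → ℂ} (hu : 0 < nq u) : IsPr (np u) := by
  refine ⟨?_, ?_⟩
  · rw [np, conjTranspose_smul, pj_herm, RCLike.star_def, Complex.conj_ofReal]
  · rw [np, Matrix.smul_mul, Matrix.mul_smul, pj_pj', smul_smul, smul_smul, ← Complex.ofReal_mul,
      ← Complex.ofReal_mul]
    congr 2
    field_simp

theorem np_trace {u : E → ℂ} (hu : 0 < nq u) : (np u).trace.re = 1 := by
  rw [np, trace_smul, pj_tr, smul_eq_mul, ← Complex.ofReal_mul, Complex.ofReal_re,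
    inv_mul_cancel₀ hu.ne']

theorem np_sand {u : E → ℂ} (hu : 0 < nq u) : np u * pj u * np u = pj u := by
  rw [np, Matrix.smul_mul, Matrix.mul_smul, Matrix.smul_mul, pj_pj', Matrix.smul_mul, pj_pj',
    smul_smul, smul_smul, smul_smul, ← Complex.ofReal_mul, ← Complex.ofReal_mul,
    ← Complex.ofReal_mul]
  have : (nq u)⁻¹ * (nq u)⁻¹ * nq u * nq u = 1 := by field_simp
  rw [this, Complex.ofReal_one, one_smul]

theorem np_low {A : Matrix E E ℂ} (hA : IsPr A) {u : E → ℂ} (hu : 0 < nq u) {r : ℝ}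
    (h : r * nq u ≤ nq (A *ᵥ u)) : (np u * A * np u - (r : ℂ) • np u).PosSemidef := by
  have e : np u * A * np u - (r : ℂ) • np u =
      (((nq u)⁻¹ * ((nq u)⁻¹ * nq (A *ᵥ u) - r) : ℝ) : ℂ) • pj u := by
    rw [np, Matrix.smul_mul, Matrix.mul_smul, Matrix.smul_mul, pj_sand hA, smul_smul, smul_smul,
      smul_smul, ← sub_smul]
    congr 1
    push_cast
    ring
  rw [e]
  refine (pj_psd u).smul (Complex.zero_le_real.mpr (mul_nonneg (inv_nonneg.mpr hu.le) ?_))
  rw [sub_nonneg, inv_mul_eq_div, le_div_iff₀ hu]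
  exact h

/-- Noisy effects are combinations of projections which see all the labels. -/
theorem exists_split {Z : Type} [Fintype Z] [Nonempty Z] {A : Z → Matrix E E ℂ} {η : ℝ} (hη : 0 < η) (hη1 : η ≤ 1)
    (hw : ∀ z (i : E), A z *ᵥ Pi.single i 1 ≠ 0) :
    ∃ r : ℝ, 0 < r ∧ r ≤ 1 ∧ ∀ C : Matrix E E ℂ, C.PosSemidef →
      (C - ((η : ℂ) * C.trace) • 1).PosSemidef →
      ∃ (c : ℝ) (u : E × E × Bool → E → ℂ), 0 ≤ c ∧ C = (c : ℂ) • ∑ y, pj (u y) ∧
        ∀ y, 0 < nq (u y) ∧ ∀ z, r * nq (u y) ≤ nq (A z *ᵥ u y) := by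
  obtain ⟨x, hx⟩ : ∃ x, x = √η := ⟨_, rfl⟩
  have hx0 : 0 < x := by rw [hx]; exact Real.sqrt_pos.mpr hη
  have hx2 : x ^ 2 = η := by rw [hx]; exact Real.sq_sqrt hη.le
  obtain ⟨r, hr0, hr1, hr⟩ := exists_phase_unif (w := fun i : E => (Pi.single i 1 : E → ℂ)) hx0 hw
  have hgood : ∀ (v : E → ℂ) (s : ℕ) (i : E) (b : Bool), nq v ≤ 1 →
      (∀ z i (b : Bool), r ≤ nq (A z *ᵥ (v + ((x * (if b then 1 else -1) : ℝ) : ℂ) •
        (om s • (Pi.single i 1 : E → ℂ))))) →
      0 < nq (v + ((x * (if b then 1 else -1) : ℝ) : ℂ) • (om s • (Pi.single i 1 : E → ℂ))) ∧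
      ∀ z, r / 4 * nq (v + ((x * (if b then 1 else -1) : ℝ) : ℂ) •
        (om s • (Pi.single i 1 : E → ℂ))) ≤
        nq (A z *ᵥ (v + ((x * (if b then 1 else -1) : ℝ) : ℂ) •
          (om s • (Pi.single i 1 : E → ℂ)))) := by
    intro v s i b hv h
    have h1 : nq (v + ((x * (if b then 1 else -1) : ℝ) : ℂ) •
        (om s • (Pi.single i 1 : E → ℂ))) ≤ 4 := by
      refine (nq_add_le _ _).trans ?_
      rw [nq_smul', nq_smul', nq_single, om_norm, Complex.norm_real]
      have h2 : ‖x * (if b then (1 : ℝ) else -1)‖ ^ 2 = η := by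
        rw [Real.norm_eq_abs, sq_abs, mul_pow, hx2]
        split_ifs <;> norm_num
      rw [h2]
      linarith
    refine ⟨?_, fun z => ?_⟩
    · obtain ⟨z⟩ := (inferInstance : Nonempty Z)
      have h3 := h z i b
      refine lt_of_le_of_ne (nq_nonneg _) fun h4 => ?_
      have h5 := nq_eq_zero h4.symm
      rw [h5, mulVec_zero, nq_zero] at h3
      linarith
    · have h3 := h z i b
      nlinarith
  refine ⟨r / 4, by linarith, by linarith, fun C hC hC' => ?_⟩
  obtain ⟨ht0, ht⟩ := re_nonneg hC.trace_nonneg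
  obtain ⟨t, htd⟩ : ∃ t, t = C.trace.re := ⟨_, rfl⟩
  rw [← htd] at ht0 ht
  by_cases h0 : t = 0
  · obtain ⟨s, hs⟩ := hr 0 (by rw [nq_zero]; norm_num)
    refine ⟨0, fun y => 0 + ((x * (if y.2.2 then 1 else -1) : ℝ) : ℂ) •
      (om s • (Pi.single y.2.1 1 : E → ℂ)), le_rfl, ?_, fun y => ?_⟩
    · rw [Complex.ofReal_zero, zero_smul]
      exact psd_zero hC (by rw [ht, h0, Complex.ofReal_zero])
    · exact hgood 0 s y.2.1 y.2.2 (by rw [nq_zero]; norm_num) hs
  · have htp : 0 < t := lt_of_le_of_ne ht0 (Ne.symm h0)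
    have hN : ((t⁻¹ : ℝ) : ℂ) • (C - ((η : ℂ) * C.trace) • (1 : Matrix E E ℂ)) =
        ((t⁻¹ : ℝ) : ℂ) • C - (η : ℂ) • 1 := by
      rw [smul_sub, smul_smul, ht, mul_left_comm, ← Complex.ofReal_mul, inv_mul_cancel₀ htp.ne',
        Complex.ofReal_one, mul_one]
    have hNp : (((t⁻¹ : ℝ) : ℂ) • C - (η : ℂ) • (1 : Matrix E E ℂ)).PosSemidef := by
      rw [← hN]
      exact hC'.smul (Complex.zero_le_real.mpr (inv_nonneg.mpr ht0))
    obtain ⟨v, hv⟩ := psd_sum_pj hNp
    have htr : ∑ a, nq (v a) ≤ 1 := by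
      have h1 := congrArg Matrix.trace hv
      rw [trace_sub, trace_smul, trace_smul, trace_one, trace_sum, ht] at h1
      simp only [pj_tr, smul_eq_mul] at h1
      rw [← Complex.ofReal_mul, inv_mul_cancel₀ htp.ne'] at h1
      have h2 : (1 : ℝ) - η * Fintype.card E = ∑ a, nq (v a) := by exact_mod_cast h1
      rw [← h2]
      have : 0 ≤ η * Fintype.card E := by positivity
      linarith
    have hv1 : ∀ a, nq (v a) ≤ 1 := fun a =>
      (Finset.single_le_sum (f := fun a => nq (v a)) (fun a _ => nq_nonneg _)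
        (Finset.mem_univ a)).trans htr
    choose s hs using fun a => hr (v a) (hv1 a)
    have hD : (0 : ℝ) < Fintype.card E := by
      have : Nonempty E := by
        by_contra hE
        rw [not_nonempty_iff] at hE
        apply h0
        rw [htd]
        simp [Matrix.trace]
      exact_mod_cast Fintype.card_pos
    refine ⟨t / (2 * Fintype.card E), fun y => v y.1 +
      ((x * (if y.2.2 then 1 else -1) : ℝ) : ℂ) • (om (s y.1) • (Pi.single y.2.1 1 : E → ℂ)),
      by positivity, ?_, fun y => hgood _ _ _ _ (hv1 y.1) (hs y.1)⟩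
    have e1 : ∑ y : E × E × Bool, pj (v y.1 +
        ((x * (if y.2.2 then 1 else -1) : ℝ) : ℂ) • (om (s y.1) • (Pi.single y.2.1 1 : E → ℂ))) =
        ∑ a, (((2 * Fintype.card E : ℝ) : ℂ) • pj (v a) + ((2 * x ^ 2 : ℝ) : ℂ) • 1) := by
      rw [Fintype.sum_prod_type]
      refine Finset.sum_congr rfl fun a _ => ?_
      rw [← pj_noise (v a) x (om_norm (s a)), Fintype.sum_prod_type]
    rw [e1, Finset.sum_add_distrib, ← Finset.smul_sum, ← hv, Finset.sum_const, Finset.card_univ,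
      hx2]
    rw [← Nat.cast_smul_eq_nsmul ℂ, smul_smul, smul_sub, smul_smul, smul_smul]
    rw [smul_add, smul_sub, smul_smul, smul_smul, smul_smul]
    have f1 : ((t / (2 * Fintype.card E) : ℝ) : ℂ) * (((2 * Fintype.card E : ℝ) : ℂ) *
        ((t⁻¹ : ℝ) : ℂ)) = 1 := by
      rw [← Complex.ofReal_mul, ← Complex.ofReal_mul]
      have : t / (2 * Fintype.card E) * (2 * Fintype.card E * t⁻¹) = 1 := by field_simp
      rw [this, Complex.ofReal_one]
    have f2 : ((t / (2 * Fintype.card E) : ℝ) : ℂ) * (((Fintype.card E : ℕ) : ℂ) *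
        ((2 * η : ℝ) : ℂ)) = ((t / (2 * Fintype.card E) : ℝ) : ℂ) *
        (((2 * Fintype.card E : ℝ) : ℂ) * (η : ℂ)) := by
      push_cast
      ring
    rw [f1, f2, one_smul, sub_add_cancel]

end split

end Vale.Agent.P372.Ou
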