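import Vale.Agent.P372.R2.helper492.Ou.Noise2
import Vale.Agent.P372.R2.helper492.Ou.Defs2

/-! Noisy measurements: the theorem. -/

open Matrix Kronecker
open scoped ComplexOrder MatrixOrder

set_option linter.unusedSectionVars false

namespace Vale.Agent.P372.Ou

open Vale.Agent.P372.Half (tf)
open Vale.Agent.P372.PC (IsPr)

section supp

variable {A : Type} [Fintype A] [DecidableEq A]

theorem supp_trivial {n : ℕ} {P : Matrix (Fin n → A) (Fin n → A) ℂ} (h : P.PosSemidef) :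
    Supp (fun (_ : Fin n) (_ : Unit) => (1 : Matrix A A ℂ)) P := by
  refine ⟨fun _ => P, ?_, fun w => ⟨h, ?_⟩⟩
  · rw [Finset.sum_const, Finset.card_univ, Fintype.card_fun]
    simp
  · rw [piT_one, one_mul, mul_one]

theorem noisy_supp {κ : Type} {n M : ℕ} {C : Fin n → Fin M → Matrix A A ℂ}
    {Y : Type} [Fintype Y] [DecidableEq Y] {c : Fin n → Fin M → ℝ}
    {u : Fin n → Fin M → Y → A → ℂ} (hc : ∀ i j, 0 ≤ c i j)
    (hC : ∀ i j, C i j = (c i j : ℂ) • ∑ y, pj (u i j y)) (hu : ∀ i j y, 0 < nq (u i j y))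
    {P : κ → Matrix (Fin n → A) (Fin n → A) ℂ}
    (hP : ∀ k, ∃ q : (Fin n → Fin M) → ℝ, (∀ w, 0 ≤ q w) ∧
      P k = ∑ w, (q w : ℂ) • tens fun i => C i (w i)) (k : κ) :
    Supp (fun i (j : Fin M × Y) => np (u i j.1 j.2)) (P k) := by
  obtain ⟨q, hq, hPk⟩ := hP k
  refine ⟨fun w => ((q (fun i => (w i).1) * ∏ i, c i (w i).1 : ℝ) : ℂ) •
    piT (fun i => pj (u i (w i).1 (w i).2)), ?_, fun w => ⟨?_, ?_⟩⟩
  · rw [hPk, ← (Equiv.arrowProdEquivProdArrow (Fin n) (fun _ => Fin M) (fun _ => Y)).symm.sum_comp,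
      Fintype.sum_prod_type]
    refine Finset.sum_congr rfl fun w _ => ?_
    have e1 : (tens fun i => C i (w i)) = ((∏ i, c i (w i) : ℝ) : ℂ) •
        ∑ y : Fin n → Y, piT (fun i => pj (u i (w i) (y i))) := by
      change piT (fun i => C i (w i)) = _
      rw [← piT_sum fun i y => pj (u i (w i) y)]
      push_cast
      rw [← piT_smul']
      congr 1
      funext i
      exact hC i (w i)
    rw [e1, Finset.smul_sum, Finset.smul_sum]
    refine Finset.sum_congr rfl fun y _ => ?_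
    rw [smul_smul, ← Complex.ofReal_mul]
    rfl
  · refine (piT_posSemidef fun i => pj_psd _).smul (Complex.zero_le_real.mpr ?_)
    exact mul_nonneg (hq _) (Finset.prod_nonneg fun i _ => hc i _)
  · rw [Matrix.mul_smul, Matrix.smul_mul, ← piT_mul, ← piT_mul]
    congr 2
    funext i
    exact np_sand (hu i _ _)

end supp

theorem datA_index {A B J L : Type} [Fintype A] [DecidableEq A] [Fintype B] [DecidableEq B]
    [Fintype L] [DecidableEq L] [Fintype J]
    {R : Matrix (A × B) (A × B) ℂ} {p : J → Matrix A A ℂ} {a : L → Matrix A A ℂ}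
    {b : L → Matrix B B ℂ} {K : L → Matrix (A × B) (A × B) ℂ} (e : J ≃ Fin (Fintype.card J))
    (h : DatA R (fun j => p (e.symm j)) a b K) : DatA R p a b K := by
  obtain ⟨h1, h2, h3, h4, h5, h6⟩ := h
  refine ⟨h1, h2, h3, h4, fun l j => ?_, fun j => ?_⟩
  · have := h5 l (e j)
    beta_reduce at this
    rwa [e.symm_apply_apply] at this
  · have := h6 (e j)
    beta_reduce at this
    rwa [e.symm_apply_apply] at this

/-- The neighbourhood theorem for noisy measurements. -/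
theorem nb_noise (g k N : ℕ) (hg : 0 < g) (hk : 4 ≤ k) {η : ℝ} (hη : 0 < η) :
    ∃ ε : ℝ, 0 < ε ∧ ∀ R, Bd (R - base g k) ε → ∀ c : ℝ, 0 ≤ c →
      NoKeyNoisy (tpow N ((c : ℂ) • R)) η := by
  have hk0 : 0 < k := by omega
  have hkr : (2 * (1 : ℕ) + 2 : ℝ) ≤ k := by
    have : (4 : ℝ) ≤ k := by exact_mod_cast hk
    push_cast
    linarith
  have hdes := isDes hk0
  have hb0 : ∀ l, dv k l ≠ 0 := by
    intro l h
    have h1 := hdes.unit l
    rw [h] at h1
    simp at h1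
  obtain ⟨η', hη'0, hη'1, hη'⟩ : ∃ η' : ℝ, 0 < η' ∧ η' ≤ 1 ∧ η' ≤ η :=
    ⟨min η 1, lt_min hη one_pos, min_le_right _ _, min_le_left _ _⟩
  have : Nonempty (Fin k ⊕ (Fin k → Fin 4)) := ⟨Sum.inl ⟨0, hk0⟩⟩
  -- the rotations
  obtain ⟨r₀, hr₀, -, hrU⟩ := exists_unifs (g := g) N (Fin N → Fin g × Fin k)
    (Fin k ⊕ (Fin k → Fin 4)) (m := 1) (by omega) hb0
    (fun U l hU => alp_pr (rot_unit hU (hdes.unit l)))
  obtain ⟨U, hU, hUl⟩ := hrU (fun x => pj (Pi.single x 1)) fun x => by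
    have h1 : star (Pi.single x 1 : (Fin N → Fin g × Fin k) → ℂ) ⬝ᵥ Pi.single x 1 = 1 := by
      rw [dot_self, nq_single, Complex.ofReal_one]
    have h2 : IsPr (pj (Pi.single x 1 : (Fin N → Fin g × Fin k) → ℂ)) := by
      refine ⟨pj_herm _, ?_⟩
      rw [pj_pj', nq_single, Complex.ofReal_one, one_smul]
    refine ⟨h2.1, h2.2, ?_⟩
    rw [pj_tr, nq_single]
    simp
  obtain ⟨A, hAd⟩ : ∃ A : (Fin N → (Fin k ⊕ (Fin k → Fin 4))) →
      Matrix (Fin N → Fin g × Fin k) (Fin N → Fin g × Fin k) ℂ,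
      A = fun z => piT (fun i => alp g (U i *ᵥ dv k (z i))) := ⟨_, rfl⟩
  have hA : ∀ z, IsPr (A z) := by
    intro z
    rw [hAd]
    exact psd_piT_pr fun i => alp_pr (rot_unit (hU i).1 (hdes.unit _))
  have hw : ∀ z (i : Fin N → Fin g × Fin k), A z *ᵥ Pi.single i 1 ≠ 0 := by
    intro z i h
    have h1 := hUl i z
    have h2 : piT (fun i => alp g (U i *ᵥ dv k (z i))) = A z := by rw [hAd]
    rw [h2, pj_sand (hA z), h] at h1
    have h3 := h1.trace_nonneg
    rw [nq_zero, Complex.ofReal_zero, zero_smul, zero_sub, trace_neg, trace_smul, pj_tr, nq_single,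
      Complex.ofReal_one, smul_eq_mul, mul_one] at h3
    have h4 : (0 : ℝ) ≤ -r₀ := by exact_mod_cast h3
    linarith
  obtain ⟨r, hr0, hr1, hsplit⟩ := exists_split (A := A) hη'0 hη'1 hw
  obtain ⟨ε₁, ε₂, hε₁0, hε₂0, -, hpow, hδ, hεg, hε0, hε1⟩ := nb_num hr0 hr1 g k N
  refine ⟨ε₁ / (4 * (g + 1)), hε0, fun R hR c hc => ?_⟩
  -- the data of a block
  have key : ∀ R : Matrix ((Fin g × Fin k) × (Fin g × Fin k))
      ((Fin g × Fin k) × (Fin g × Fin k)) ℂ, Bd (R - base g k) (ε₁ / (4 * (g + 1))) →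
      (tf fun _ : Fin N => R).PosDef ∧
      ∀ (J : Type) [Fintype J] (u : J → (Fin N → Fin g × Fin k) → ℂ),
        (∀ y, 0 < nq (u y) ∧ ∀ z, r * nq (u y) ≤ nq (A z *ᵥ u y)) →
        ∃ (a b : LL g k N → Matrix (Fin N → Fin g × Fin k) (Fin N → Fin g × Fin k) ℂ)
          (K : LL g k N → Matrix ((Fin N → Fin g × Fin k) × (Fin N → Fin g × Fin k))
            ((Fin N → Fin g × Fin k) × (Fin N → Fin g × Fin k)) ℂ),
          DatA (tf fun _ : Fin N => R) (fun y => np (u y)) a b K := by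
    intro R hR
    have hlow : (R - ((k - 1 - ε₁ / (4 * (g + 1)) : ℝ) : ℂ) • 1).PosSemidef := by
      have h1 := hR.2.add (base_low (g := g) (k := k))
      have e : R - ((k - 1 - ε₁ / (4 * (g + 1)) : ℝ) : ℂ) • 1 =
          ((ε₁ / (4 * (g + 1)) : ℝ) : ℂ) • 1 + (R - base g k) +
            (base g k - ((k - 1 : ℝ) : ℂ) • 1) := by
        rw [Complex.ofReal_sub ((k : ℝ) - 1), sub_smul]
        abel
      rw [e]
      exact h1
    have hk4 : (4 : ℝ) ≤ k := by exact_mod_cast hk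
    have hpd : (tf fun _ : Fin N => R).PosDef := tf_posDef (by linarith) hlow
    refine ⟨hpd, fun J _ u hu => ?_⟩
    obtain ⟨e⟩ : Nonempty (J ≃ Fin (Fintype.card J)) := ⟨Fintype.equivFin J⟩
    obtain ⟨a, b, K, h⟩ := nb_core (m := 1) (P := fun j => np (u (e.symm j))) hg hkr hr0 hε₁0 hε₂0
      hpow hδ hεg hε0 hR hpd (fun j => ⟨np_pr (hu _).1, by
        rw [np_trace (hu _).1]
        norm_num⟩) (fun i => hdes.rotate (hU i).1 (hU i).2) (fun j z => by
        have h1 := np_low (hA z) (hu (e.symm j)).1 ((hu (e.symm j)).2 z)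
        rw [hAd] at h1
        exact h1)
    exact ⟨a, b, K, datA_index e h⟩
  obtain ⟨hpd, hKA⟩ := key R hR
  have hRs : Bd (R.submatrix Prod.swap Prod.swap - base g k) (ε₁ / (4 * (g + 1))) := by
    have h1 := hR.subm (Y := (Fin g × Fin k) × (Fin g × Fin k)) (e := Prod.swap)
      Prod.swap_injective
    have e : (R - base g k).submatrix Prod.swap Prod.swap =
        R.submatrix Prod.swap Prod.swap - base g k := by
      conv_rhs => rw [← base_swap]
      rfl
    rwa [e] at h1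
  obtain ⟨-, hKB⟩ := key _ hRs
  have hnoise : ∀ {κ : Type} {n : ℕ}
      {P : κ → Matrix (Fin n → Fin N → Fin g × Fin k) (Fin n → Fin N → Fin g × Fin k) ℂ},
      NoisyData η P → ∃ (J : Type) (_ : Fintype J)
        (u : Fin n → J → (Fin N → Fin g × Fin k) → ℂ),
        (∀ i y, 0 < nq (u i y) ∧ ∀ z, r * nq (u i y) ≤ nq (A z *ᵥ u i y)) ∧
        ∀ k, Supp (fun i j => np (u i j)) (P k) := by
    intro κ n P h
    obtain ⟨M, C, hC, hP⟩ := h
    have hC' : ∀ i j, (C i j - ((η' : ℂ) * (C i j).trace) • 1).PosSemidef := by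
      intro i j
      obtain ⟨ht0, ht⟩ := re_nonneg (hC i j).1.trace_nonneg
      have h1 := (PosSemidef.one (n := Fin N → Fin g × Fin k) (R := ℂ)).smul
        (Complex.zero_le_real.mpr (mul_nonneg (sub_nonneg.mpr hη') ht0))
      have h2 := (hC i j).2.add h1
      convert h2 using 1
      rw [ht]
      push_cast
      rw [Complex.ofReal_re]
      module
    choose c u hc0 hCu hu using fun i j => hsplit (C i j) (hC i j).1 (hC' i j)
    refine ⟨Fin M × ((Fin N → Fin g × Fin k) × (Fin N → Fin g × Fin k) × Bool), inferInstance,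
      fun i y => u i y.1 y.2, fun i y => hu i y.1 y.2, fun k => ?_⟩
    exact noisy_supp hc0 hCu (fun i j y => (hu i j y).1) hP k
  intro E _ _ Ψ hΨ n ℓ hℓ T _ f g' hL hS
  rw [PC.tpow_smul] at hΨ
  obtain ⟨hf, hg'⟩ := PC.locc_psd hL
  refine noKey_core (L := LL g k N) (pow_nonneg hc N) hpd.posSemidef hΨ hℓ hL fun t => ?_
  rcases hS t with h | h
  · obtain ⟨J, _, u, hu, hsu⟩ := hnoise h
    refine ⟨J, Unit, inferInstance, inferInstance, fun i j => np (u i j), fun _ _ => 1,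
      fun i j => np_pr (hu i j).1, fun _ _ => isPr_one, hsu, fun k => supp_trivial (hg' t k),
      fun i => Or.inl ⟨fun _ => rfl, ?_⟩⟩
    exact hKA J (u i) (hu i)
  · obtain ⟨J, _, u, hu, hsu⟩ := hnoise h
    refine ⟨Unit, J, inferInstance, inferInstance, fun _ _ => 1, fun i j => np (u i j),
      fun _ _ => isPr_one, fun i j => np_pr (hu i j).1, fun k => supp_trivial (hf t k), hsu,
      fun i => Or.inr ⟨fun _ => rfl, ?_⟩⟩
    obtain ⟨a, b, K, h1⟩ := hKB J (u i) (hu i)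
    exact ⟨b, a, _, dat_swap (R := tf fun _ : Fin N => R) h1⟩

theorem noise_entries (g k N : ℕ) (hg : 0 < g) (hk : 4 ≤ k) {η : ℝ} (hη : 0 < η) :
    ∃ δ : ℝ, 0 < δ ∧ ∀ ρ : Matrix ((Fin g × Fin k) × (Fin g × Fin k))
      ((Fin g × Fin k) × (Fin g × Fin k)) ℂ, ρ.PosSemidef → ρ.trace = 1 →
      (∀ p q, ‖ρ p q - sepState g k p q‖ ≤ δ) → NoKeyNoisy (tpow N ρ) η := by
  obtain ⟨ε, hε, h⟩ := nb_noise g k N hg hk hη
  obtain ⟨δ, hδ, hδ'⟩ := close_bd (g := g) (k := k) hg (by omega) hε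
  refine ⟨δ, hδ, fun ρ hρ _ hc => ?_⟩
  obtain ⟨c, R, hc0, hR, hcR⟩ := hδ' ρ hρ hc
  rw [hcR]
  exact h R hR c hc0

end Vale.Agent.P372.Ou
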