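import Vale.Agent.P372.R2.helper492.Ou.Lift

/-! Rotations of the labels of a block of copies. -/

open Matrix Kronecker
open scoped ComplexOrder MatrixOrder

set_option linter.unusedSectionVars false

namespace Vale.Agent.P372.Ou

open Vale.Agent.P372.PC (IsPr at1)

variable {g k : ℕ}

section full

theorem nq_mz (s : ℕ) : (nq (mz k s) : ℂ) = ∑ j : Fin k, (s : ℂ) ^ (2 * (j : ℕ)) := by
  simp only [nq, mz]
  push_cast
  refine Finset.sum_congr rfl fun j _ => ?_
  rw [norm_pow, Complex.norm_natCast]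
  push_cast
  ring

theorem star_mz (s : ℕ) : star (mz k s) = mz k s := by
  funext j
  simp [mz]

theorem finite_hh (hk : 0 < k) {b : Fin k → ℂ} (hb : b ≠ 0) (i : Fin k) :
    {s : ℕ | (hh (mz k s) *ᵥ b) i = 0}.Finite := by
  obtain ⟨p, hp⟩ : ∃ p : Polynomial ℂ, p = ∑ j : Fin k, Polynomial.C (b i) *
      Polynomial.X ^ (2 * (j : ℕ)) - ∑ j : Fin k, Polynomial.C (2 * b j) *
      Polynomial.X ^ ((i : ℕ) + (j : ℕ)) := ⟨_, rfl⟩
  have hz : ∀ s : ℕ, 0 < nq (mz k s) := by
    intro s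
    have h1 : ‖mz k s ⟨0, hk⟩‖ ^ 2 ≤ nq (mz k s) :=
      Finset.single_le_sum (f := fun i => ‖mz k s i‖ ^ 2) (fun i _ => by positivity)
        (Finset.mem_univ (⟨0, hk⟩ : Fin k))
    have h2 : mz k s ⟨0, hk⟩ = 1 := by simp [mz]
    rw [h2, norm_one, one_pow] at h1
    linarith
  have hev : ∀ s : ℕ, p.eval (s : ℂ) = (nq (mz k s) : ℂ) * (hh (mz k s) *ᵥ b) i := by
    intro s
    have h0 : (nq (mz k s) : ℂ) ≠ 0 := by exact_mod_cast (hz s).ne'
    have h1 : (nq (mz k s) : ℂ) * (hh (mz k s) *ᵥ b) i =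
        (nq (mz k s) : ℂ) * b i - 2 * (star (mz k s) ⬝ᵥ b) * mz k s i := by
      rw [hh_mulVec, Pi.sub_apply, Pi.smul_apply, smul_eq_mul]
      push_cast
      field_simp
    rw [h1, hp, Polynomial.eval_sub, Polynomial.eval_finsetSum, Polynomial.eval_finsetSum]
    simp only [Polynomial.eval_mul, Polynomial.eval_C, Polynomial.eval_pow, Polynomial.eval_X]
    rw [nq_mz, star_mz, ← Finset.mul_sum, mul_comm (b i)]
    congr 1
    simp only [dotProduct, mz, Finset.mul_sum, Finset.sum_mul]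
    refine Finset.sum_congr rfl fun j _ => ?_
    ring
  have hco : ∀ j : Fin k, p.coeff ((i : ℕ) + (j : ℕ)) =
      (∑ l : Fin k, if (i : ℕ) + (j : ℕ) = 2 * (l : ℕ) then b i else 0) - 2 * b j := by
    intro j
    rw [hp, Polynomial.coeff_sub, Polynomial.finsetSum_coeff, Polynomial.finsetSum_coeff]
    simp only [Polynomial.coeff_C_mul, Polynomial.coeff_X_pow, mul_ite, mul_one, mul_zero]
    congr 1
    rw [Finset.sum_eq_single j]
    · rw [if_pos rfl]
    · intro l _ hl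
      rw [if_neg]
      intro e
      exact hl (Fin.ext (by omega))
    · simp
  have hne : p ≠ 0 := by
    intro h
    by_cases hi : b i = 0
    · apply hb
      funext j
      have h1 := hco j
      rw [h] at h1
      simp only [hi, ite_self, Finset.sum_const_zero, Polynomial.coeff_zero, zero_sub] at h1
      have h2 : 2 * b j = 0 := neg_eq_zero.mp h1.symm
      simpa using h2
    · have h1 := hco i
      rw [h, Finset.sum_eq_single i, if_pos (by ring), Polynomial.coeff_zero] at h1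
      · apply hi
        linear_combination h1
      · intro l _ hl
        rw [if_neg]
        intro e
        exact hl (Fin.ext (by omega))
      · simp
  by_contra hinf
  have h1 : ((fun s : ℕ => (s : ℂ)) '' {s : ℕ | (hh (mz k s) *ᵥ b) i = 0}).Infinite :=
    Set.Infinite.image (Nat.cast_injective.injOn) hinf
  refine hne (Polynomial.eq_zero_of_infinite_isRoot p (h1.mono ?_))
  rintro _ ⟨s, hs, rfl⟩
  change p.eval (s : ℂ) = 0
  have hs' : (hh (mz k s) *ᵥ b) i = 0 := hs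
  rw [hev, hs', mul_zero]

theorem exists_full (hk : 0 < k) {L : Type} [Finite L] {b : L → Fin k → ℂ}
    (hb : ∀ l, b l ≠ 0) :
    ∃ U : Matrix (Fin k) (Fin k) ℂ, (Uᴴ * U = 1 ∧ U * Uᴴ = 1) ∧ ∀ l i, (U *ᵥ b l) i ≠ 0 := by
  have hfin : (⋃ l, ⋃ i, {s : ℕ | (hh (mz k s) *ᵥ b l) i = 0}).Finite :=
    Set.finite_iUnion fun l => Set.finite_iUnion fun i => finite_hh hk (hb l) i
  obtain ⟨s, hs⟩ := hfin.infinite_compl.nonempty
  have hz : 0 < nq (mz k s) := by
    have h1 : ‖mz k s ⟨0, hk⟩‖ ^ 2 ≤ nq (mz k s) :=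
      Finset.single_le_sum (f := fun i => ‖mz k s i‖ ^ 2) (fun i _ => by positivity)
        (Finset.mem_univ (⟨0, hk⟩ : Fin k))
    have h2 : mz k s ⟨0, hk⟩ = 1 := by simp [mz]
    rw [h2, norm_one, one_pow] at h1
    linarith
  refine ⟨hh (mz k s), ⟨by rw [hh_herm, hh_mul hz], by rw [hh_herm, hh_mul hz]⟩, fun l i h => ?_⟩
  exact hs (Set.mem_iUnion.mpr ⟨l, Set.mem_iUnion.mpr ⟨i, h⟩⟩)

end full

section phases

/-- Points of the unit circle. -/
noncomputable def om (s : ℕ) : ℂ := (1 + (s : ℂ) * Complex.I) / (1 - (s : ℂ) * Complex.I)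

theorem om_ne (s : ℕ) : 1 + (s : ℂ) * Complex.I ≠ 0 ∧ 1 - (s : ℂ) * Complex.I ≠ 0 := by
  refine ⟨fun h => ?_, fun h => ?_⟩
  · have := congrArg Complex.re h
    simp at this
  · have := congrArg Complex.re h
    simp at this

theorem om_norm (s : ℕ) : ‖om s‖ = 1 := by
  rw [om, norm_div]
  have h : ‖1 + (s : ℂ) * Complex.I‖ = ‖1 - (s : ℂ) * Complex.I‖ := by
    have h1 : star (1 + (s : ℂ) * Complex.I) = 1 - (s : ℂ) * Complex.I := by
      simp [sub_eq_add_neg]
    rw [← h1, norm_star]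
  rw [h]
  exact div_self (norm_ne_zero_iff.mpr (om_ne s).2)

theorem om_inj : Function.Injective om := by
  intro a b h
  rw [om, om, div_eq_div_iff (om_ne a).2 (om_ne b).2] at h
  have h1 : (2 * Complex.I) * ((a : ℂ) - b) = 0 := by linear_combination h
  have h2 : (2 * Complex.I) ≠ 0 := mul_ne_zero two_ne_zero Complex.I_ne_zero
  have h3 := (mul_eq_zero.mp h1).resolve_left h2
  have h4 : (a : ℂ) = b := sub_eq_zero.mp h3
  exact_mod_cast h4

/-- The diagonal rotation. -/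
noncomputable def dg (k : ℕ) (s : ℕ) : Matrix (Fin k) (Fin k) ℂ :=
  diagonal fun j => om s ^ (j : ℕ)

theorem dg_unit (s : ℕ) : (dg k s)ᴴ * dg k s = 1 ∧ dg k s * (dg k s)ᴴ = 1 := by
  have h : ∀ j : Fin k, star (om s ^ (j : ℕ)) * om s ^ (j : ℕ) = 1 := by
    intro j
    rw [RCLike.star_def, RCLike.conj_mul, norm_pow, om_norm]
    simp
  refine ⟨?_, ?_⟩
  · rw [dg, diagonal_conjTranspose, diagonal_mul_diagonal, ← diagonal_one]
    congr 1
    funext j
    exact h j
  · rw [dg, diagonal_conjTranspose, diagonal_mul_diagonal, ← diagonal_one]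
    congr 1
    funext j
    rw [mul_comm]
    exact h j

theorem dg_mulVec (s : ℕ) (y : Fin k → ℂ) (j : Fin k) :
    (dg k s *ᵥ y) j = om s ^ (j : ℕ) * y j := by
  rw [dg, mulVec_diagonal]

end phases

section slice

variable {N : ℕ}

theorem at1_mulVec {X : Type} [Fintype X] [DecidableEq X] (i : Fin N) (M : Matrix X X ℂ)
    (v : (Fin N → X) → ℂ) (x : Fin N → X) :
    (at1 i M *ᵥ v) x = ∑ a, M (x i) a * v (Function.update x i a) := by
  rw [mulVec, dotProduct]
  symm
  refine Fintype.sum_of_injective (fun a => Function.update x i a)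
    (Function.update_injective x i) _ _ (fun y hy => ?_) fun a => ?_
  · rw [at1_apply]
    have h1 : ∃ j, j ≠ i ∧ x j ≠ y j := by
      by_contra hcon
      push Not at hcon
      refine hy ⟨y i, ?_⟩
      funext j
      by_cases hj : j = i
      · rw [hj]
        simp
      · change Function.update x i (y i) j = y j
        rw [Function.update_of_ne hj]
        exact hcon j hj
    obtain ⟨j, hj, hxy⟩ := h1
    have h2 : ∏ j ∈ Finset.univ.erase i, (1 : Matrix X X ℂ) (x j) (y j) = 0 :=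
      Finset.prod_eq_zero (Finset.mem_erase.mpr ⟨hj, Finset.mem_univ j⟩) (Matrix.one_apply_ne hxy)
    rw [h2, mul_zero, zero_mul]
  · beta_reduce
    rw [at1_apply, Function.update_self]
    have h2 : ∏ j ∈ Finset.univ.erase i, (1 : Matrix X X ℂ) (x j) (Function.update x i a j) = 1 := by
      refine Finset.prod_eq_one fun j hj => ?_
      rw [Function.update_of_ne (Finset.ne_of_mem_erase hj), Matrix.one_apply_eq]
    rw [h2, mul_one]

/-- The contraction of `v` with `u` at the copy `i`. -/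
noncomputable def ctr (i : Fin N) (u : Fin k → ℂ) (v : (Fin N → Fin g × Fin k) → ℂ)
    (x : Fin N → Fin g × Fin k) : ℂ :=
  ∑ j, star (u j) * v (Function.update x i ((x i).1, j))

theorem at1_pj (i : Fin N) (u : Fin k → ℂ) (v : (Fin N → Fin g × Fin k) → ℂ)
    (x : Fin N → Fin g × Fin k) :
    (at1 i ((1 : Matrix (Fin g) (Fin g) ℂ) ⊗ₖ pj u) *ᵥ v) x = u (x i).2 * ctr i u v x := by
  rw [at1_mulVec, Fintype.sum_prod_type, ctr, Finset.mul_sum, Finset.sum_eq_single (x i).1]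
  · refine Finset.sum_congr rfl fun j _ => ?_
    rw [kroneckerMap_apply, Matrix.one_apply_eq, pj_apply, one_mul, mul_assoc]
  · intro a _ ha
    refine Finset.sum_eq_zero fun j _ => ?_
    rw [kroneckerMap_apply, Matrix.one_apply_ne (Ne.symm ha), zero_mul, zero_mul]
  · simp

theorem ctr_update (i : Fin N) (u : Fin k → ℂ) (v : (Fin N → Fin g × Fin k) → ℂ)
    (x : Fin N → Fin g × Fin k) (j : Fin k) :
    ctr i u v (Function.update x i ((x i).1, j)) = ctr i u v x := by
  simp only [ctr, Function.update_self, Function.update_idem]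

theorem bad_finite {m : ℕ} (hmk : m + 1 ≤ k) (i : Fin N) {y : Fin k → ℂ} (hy : ∀ j, y j ≠ 0)
    {P : Matrix (Fin N → Fin g × Fin k) (Fin N → Fin g × Fin k) ℂ} (hP : IsPr P)
    (hm : P.trace.re ≤ m) :
    {s : ℕ | ∃ v, v ≠ 0 ∧ P *ᵥ v = v ∧
      at1 i ((1 : Matrix (Fin g) (Fin g) ℂ) ⊗ₖ pj (dg k s *ᵥ y)) *ᵥ v = v}.Finite := by
  by_contra hinf
  obtain ⟨t, ht⟩ : ∃ t : ℕ ↪ {s : ℕ | ∃ v, v ≠ 0 ∧ P *ᵥ v = v ∧
      at1 i ((1 : Matrix (Fin g) (Fin g) ℂ) ⊗ₖ pj (dg k s *ᵥ y)) *ᵥ v = v}, True :=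
    ⟨Set.Infinite.natEmbedding _ hinf, trivial⟩
  choose v hv0 hv1 hv2 using fun r : Fin (m + 1) => (t (r : ℕ)).2
  have hinj : Function.Injective fun r : Fin (m + 1) => om (t (r : ℕ) : ℕ) := by
    intro a b h
    have h1 := om_inj h
    exact Fin.ext (t.injective (Subtype.ext h1))
  have hval : ∀ r x, v r x = (om (t (r : ℕ) : ℕ) ^ ((x i).2 : ℕ) * y (x i).2) *
      ctr i (dg k (t (r : ℕ) : ℕ) *ᵥ y) (v r) x := by
    intro r x
    conv_lhs => rw [← hv2 r]
    rw [at1_pj, dg_mulVec]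
  have hli : LinearIndependent ℂ v := by
    rw [Fintype.linearIndependent_iff]
    intro c hc r₀
    obtain ⟨x, hx⟩ : ∃ x, v r₀ x ≠ 0 := Function.ne_iff.mp (hv0 r₀)
    have hW : ctr i (dg k (t (r₀ : ℕ) : ℕ) *ᵥ y) (v r₀) x ≠ 0 := by
      intro h
      apply hx
      rw [hval, h, mul_zero]
    have h1 : ∀ j : Fin k, ∑ r : Fin (m + 1), (c r * ctr i (dg k (t (r : ℕ) : ℕ) *ᵥ y) (v r) x) *
        om (t (r : ℕ) : ℕ) ^ (j : ℕ) = 0 := by
      intro j
      have h2 := congrFun hc (Function.update x i ((x i).1, j))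
      rw [Finset.sum_apply] at h2
      simp only [Pi.smul_apply, smul_eq_mul, Pi.zero_apply] at h2
      have h3 : y j * ∑ r : Fin (m + 1), (c r * ctr i (dg k (t (r : ℕ) : ℕ) *ᵥ y) (v r) x) *
          om (t (r : ℕ) : ℕ) ^ (j : ℕ) = 0 := by
        rw [← h2, Finset.mul_sum]
        refine Finset.sum_congr rfl fun r _ => ?_
        rw [hval r (Function.update x i ((x i).1, j)), ctr_update, Function.update_self]
        ring
      exact (mul_eq_zero.mp h3).resolve_left (hy j)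
    have h4 := Matrix.eq_zero_of_forall_pow_sum_mul_pow_eq_zero (n := m + 1) hinj
      (v := fun r => c r * ctr i (dg k (t (r : ℕ) : ℕ) *ᵥ y) (v r) x)
      (fun j => h1 ⟨(j : ℕ), by omega⟩)
    have h5 : c r₀ * ctr i (dg k (t (r₀ : ℕ) : ℕ) *ᵥ y) (v r₀) x = 0 := congrFun h4 r₀
    exact (mul_eq_zero.mp h5).resolve_right hW
  have hmem : ∀ r, v r ∈ LinearMap.range P.mulVecLin := fun r => ⟨v r, hv1 r⟩
  have hli' : LinearIndependent ℂ fun r => (⟨v r, hmem r⟩ : LinearMap.range P.mulVecLin) := by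
    apply LinearIndependent.of_comp (LinearMap.range P.mulVecLin).subtype
    exact hli
  have hcard := hli'.fintype_card_le_finrank
  rw [Fintype.card_fin] at hcard
  have hrk : (P.rank : ℝ) = P.trace.re := by rw [isPr_trace hP, Complex.ofReal_re]
  have h6 : (P.rank : ℝ) ≤ m := by rw [hrk]; exact hm
  have h7 : P.rank ≤ m := by exact_mod_cast h6
  have h8 : m + 1 ≤ P.rank := hcard
  omega

theorem exists_rot_one {m : ℕ} (hmk : m + 1 ≤ k) (i : Fin N) {J L : Type} [Finite J] [Finite L]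
    {P : J → Matrix (Fin N → Fin g × Fin k) (Fin N → Fin g × Fin k) ℂ} (hP : ∀ j, IsPr (P j))
    (hm : ∀ j, (P j).trace.re ≤ m) {b : L → Fin k → ℂ} (hb : ∀ l, b l ≠ 0) :
    ∃ U : Matrix (Fin k) (Fin k) ℂ, (Uᴴ * U = 1 ∧ U * Uᴴ = 1) ∧ ∀ j l v, P j *ᵥ v = v →
      at1 i ((1 : Matrix (Fin g) (Fin g) ℂ) ⊗ₖ pj (U *ᵥ b l)) *ᵥ v = v → v = 0 := by
  obtain ⟨V, hV, hV2⟩ := exists_full (by omega : 0 < k) hb
  have hfin : (⋃ j, ⋃ l, {s : ℕ | ∃ v, v ≠ 0 ∧ P j *ᵥ v = v ∧
      at1 i ((1 : Matrix (Fin g) (Fin g) ℂ) ⊗ₖ pj (dg k s *ᵥ (V *ᵥ b l))) *ᵥ v = v}).Finite :=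
    Set.finite_iUnion fun j => Set.finite_iUnion fun l =>
      bad_finite hmk i (hV2 l) (hP j) (hm j)
  obtain ⟨s, hs⟩ := hfin.infinite_compl.nonempty
  refine ⟨dg k s * V, ⟨?_, ?_⟩, fun j l v h1 h2 => ?_⟩
  · rw [conjTranspose_mul]
    calc Vᴴ * (dg k s)ᴴ * (dg k s * V) = Vᴴ * ((dg k s)ᴴ * dg k s) * V := by
          simp only [Matrix.mul_assoc]
      _ = 1 := by rw [(dg_unit s).1, mul_one, hV.1]
  · rw [conjTranspose_mul]
    calc dg k s * V * (Vᴴ * (dg k s)ᴴ) = dg k s * (V * Vᴴ) * (dg k s)ᴴ := by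
          simp only [Matrix.mul_assoc]
      _ = 1 := by rw [hV.2, mul_one, (dg_unit s).2]
  · by_contra h0
    refine hs (Set.mem_iUnion.mpr ⟨j, Set.mem_iUnion.mpr ⟨l, v, h0, h1, ?_⟩⟩)
    rw [mulVec_mulVec]
    exact h2

/-- Rotations for all copies of a block. -/
theorem exists_rots {m : ℕ} (hmk : m + 1 ≤ k) {L : Type} [Finite L] {b : L → Fin k → ℂ}
    (hb : ∀ l, b l ≠ 0) (s : Finset (Fin N)) :
    ∀ (J : Type) [Finite J]
      (P : J → Matrix (Fin N → Fin g × Fin k) (Fin N → Fin g × Fin k) ℂ), (∀ j, IsPr (P j)) →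
      (∀ j, (P j).trace.re ≤ m) →
      ∃ U : Fin N → Matrix (Fin k) (Fin k) ℂ, (∀ i, (U i)ᴴ * U i = 1 ∧ U i * (U i)ᴴ = 1) ∧
        ∀ j (z : Fin N → L) v, P j *ᵥ v = v →
          piT (fun i => if i ∈ s then
            1 - (1 : Matrix (Fin g) (Fin g) ℂ) ⊗ₖ pj (U i *ᵥ b (z i)) else 1) *ᵥ v = 0 → v = 0 := by
  classical
  induction s using Finset.induction_on with
  | empty =>
    intro J _ P _ _
    refine ⟨fun _ => 1, fun i => by simp, fun j z v _ h => ?_⟩
    have e : piT (fun i : Fin N => if i ∈ (∅ : Finset (Fin N)) then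
        1 - (1 : Matrix (Fin g) (Fin g) ℂ) ⊗ₖ pj ((1 : Matrix (Fin k) (Fin k) ℂ) *ᵥ b (z i))
        else 1) = 1 := by
      rw [← piT_one]
      congr 1
    rw [e, one_mulVec] at h
    exact h
  | insert i s hi ih =>
    intro J _ P hP hm
    obtain ⟨V, hV, hV2⟩ := exists_rot_one hmk i hP hm hb
    choose P' G hP1 hP2 hP3 hP4 using fun x : J × L => exists_range
      (at1 i (1 - (1 : Matrix (Fin g) (Fin g) ℂ) ⊗ₖ pj (V *ᵥ b x.2)) * P x.1)
    have hm' : ∀ x, (P' x).trace.re ≤ m := by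
      intro x
      rw [hP4, Complex.ofReal_re]
      have h1 : ((at1 i (1 - (1 : Matrix (Fin g) (Fin g) ℂ) ⊗ₖ pj (V *ᵥ b x.2)) *
          P x.1).rank : ℝ) ≤ ((P x.1).rank : ℝ) := by
        exact_mod_cast rank_mul_le_right _ _
      have h2 : ((P x.1).rank : ℝ) = (P x.1).trace.re := by
        rw [isPr_trace (hP x.1), Complex.ofReal_re]
      linarith [hm x.1]
    obtain ⟨U, hU, hU2⟩ := ih (J × L) P' hP1 hm'
    refine ⟨Function.update U i V, fun i' => ?_, fun j z v h1 h2 => ?_⟩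
    · by_cases h : i' = i
      · rw [h, Function.update_self]
        exact hV
      · rw [Function.update_of_ne h]
        exact hU i'
    · have e : piT (fun i' => if i' ∈ insert i s then
          1 - (1 : Matrix (Fin g) (Fin g) ℂ) ⊗ₖ pj (Function.update U i V i' *ᵥ b (z i'))
          else 1) = piT (fun i' => if i' ∈ s then
          1 - (1 : Matrix (Fin g) (Fin g) ℂ) ⊗ₖ pj (U i' *ᵥ b (z i')) else 1) *
          at1 i (1 - (1 : Matrix (Fin g) (Fin g) ℂ) ⊗ₖ pj (V *ᵥ b (z i))) := by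
        rw [at1, ← piT_mul]
        congr 1
        funext i'
        by_cases h : i' = i
        · subst h
          rw [if_pos (Finset.mem_insert_self _ _), if_neg hi, if_pos rfl, one_mul,
            Function.update_self]
        · rw [Function.update_of_ne h, if_neg h, mul_one]
          simp only [Finset.mem_insert, h, false_or]
      rw [e, ← mulVec_mulVec] at h2
      have h3 : at1 i (1 - (1 : Matrix (Fin g) (Fin g) ℂ) ⊗ₖ pj (V *ᵥ b (z i))) *ᵥ v = 0 := by
        refine hU2 (j, z i) z _ ?_ h2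
        have h4 : at1 i (1 - (1 : Matrix (Fin g) (Fin g) ℂ) ⊗ₖ pj (V *ᵥ b (z i))) *ᵥ v =
            (at1 i (1 - (1 : Matrix (Fin g) (Fin g) ℂ) ⊗ₖ pj (V *ᵥ b (z i))) * P j) *ᵥ v := by
          rw [← mulVec_mulVec, h1]
        rw [h4, mulVec_mulVec]
        congr 1
        exact hP2 (j, z i)
      refine hV2 j (z i) v h1 ?_
      rw [at1_sub, at1_one, sub_mulVec, one_mulVec] at h3
      exact (sub_eq_zero.mp h3).symm

end slice

section unif

variable {E : Type} [Fintype E] [DecidableEq E]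

theorem det_bound {X : Matrix E E ℂ} (h0 : X.PosSemidef) (h1 : (1 - X).PosSemidef) {r : ℝ}
    (hr : r ≤ ‖X.det‖) : (X - (r : ℂ) • 1).PosSemidef := by
  have hX := h0.isHermitian
  have hle : ∀ i, hX.eigenvalues i ≤ 1 := by
    intro i
    have h2 : fcalc hX (fun x => 1 - x) = 1 - X := by
      rw [← fcalc_sub, fcalc_one, fcalc_id]
    rw [← h2] at h1
    have h3 := (h1.conjTranspose_mul_mul_same
      (hX.eigenvectorUnitary : Matrix E E ℂ)).diag_nonneg (i := i)
    have h4 : (hX.eigenvectorUnitary : Matrix E E ℂ)ᴴ * fcalc hX (fun x => 1 - x) *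
        (hX.eigenvectorUnitary : Matrix E E ℂ) =
        diagonal fun i => ((1 - hX.eigenvalues i : ℝ) : ℂ) := by
      rw [fcalc]
      calc _ = ((hX.eigenvectorUnitary : Matrix E E ℂ)ᴴ * (hX.eigenvectorUnitary : Matrix E E ℂ)) *
            (diagonal fun i => ((1 - hX.eigenvalues i : ℝ) : ℂ)) *
            ((hX.eigenvectorUnitary : Matrix E E ℂ)ᴴ *
              (hX.eigenvectorUnitary : Matrix E E ℂ)) := by simp only [Matrix.mul_assoc]
        _ = _ := by rw [eigU_mul' hX, one_mul, mul_one]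
    rw [h4, diagonal_apply_eq, Complex.zero_le_real] at h3
    linarith
  have hge : ∀ i, 0 ≤ hX.eigenvalues i := fun i => h0.eigenvalues_nonneg i
  have hdet : ‖X.det‖ = ∏ i, hX.eigenvalues i := by
    rw [hX.det_eq_prod_eigenvalues, norm_prod]
    refine Finset.prod_congr rfl fun i _ => ?_
    rw [RCLike.norm_ofReal, abs_of_nonneg (hge i)]
  have hprod : ∀ i, ∏ j, hX.eigenvalues j ≤ hX.eigenvalues i := by
    intro i
    rw [← Finset.mul_prod_erase _ _ (Finset.mem_univ i)]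
    exact mul_le_of_le_one_right (hge i) (Finset.prod_le_one (fun j _ => hge j) fun j _ => hle j)
  have h5 : fcalc hX (fun x => x - r * 1) = X - (r : ℂ) • 1 := by
    have h6 : fcalc hX (fun x => x) - (r : ℂ) • fcalc hX (fun _ => 1) =
        fcalc hX (fun x => x - r * 1) := by
      rw [← fcalc_sub, fcalc_one, fcalc_id]
      congr 1
      rw [fcalc]
      have h7 : (diagonal fun i : E => ((r * 1 : ℝ) : ℂ)) = (r : ℂ) • (1 : Matrix E E ℂ) := by
        rw [← diagonal_one, ← diagonal_smul]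
        congr 1
        funext i
        simp
      rw [h7, Matrix.mul_smul, Matrix.smul_mul, mul_one, eigU_mul]
    rw [← h6, fcalc_one, fcalc_id]
  rw [← h5]
  refine fcalc_posSemidef hX fun i => ?_
  have := hprod i
  rw [← hdet] at this
  linarith

theorem inj_bound {A P : Matrix E E ℂ} (hA : IsPr A) (hP : IsPr P)
    (h : ∀ v, P *ᵥ v = v → A *ᵥ v = 0 → v = 0) : (1 - P + P * A * P).det ≠ 0 := by
  intro h0
  obtain ⟨w, hw0, hw⟩ := Matrix.exists_mulVec_eq_zero_iff.mpr h0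
  apply hw0
  have h1 : (1 - P) *ᵥ w = 0 := by
    have h2 : (1 - P) * (1 - P + P * A * P) = 1 - P := by
      rw [Matrix.mul_add, hP.compl.2, ← Matrix.mul_assoc, ← Matrix.mul_assoc, Matrix.sub_mul 1 P P,
        one_mul, hP.2, sub_self, Matrix.zero_mul, Matrix.zero_mul, add_zero]
    rw [← h2, ← mulVec_mulVec, hw, mulVec_zero]
  have h3 : P *ᵥ w = w := by
    rw [sub_mulVec, one_mulVec] at h1
    exact (sub_eq_zero.mp h1).symm
  have h4 : (P * A * P) *ᵥ w = 0 := by
    rw [add_mulVec, h1, zero_add] at hw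
    exact hw
  refine h w h3 (nq_eq_zero ?_)
  have h5 : star w ⬝ᵥ ((P * A * P) *ᵥ w) = (nq (A *ᵥ w) : ℂ) := by
    rw [← mulVec_mulVec, ← mulVec_mulVec, ← IsPr.dot hP, h3, IsPr.dot_self hA]
  rw [h4, dotProduct_zero] at h5
  exact_mod_cast h5.symm

theorem det_low {A P : Matrix E E ℂ} (hA : IsPr A) (hP : IsPr P) {r : ℝ}
    (hr : r ≤ ‖(1 - P + P * A * P).det‖) : (P * A * P - (r : ℂ) • P).PosSemidef := by
  have hA0 : (P * A * P).PosSemidef := by
    have h := hA.psd.mul_mul_conjTranspose_same P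
    rwa [hP.1] at h
  have hA1 : (P * (1 - A) * P).PosSemidef := by
    have h := hA.compl.psd.mul_mul_conjTranspose_same P
    rwa [hP.1] at h
  have h1 : (1 - P + P * A * P).PosSemidef := hP.compl.psd.add hA0
  have h2 : (1 - (1 - P + P * A * P)).PosSemidef := by
    convert hA1 using 1
    rw [Matrix.mul_sub, mul_one, Matrix.sub_mul, hP.2]
    abel
  have h3 := (det_bound h1 h2 hr).mul_mul_conjTranspose_same P
  rw [hP.1] at h3
  convert h3 using 1
  have e1 : P * (1 - P) = 0 := by rw [Matrix.mul_sub, mul_one, hP.2, sub_self]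
  have e2 : P * (P * A * P) * P = P * A * P := by
    calc P * (P * A * P) * P = (P * P) * A * (P * P) := by simp only [Matrix.mul_assoc]
      _ = _ := by rw [hP.2]
  rw [Matrix.mul_sub, Matrix.sub_mul, Matrix.mul_add, Matrix.add_mul, e1, Matrix.zero_mul, zero_add,
    e2, Matrix.mul_smul, Matrix.smul_mul, mul_one, hP.2]

/-- The projections of small rank. -/
def PR (E : Type) [Fintype E] [DecidableEq E] (m : ℝ) : Set (Matrix E E ℂ) :=
  {P | Pᴴ = P ∧ P * P = P ∧ P.trace.re ≤ m}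

theorem pr_compact (m : ℝ) : IsCompact (PR E m) := by
  have h1 : IsCompact (Set.pi Set.univ fun _ : E => Set.pi Set.univ fun _ : E =>
      Metric.closedBall (0 : ℂ) 1) :=
    isCompact_univ_pi fun _ => isCompact_univ_pi fun _ => isCompact_closedBall _ _
  refine h1.of_isClosed_subset ?_ ?_
  · have e : PR E m = ({P : Matrix E E ℂ | Pᴴ = P} ∩ {P | P * P = P}) ∩
        {P | P.trace.re ≤ m} := by
      ext P
      constructor
      · rintro ⟨a, b, c⟩
        exact ⟨⟨a, b⟩, c⟩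
      · rintro ⟨⟨a, b⟩, c⟩
        exact ⟨a, b, c⟩
    rw [e]
    refine ((isClosed_eq ?_ continuous_id).inter (isClosed_eq ?_ continuous_id)).inter
      (isClosed_le ?_ continuous_const)
    · exact continuous_id.matrix_conjTranspose
    · exact continuous_id.matrix_mul continuous_id
    · exact Complex.continuous_re.comp continuous_id.matrix_trace
  · rintro P ⟨hP1, hP2, -⟩
    have hii : ∀ i, (P i i).re = ∑ k, ‖P i k‖ ^ 2 := by
      intro i
      have h2 : ∑ k, P i k * P k i = P i i := congrFun (congrFun hP2 i) i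
      rw [← h2, Complex.re_sum]
      refine Finset.sum_congr rfl fun k _ => ?_
      have h3 : P k i = star (P i k) := (congrFun (congrFun hP1 k) i).symm
      rw [h3, RCLike.star_def, RCLike.mul_conj]
      norm_cast
    have hle : ∀ i, (P i i).re ≤ 1 := by
      intro i
      have h3 : (P i i).re ^ 2 ≤ (P i i).re := by
        calc (P i i).re ^ 2 ≤ ‖P i i‖ ^ 2 := by
              rw [← sq_abs]
              exact pow_le_pow_left₀ (abs_nonneg _) (Complex.abs_re_le_norm _) 2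
          _ ≤ ∑ k, ‖P i k‖ ^ 2 := Finset.single_le_sum (f := fun k => ‖P i k‖ ^ 2)
              (fun _ _ => by positivity) (Finset.mem_univ i)
          _ = _ := (hii i).symm
      nlinarith
    rw [Set.mem_univ_pi]
    intro i
    rw [Set.mem_univ_pi]
    intro k
    rw [mem_closedBall_zero_iff]
    have h4 : ‖P i k‖ ^ 2 ≤ 1 := by
      calc ‖P i k‖ ^ 2 ≤ ∑ k, ‖P i k‖ ^ 2 := Finset.single_le_sum (f := fun k => ‖P i k‖ ^ 2)
            (fun _ _ => by positivity) (Finset.mem_univ k)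
        _ = (P i i).re := (hii i).symm
        _ ≤ 1 := hle i
    exact (sq_le_one_iff₀ (norm_nonneg _)).mp h4

variable {N : ℕ}

/-- Alice's label projections. -/
noncomputable def alp (g : ℕ) (v : Fin k → ℂ) : Matrix (Fin g × Fin k) (Fin g × Fin k) ℂ :=
  1 - (1 : Matrix (Fin g) (Fin g) ℂ) ⊗ₖ pj v

theorem exists_unifs (N : ℕ) (J L : Type) [Fintype J] [Fintype L] {m : ℕ} (hmk : m + 1 ≤ k)
    {b : L → Fin k → ℂ} (hb : ∀ l, b l ≠ 0)
    (hpr : ∀ (U : Matrix (Fin k) (Fin k) ℂ) l, Uᴴ * U = 1 → IsPr (alp g (U *ᵥ b l))) :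
    ∃ r : ℝ, 0 < r ∧ r ≤ 1 ∧
      ∀ P : J → Matrix (Fin N → Fin g × Fin k) (Fin N → Fin g × Fin k) ℂ,
      (∀ j, P j ∈ PR (Fin N → Fin g × Fin k) m) →
      ∃ U : Fin N → Matrix (Fin k) (Fin k) ℂ, (∀ i, (U i)ᴴ * U i = 1 ∧ U i * (U i)ᴴ = 1) ∧
        ∀ j (z : Fin N → L), (P j * piT (fun i => alp g (U i *ᵥ b (z i))) * P j -
          (r : ℂ) • P j).PosSemidef := by
  classical
  have hK : IsCompact (Set.pi Set.univ fun _ : J => PR (Fin N → Fin g × Fin k) m) :=
    isCompact_univ_pi fun _ => pr_compact _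
  obtain ⟨O, hO⟩ : ∃ O : {U : Fin N → Matrix (Fin k) (Fin k) ℂ //
      ∀ i, (U i)ᴴ * U i = 1 ∧ U i * (U i)ᴴ = 1} × ℕ →
      Set (J → Matrix (Fin N → Fin g × Fin k) (Fin N → Fin g × Fin k) ℂ),
      ∀ x, O x = ⋂ j, ⋂ z : Fin N → L, {P | 1 / ((x.2 : ℝ) + 1) <
        ‖(1 - P j + P j * piT (fun i => alp g (x.1.1 i *ᵥ b (z i))) * P j).det‖} :=
    ⟨_, fun _ => rfl⟩
  have hopen : ∀ x, IsOpen (O x) := by
    intro x
    rw [hO]
    refine isOpen_iInter_of_finite fun j => isOpen_iInter_of_finite fun z => ?_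
    refine isOpen_lt continuous_const (Continuous.norm (Continuous.matrix_det ?_))
    have hc : Continuous fun P : J → Matrix (Fin N → Fin g × Fin k) (Fin N → Fin g × Fin k) ℂ =>
        P j := continuous_apply j
    exact (continuous_const.sub hc).add ((hc.matrix_mul continuous_const).matrix_mul hc)
  have hcov : (Set.pi Set.univ fun _ : J => PR (Fin N → Fin g × Fin k) m) ⊆ ⋃ x, O x := by
    intro P hP
    have hP' : ∀ j, P j ∈ PR (Fin N → Fin g × Fin k) m := Set.mem_univ_pi.mp hP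
    have hPr : ∀ j, IsPr (P j) := fun j => ⟨(hP' j).1, (hP' j).2.1⟩
    obtain ⟨U, hU, hlt⟩ := exists_rots (N := N) hmk hb Finset.univ J P hPr
      (fun j => (hP' j).2.2)
    have hA : ∀ z : Fin N → L, IsPr (piT fun i => alp g (U i *ᵥ b (z i))) := by
      intro z
      refine ⟨?_, ?_⟩
      · rw [piT_conjTranspose]
        congr 1
        funext i
        exact (hpr (U i) (z i) (hU i).1).1
      · rw [← piT_mul]
        congr 1
        funext i
        exact (hpr (U i) (z i) (hU i).1).2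
    have hne : ∀ j (z : Fin N → L),
        (1 - P j + P j * piT (fun i => alp g (U i *ᵥ b (z i))) * P j).det ≠ 0 := by
      intro j z
      refine inj_bound (hA z) (hPr j) fun v h1 h2 => hlt j z v h1 ?_
      simp only [Finset.mem_univ, if_true]
      exact h2
    have hn : ∃ n : ℕ, ∀ j (z : Fin N → L), 1 / ((n : ℝ) + 1) <
        ‖(1 - P j + P j * piT (fun i => alp g (U i *ᵥ b (z i))) * P j).det‖ := by
      have h1 : ∀ x : J × (Fin N → L), ∃ n : ℕ, 1 / ((n : ℝ) + 1) <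
          ‖(1 - P x.1 + P x.1 * piT (fun i => alp g (U i *ᵥ b (x.2 i))) * P x.1).det‖ :=
        fun x => exists_nat_one_div_lt (norm_pos_iff.mpr (hne x.1 x.2))
      choose f hf using h1
      refine ⟨Finset.univ.sup f, fun j z => ?_⟩
      have h2 := hf (j, z)
      have h3 : f (j, z) ≤ Finset.univ.sup f := Finset.le_sup (Finset.mem_univ _)
      have h4 : (f (j, z) : ℝ) ≤ ((Finset.univ.sup f : ℕ) : ℝ) := by exact_mod_cast h3
      have h5 : 1 / (((Finset.univ.sup f : ℕ) : ℝ) + 1) ≤ 1 / ((f (j, z) : ℝ) + 1) :=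
        one_div_le_one_div_of_le (by positivity) (by linarith)
      exact lt_of_le_of_lt h5 h2
    obtain ⟨n, hn⟩ := hn
    refine Set.mem_iUnion.mpr ⟨(⟨U, hU⟩, n), ?_⟩
    rw [hO]
    exact Set.mem_iInter.mpr fun j => Set.mem_iInter.mpr fun z => hn j z
  obtain ⟨t, ht⟩ := hK.elim_finite_subcover O hopen hcov
  refine ⟨1 / ((t.sup Prod.snd : ℕ) + 1 : ℝ), by positivity, ?_, fun P hP => ?_⟩
  · rw [div_le_one (by positivity)]
    have : (0 : ℝ) ≤ ((t.sup Prod.snd : ℕ) : ℝ) := Nat.cast_nonneg _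
    linarith
  · have h1 := ht (Set.mem_univ_pi.mpr hP)
    obtain ⟨x, h1⟩ := Set.mem_iUnion.mp h1
    obtain ⟨hx, h1⟩ := Set.mem_iUnion.mp h1
    rw [hO] at h1
    refine ⟨x.1.1, x.1.2, fun j z => ?_⟩
    have h2 : 1 / ((x.2 : ℝ) + 1) <
        ‖(1 - P j + P j * piT (fun i => alp g (x.1.1 i *ᵥ b (z i))) * P j).det‖ :=
      Set.mem_iInter.mp (Set.mem_iInter.mp h1 j) z
    have h3 : x.2 ≤ t.sup Prod.snd := Finset.le_sup (f := Prod.snd) hx
    have h4 : (x.2 : ℝ) ≤ ((t.sup Prod.snd : ℕ) : ℝ) := by exact_mod_cast h3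
    have h5 : 1 / (((t.sup Prod.snd : ℕ) : ℝ) + 1) ≤ 1 / ((x.2 : ℝ) + 1) :=
      one_div_le_one_div_of_le (by positivity) (by linarith)
    refine det_low ?_ ⟨(hP j).1, (hP j).2.1⟩ (h5.trans h2.le)
    refine ⟨?_, ?_⟩
    · rw [piT_conjTranspose]
      congr 1
      funext i
      exact (hpr (x.1.1 i) (z i) (x.1.2 i).1).1
    · rw [← piT_mul]
      congr 1
      funext i
      exact (hpr (x.1.1 i) (z i) (x.1.2 i).1).2

end unif

end Vale.Agent.P372.Ou
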