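import Vale.Agent.P372.R2.helper492.Ou.Wit

/-! Entangled states near the separable boundary state, and the neighbourhood theorem. -/

open Matrix Kronecker
open scoped ComplexOrder MatrixOrder

set_option linter.unusedSectionVars false

namespace Vale.Agent.P372.Ou

open Vale.Agent.P372.PC (IsPr)

variable {g k : ℕ}

theorem fu_eq : fu g k = (Near.flip (g * k)).submatrix
    (fun p => (finProdFinEquiv p.1, finProdFinEquiv p.2))
    (fun p => (finProdFinEquiv p.1, finProdFinEquiv p.2)) := by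
  ext p q
  simp only [fu, submatrix_apply, Near.flip, EmbeddingLike.apply_eq_iff_eq]

theorem fe_inj : Function.Injective (fun p : (Fin g × Fin k) × (Fin g × Fin k) =>
    (finProdFinEquiv p.1, finProdFinEquiv p.2)) := by
  rintro ⟨x, y⟩ ⟨x', y'⟩ h
  simp only [Prod.mk.injEq, EmbeddingLike.apply_eq_iff_eq] at h ⊢
  exact h

theorem fu_bd : Bd (fu g k) 1 := by
  have h : Bd (Near.flip (g * k)) 1 := by
    refine ⟨?_, ?_⟩
    · simpa using Near.one_sub_flip (g * k)
    · simpa using Near.one_add_flip (g * k)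
  rw [fu_eq]
  exact h.subm fe_inj

theorem trace_one' : (1 : Matrix ((Fin g × Fin k) × (Fin g × Fin k)) _ ℂ).trace =
    g ^ 2 * k ^ 2 := by
  rw [trace_one]
  simp
  ring

theorem trace_swapK : (swapK g k).trace = g ^ 2 * k := by
  have e : ∀ (s t : Fin g) (i j : Fin k), swapK g k ((s, i), (t, j)) ((s, i), (t, j)) =
      if i = j then 1 else 0 := by
    intro s t i j
    by_cases h : i = j
    · simp [swapK, h]
    · simp [swapK, h]
  simp only [Matrix.trace, Matrix.diag, Fintype.sum_prod_type, e]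
  simp
  ring

theorem trace_fu : (fu g k).trace = g * k := by
  have e : ∀ x y : Fin g × Fin k, fu g k (x, y) (x, y) = if x = y then 1 else 0 := by
    intro x y
    by_cases h : x = y
    · simp [fu, h]
    · simp [fu, h]
  have e2 : (fu g k).trace = ∑ x : Fin g × Fin k, ∑ y : Fin g × Fin k, fu g k (x, y) (x, y) := by
    rw [← Fintype.sum_prod_type (f := fun p : (Fin g × Fin k) × (Fin g × Fin k) => fu g k p p)]
    rfl
  rw [e2]
  simp only [e]
  simp

/-- The normalisation. -/
noncomputable def tt (g k : ℕ) : ℝ := (g : ℝ) ^ 2 * k * (k ^ 2 - 1)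

theorem trace_base : (base g k).trace = (tt g k : ℂ) := by
  rw [base, trace_sub, trace_smul, trace_one', trace_swapK, tt, smul_eq_mul]
  push_cast
  ring

theorem ff_base : ff (base g k) = 0 := by
  have : base g k = (k : ℂ) • 1 + (-1 : ℂ) • swapK g k := by
    rw [base, neg_one_smul, sub_eq_add_neg]
  rw [this, ff_add, ff_smul, ff_smul, ff_one, ff_swapK]
  ring

theorem fs_base : fs (base g k) = 0 := by
  have : base g k = (k : ℂ) • 1 + (-1 : ℂ) • swapK g k := by
    rw [base, neg_one_smul, sub_eq_add_neg]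
  rw [this, fs_add, fs_smul, fs_smul, fs_one, fs_swapK]
  ring

theorem tt_pos (hg : 0 < g) (hk : 2 ≤ k) : 3 * ((g : ℝ) * k) ≤ tt g k ∧ 0 < tt g k := by
  have hg1 : (1 : ℝ) ≤ g := by exact_mod_cast hg
  have hk2 : (2 : ℝ) ≤ k := by exact_mod_cast hk
  have h1 : (3 : ℝ) ≤ (k : ℝ) ^ 2 - 1 := by nlinarith
  have h2 : 3 * ((g : ℝ) * k) ≤ tt g k := by
    have h3 : (g : ℝ) * k ≤ g ^ 2 * k := by
      have : (0 : ℝ) ≤ g * k := by positivity
      nlinarith
    have h4 : (g : ℝ) ^ 2 * k * 3 ≤ g ^ 2 * k * (k ^ 2 - 1) :=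
      mul_le_mul_of_nonneg_left h1 (by positivity)
    rw [tt]
    linarith
  have h5 : (0 : ℝ) < g * k := by positivity
  exact ⟨h2, by linarith⟩

/-- The perturbed states. -/
noncomputable def st (g k : ℕ) (x y : ℝ) :
    Matrix ((Fin g × Fin k) × (Fin g × Fin k)) ((Fin g × Fin k) × (Fin g × Fin k)) ℂ :=
  ((1 - (x * (g * k) + y * (g * k) ^ 2) / tt g k : ℝ) : ℂ) • base g k + (x : ℂ) • fu g k +
    (y : ℂ) • 1

theorem trace_st (ht : 0 < tt g k) (x y : ℝ) : (st g k x y).trace = (tt g k : ℂ) := by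
  have h : (tt g k : ℂ) ≠ 0 := by exact_mod_cast ht.ne'
  rw [st, trace_add, trace_add, trace_smul, trace_smul, trace_smul, trace_base, trace_fu,
    trace_one', smul_eq_mul, smul_eq_mul, smul_eq_mul]
  push_cast
  field_simp
  ring

theorem ff_st (x y : ℝ) : ff (st g k x y) = ((x * (g * k) ^ 2 + y * (g * k) : ℝ) : ℂ) := by
  rw [st, ff_add, ff_add, ff_smul, ff_smul, ff_smul, ff_base, ff_fu, ff_one]
  push_cast
  ring

theorem fs_st (x y : ℝ) : fs (st g k x y) = ((x * (g * k ^ 2) + y * (g ^ 2 * k) : ℝ) : ℂ) := by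
  rw [st, fs_add, fs_add, fs_smul, fs_smul, fs_smul, fs_base, fs_fu, fs_one]
  push_cast
  ring

theorem st_posDef {x y s : ℝ} (hs : s = (x * (g * k) + y * (g * k) ^ 2) / tt g k) (hs1 : s ≤ 1)
    (h : 0 < (1 - s) * (k - 1) - |x| + y) : (st g k x y).PosDef := by
  have h1 := (base_low (g := g) (k := k)).smul (Complex.zero_le_real.mpr (sub_nonneg.mpr hs1))
  have h2 : (((|x| : ℝ) : ℂ) • 1 + (x : ℂ) • fu g k).PosSemidef := by
    rcases le_total 0 x with hx | hx
    · rw [abs_of_nonneg hx, ← smul_add]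
      have := (fu_bd (g := g) (k := k)).2
      rw [Complex.ofReal_one, one_smul] at this
      exact this.smul (Complex.zero_le_real.mpr hx)
    · rw [abs_of_nonpos hx]
      have e : (((-x : ℝ)) : ℂ) • (1 : Matrix ((Fin g × Fin k) × (Fin g × Fin k)) _ ℂ) +
          (x : ℂ) • fu g k = ((-x : ℝ) : ℂ) • (1 - fu g k) := by
        push_cast
        module
      rw [e]
      have := (fu_bd (g := g) (k := k)).1
      rw [Complex.ofReal_one, one_smul] at this
      exact this.smul (Complex.zero_le_real.mpr (by linarith))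
  have h3 : ((((1 - s) * (k - 1) - |x| + y : ℝ) : ℂ) •
      (1 : Matrix ((Fin g × Fin k) × (Fin g × Fin k)) _ ℂ)).PosDef :=
    PosDef.one.smul (Complex.zero_lt_real.mpr h)
  have h4 := h3.add_posSemidef (h1.add h2)
  have e : st g k x y = (((1 - s) * (k - 1) - |x| + y : ℝ) : ℂ) • 1 +
      (((1 - s : ℝ) : ℂ) • (base g k - ((k - 1 : ℝ) : ℂ) • 1) +
        (((|x| : ℝ) : ℂ) • 1 + (x : ℂ) • fu g k)) := by
    rw [st, ← hs]
    push_cast
    module
  rw [e]
  exact h4

/-- The partial transpose is linear. -/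
theorem pt_base : (parTranspose (base g k)).PosSemidef := by
  have hnq : nq (fun p : Fin k × Fin k => if p.1 = p.2 then (1 : ℂ) else 0) = k := by
    rw [nq, Fintype.sum_prod_type]
    have : ∀ i j : Fin k, ‖(if i = j then (1 : ℂ) else 0)‖ ^ 2 = if i = j then 1 else 0 := by
      intro i j
      split_ifs <;> simp
    simp only [this]
    simp
  have h1 : ((k : ℂ) • (1 : Matrix (Fin k × Fin k) (Fin k × Fin k) ℂ) -
      pj (fun p : Fin k × Fin k => if p.1 = p.2 then (1 : ℂ) else 0)).PosSemidef := by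
    obtain ⟨φ, hφ⟩ : ∃ φ : Fin k × Fin k → ℂ, φ = fun p => if p.1 = p.2 then (1 : ℂ) else 0 :=
      ⟨_, rfl⟩
    rw [← hφ] at hnq ⊢
    refine psd_of ?_ (fun x => k * nq x - ‖star φ ⬝ᵥ x‖ ^ 2) (fun x => ?_) (fun x => ?_)
    · rw [IsHermitian, conjTranspose_sub, conjTranspose_smul, conjTranspose_one, pj_herm]
      simp
    · rw [sub_mulVec, smul_mulVec, one_mulVec, dotProduct_sub, dotProduct_smul, dot_self, dot_pj,
        smul_eq_mul]
      push_cast
      ring
    · have := cs φ x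
      rw [hnq] at this
      linarith
  have h2 := ((PosSemidef.one (n := Fin g × Fin g) (R := ℂ)).kronecker h1).submatrix
    (fun p : (Fin g × Fin k) × (Fin g × Fin k) => ((p.1.1, p.2.1), (p.1.2, p.2.2)))
  have e : parTranspose (base g k) = ((1 : Matrix (Fin g × Fin g) (Fin g × Fin g) ℂ) ⊗ₖ
      ((k : ℂ) • (1 : Matrix (Fin k × Fin k) (Fin k × Fin k) ℂ) -
        pj (fun p : Fin k × Fin k => if p.1 = p.2 then (1 : ℂ) else 0))).submatrix
      (fun p : (Fin g × Fin k) × (Fin g × Fin k) => ((p.1.1, p.2.1), (p.1.2, p.2.2)))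
      (fun p : (Fin g × Fin k) × (Fin g × Fin k) => ((p.1.1, p.2.1), (p.1.2, p.2.2))) := by
    ext ⟨⟨a, i⟩, ⟨b, j⟩⟩ ⟨⟨a', i'⟩, ⟨b', j'⟩⟩
    simp only [parTranspose, base, submatrix_apply, kroneckerMap_apply, Matrix.sub_apply,
      Matrix.smul_apply, one_apply, swapK, pj_apply, Prod.mk.injEq, smul_eq_mul]
    by_cases h1 : a = a' <;> by_cases h2 : b = b' <;> by_cases h3 : i = j <;>
      by_cases h4 : i' = j' <;> simp [h1, h2, h3, h4, eq_comm]
  rw [e]
  exact h2

theorem pt_fu : (parTranspose (fu g k)).PosSemidef := by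
  have e : parTranspose (fu g k) = pj (fun p : (Fin g × Fin k) × (Fin g × Fin k) =>
      if p.1 = p.2 then (1 : ℂ) else 0) := by
    ext p q
    simp only [parTranspose, fu, pj_apply]
    by_cases h1 : p.1 = p.2 <;> by_cases h2 : q.1 = q.2 <;> simp [h1, h2, eq_comm]
  rw [e]
  exact pj_psd _

theorem pt_one {A B : Type} [DecidableEq A] [DecidableEq B] :
    parTranspose (1 : Matrix (A × B) (A × B) ℂ) = 1 := by
  ext p q
  simp only [parTranspose, one_apply, Prod.ext_iff]
  congr 1
  exact propext ⟨fun h => ⟨h.1, h.2.symm⟩, fun h => ⟨h.1, h.2.symm⟩⟩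

theorem pt_st {x y s : ℝ} (hs : s = (x * (g * k) + y * (g * k) ^ 2) / tt g k) (hs1 : s ≤ 1)
    (hx : 0 ≤ x) (hy : 0 < y) : (parTranspose (st g k x y)).PosDef := by
  have e : parTranspose (st g k x y) = (y : ℂ) • 1 + (((1 - s : ℝ) : ℂ) • parTranspose (base g k) +
      (x : ℂ) • parTranspose (fu g k)) := by
    ext p q
    have h1 : (1 : Matrix ((Fin g × Fin k) × (Fin g × Fin k)) _ ℂ) (p.1, q.2) (q.1, p.2) =
        (1 : Matrix ((Fin g × Fin k) × (Fin g × Fin k)) _ ℂ) p q :=
      congrFun (congrFun (pt_one (A := Fin g × Fin k) (B := Fin g × Fin k)) p) q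
    rw [st, ← hs]
    simp only [parTranspose, Matrix.add_apply, Matrix.smul_apply]
    rw [h1]
    abel
  rw [e]
  exact (PosDef.one.smul (Complex.zero_lt_real.mpr hy)).add_posSemidef
    ((pt_base.smul (Complex.zero_le_real.mpr (sub_nonneg.mpr hs1))).add
      (pt_fu.smul (Complex.zero_le_real.mpr hx)))

/-- The entries of the perturbation. -/
theorem st_close {x y s : ℝ} (hs : s = (x * (g * k) + y * (g * k) ^ 2) / tt g k)
    (p q : (Fin g × Fin k) × (Fin g × Fin k)) :
    ‖st g k x y p q - base g k p q‖ ≤ |s| * (k + 1) + |x| + |y| := by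
  have h1 : ‖base g k p q‖ ≤ k + 1 := by
    rw [base, Matrix.sub_apply, Matrix.smul_apply, one_apply, swapK]
    refine (norm_sub_le _ _).trans (add_le_add ?_ ?_)
    · split_ifs
      · simp
      · simp
    · split_ifs
      · simp
      · simp
  have h2 : ‖fu g k p q‖ ≤ 1 := by
    rw [fu]
    split_ifs
    · simp
    · simp
  have h3 : ‖(1 : Matrix ((Fin g × Fin k) × (Fin g × Fin k)) _ ℂ) p q‖ ≤ 1 := by
    rw [one_apply]
    split_ifs
    · simp
    · simp
  have e : st g k x y p q - base g k p q = (-(s : ℂ)) * base g k p q + (x : ℂ) * fu g k p q +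
      (y : ℂ) * (1 : Matrix ((Fin g × Fin k) × (Fin g × Fin k)) _ ℂ) p q := by
    rw [st, ← hs]
    simp only [Matrix.add_apply, Matrix.smul_apply, smul_eq_mul]
    push_cast
    ring
  rw [e]
  refine (norm_add_le _ _).trans (add_le_add ((norm_add_le _ _).trans (add_le_add ?_ ?_)) ?_)
  · rw [norm_mul, norm_neg, Complex.norm_real, Real.norm_eq_abs]
    exact mul_le_mul_of_nonneg_left h1 (abs_nonneg _)
  · rw [norm_mul, Complex.norm_real, Real.norm_eq_abs]
    exact mul_le_of_le_one_right (abs_nonneg _) h2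
  · rw [norm_mul, Complex.norm_real, Real.norm_eq_abs]
    exact mul_le_of_le_one_right (abs_nonneg _) h3

end Vale.Agent.P372.Ou
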