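import Vale.Agent.P372.R2.helper492.Ou.Asm
import Vale.Agent.P372.R2.helper492.CondP

/-! One step and the induction over the copies of a block. -/

open Matrix Kronecker
open scoped ComplexOrder MatrixOrder

set_option linter.unusedSectionVars false

namespace Vale.Agent.P372.Ou

open Vale.Agent.P372.PC (IsPr pa)

section supp

variable {X : Type} [Fintype X] [DecidableEq X]

/-- The projection on the range of an operator. -/
theorem exists_range (V : Matrix X X ℂ) :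
    ∃ P G : Matrix X X ℂ, IsPr P ∧ P * V = V ∧ P = V * G ∧ P.trace = ((V.rank : ℝ) : ℂ) := by
  have hX : (V * Vᴴ).IsHermitian := isHermitian_mul_conjTranspose_self V
  obtain ⟨P, hP⟩ : ∃ P, P = fcalc hX (fun x => if x = 0 then 0 else 1) := ⟨_, rfl⟩
  have hPH : Pᴴ = P := by rw [hP]; exact (fcalc_isHermitian hX _).eq
  have hPP : P * P = P := by
    rw [hP, fcalc_mul]
    refine fcalc_congr hX fun i => ?_
    split_ifs <;> norm_num
  have hXP : P * (V * Vᴴ) = V * Vᴴ := by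
    rw [hP, fcalc_mul_self]
    refine fcalc_eq_self hX fun i => ?_
    split_ifs with h
    · rw [h, mul_zero]
    · rw [one_mul]
  refine ⟨P, Vᴴ * fcalc hX (fun x => x⁻¹), ⟨hPH, hPP⟩, ?_, ?_, ?_⟩
  · have h1 : ((1 - P) * V) * ((1 - P) * V)ᴴ = 0 := by
      rw [conjTranspose_mul, Matrix.mul_assoc, ← Matrix.mul_assoc V, ← Matrix.mul_assoc,
        Matrix.sub_mul, one_mul, hXP, sub_self, Matrix.zero_mul]
    have h2 := self_mul_conjTranspose_eq_zero.mp h1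
    rw [Matrix.sub_mul, one_mul] at h2
    exact (sub_eq_zero.mp h2).symm
  · rw [← Matrix.mul_assoc, self_mul_fcalc, hP]
    refine fcalc_congr hX fun i => ?_
    split_ifs with h
    · rw [h, zero_mul]
    · rw [mul_inv_cancel₀ h]
  · have h1 : P.trace = ∑ i, (((if hX.eigenvalues i = 0 then (0 : ℝ) else 1) : ℝ) : ℂ) := by
      rw [hP, fcalc_trace]
    rw [h1, ← rank_self_mul_conjTranspose V, hX.rank_eq_card_non_zero_eigs]
    simp only [Fintype.card_subtype, apply_ite Complex.ofReal, Complex.ofReal_zero,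
      Complex.ofReal_one]
    rw [Finset.sum_ite, Finset.sum_const_zero, zero_add, Finset.sum_const, nsmul_eq_mul, mul_one]
    simp

theorem isPr_trace {P : Matrix X X ℂ} (h : IsPr P) : P.trace = ((P.rank : ℝ) : ℂ) := by
  obtain ⟨Q, G, hQ, h1, h2, h3⟩ := exists_range P
  have h4 : Q = P := by
    calc Q = P * Q := by rw [h2, ← Matrix.mul_assoc, h.2]
      _ = (Q * P)ᴴ := by rw [conjTranspose_mul, h.1, hQ.1]
      _ = P := by rw [h1, h.1]
  rw [← h4, h4, ← h3, h4]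

end supp

section step

variable {X Y : Type} [Fintype X] [DecidableEq X] [Fintype Y] [DecidableEq Y]

theorem nq_mulVec_le (M : Matrix X X ℂ) (v : X → ℂ) : nq (M *ᵥ v) ≤ hs M * nq v := by
  rw [nq, hs, Finset.sum_mul]
  refine Finset.sum_le_sum fun i _ => ?_
  have h1 : ‖(M *ᵥ v) i‖ ≤ ∑ j, ‖M i j‖ * ‖v j‖ := by
    refine (norm_sum_le _ _).trans (le_of_eq (Finset.sum_congr rfl fun j _ => norm_mul _ _))
  exact (pow_le_pow_left₀ (norm_nonneg _) h1 2).trans (Finset.sum_mul_sq_le_sq_mul_sq _ _ _)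

/-- A lower bound for the Schur complement of `1 - a` with respect to the range of `P`. -/
noncomputable def sh1 (P a : Matrix X X ℂ) : Matrix X X ℂ :=
  ((1 - (P * a).trace.re : ℝ) : ℂ) • (1 - P) - (1 - P) * a * (1 - P)

theorem sh1_mul {P a : Matrix X X ℂ} (h : IsPr P) : sh1 P a * P = 0 := by
  rw [sh1, Matrix.sub_mul, Matrix.smul_mul, Matrix.mul_assoc ((1 - P) * a)]
  have : (1 - P) * P = 0 := by rw [Matrix.sub_mul, one_mul, h.2, sub_self]
  rw [this, smul_zero, Matrix.mul_zero, sub_zero]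

theorem sh1_herm {P a : Matrix X X ℂ} (h : IsPr P) (ha : IsPr a) : (sh1 P a)ᴴ = sh1 P a := by
  rw [sh1, conjTranspose_sub, conjTranspose_smul, conjTranspose_mul, conjTranspose_mul,
    h.compl.1, ha.1, RCLike.star_def, Complex.conj_ofReal, Matrix.mul_assoc]

theorem num_p {A A' p q : ℝ} (hA' : 0 ≤ A') (hp : 0 ≤ p) (h1 : A' ^ 2 ≤ A * p)
    (h2 : (1 - q) * A ≤ A') (h3 : A' ≤ A) : A' - p ≤ q * A' := by
  by_cases hq : 1 ≤ q
  · nlinarith
  · push Not at hq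
    have hA : 0 ≤ A := hA'.trans h3
    rcases hA.eq_or_lt with h | h
    · have : A' = 0 := le_antisymm (by rw [h]; exact h3) hA'
      rw [this]
      linarith
    · have h4 : A * ((1 - q) * A') ≤ A * p := by nlinarith
      have h5 := le_of_mul_le_mul_left h4 h
      linarith

theorem sh1_le {P a : Matrix X X ℂ} (h : IsPr P) (ha : IsPr a) :
    (1 - a - sh1 P a).PosSemidef := by
  obtain ⟨q, hq⟩ : ∃ q, q = (P * a).trace.re := ⟨_, rfl⟩
  refine psd_of (M := 1 - a - sh1 P a) ?_ (fun x => nq ((1 - a) *ᵥ (P *ᵥ x)) +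
    q * nq ((1 - P) *ᵥ x) + 2 * (star ((1 - a) *ᵥ (P *ᵥ x)) ⬝ᵥ ((1 - P) *ᵥ x)).re)
    (fun x => ?_) (fun x => ?_)
  · rw [IsHermitian, conjTranspose_sub, conjTranspose_sub, conjTranspose_one, ha.1,
      sh1_herm h ha]
  · have e0 : 1 - a - sh1 P a = P * (1 - a) * P + (P * (1 - a) * (1 - P) +
        (1 - P) * (1 - a) * P) + (q : ℂ) • (1 - P) := by
      rw [sh1, ← hq]
      have e1 : (1 : Matrix X X ℂ) - a = (P + (1 - P)) * (1 - a) * (P + (1 - P)) := by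
        rw [add_sub_cancel, one_mul, mul_one]
      have e2 : (1 - P) * (1 - P) = 1 - P := h.compl.2
      have e3 : (1 - P) * (1 - a) * (1 - P) = (1 - P) - (1 - P) * a * (1 - P) := by
        rw [Matrix.mul_sub (1 - P) 1 a, mul_one, Matrix.sub_mul, e2]
      conv_lhs => rw [e1]
      rw [Matrix.add_mul, Matrix.add_mul, Matrix.mul_add, Matrix.mul_add, e3]
      push_cast
      rw [sub_smul, one_smul]
      abel
    have hsw : star ((1 - P) *ᵥ x) ⬝ᵥ ((1 - a) *ᵥ (P *ᵥ x)) =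
        star (star ((1 - a) *ᵥ (P *ᵥ x)) ⬝ᵥ ((1 - P) *ᵥ x)) := star_dotProduct _ _
    have e4 : star x ⬝ᵥ ((P * (1 - a) * P) *ᵥ x) = (nq ((1 - a) *ᵥ (P *ᵥ x)) : ℂ) := by
      rw [← mulVec_mulVec, ← mulVec_mulVec, ← IsPr.dot h, IsPr.dot_self ha.compl]
    have e5 : star x ⬝ᵥ ((P * (1 - a) * (1 - P)) *ᵥ x) =
        star ((1 - a) *ᵥ (P *ᵥ x)) ⬝ᵥ ((1 - P) *ᵥ x) := by
      rw [← mulVec_mulVec, ← mulVec_mulVec, ← IsPr.dot h, IsPr.dot ha.compl]
    have e6 : star x ⬝ᵥ (((1 - P) * (1 - a) * P) *ᵥ x) =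
        star ((1 - P) *ᵥ x) ⬝ᵥ ((1 - a) *ᵥ (P *ᵥ x)) := by
      rw [← mulVec_mulVec, ← mulVec_mulVec, ← IsPr.dot h.compl]
    have e7 : star x ⬝ᵥ (((q : ℂ) • (1 - P)) *ᵥ x) = (q : ℂ) * (nq ((1 - P) *ᵥ x) : ℂ) := by
      rw [smul_mulVec, dotProduct_smul, IsPr.dot_self h.compl, smul_eq_mul]
    rw [e0, add_mulVec, add_mulVec, add_mulVec, dotProduct_add, dotProduct_add, dotProduct_add,
      e4, e5, e6, e7, hsw]
    have e8 : ∀ z : ℂ, z + star z = ((2 * z.re : ℝ) : ℂ) := by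
      intro z
      rw [RCLike.star_def, Complex.add_conj]
    rw [e8]
    push_cast
    ring
  · obtain ⟨v, hv⟩ : ∃ v, v = P *ᵥ x := ⟨_, rfl⟩
    obtain ⟨w, hw⟩ : ∃ w, w = (1 - P) *ᵥ x := ⟨_, rfl⟩
    obtain ⟨v', hv'⟩ : ∃ v', v' = (1 - a) *ᵥ v := ⟨_, rfl⟩
    have hPv : P *ᵥ v = v := by rw [hv, mulVec_mulVec, h.2]
    have hPw : (1 - P) *ᵥ w = w := by rw [hw, mulVec_mulVec, h.compl.2]
    -- the bounds
    have b1 : nq (a *ᵥ v) ≤ q * nq v := by
      have h1 : a *ᵥ v = (a * P) *ᵥ v := by rw [← mulVec_mulVec, hPv]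
      have h2 : hs (a * P) = q := by
        rw [hs_eq_re, conjTranspose_mul, h.1, ha.1, hq]
        congr 1
        calc (P * a * (a * P)).trace = (P * (a * a) * P).trace := by
              simp only [Matrix.mul_assoc]
          _ = (P * (P * a)).trace := by rw [ha.2, trace_mul_comm]
          _ = _ := by rw [← Matrix.mul_assoc, h.2]
      rw [h1, ← h2]
      exact nq_mulVec_le _ _
    have b2 : nq v = nq (a *ᵥ v) + nq v' := by rw [hv']; exact IsPr.nq_add ha v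
    have b3 : nq v' = nq (P *ᵥ v') + nq ((1 - P) *ᵥ v') := IsPr.nq_add h v'
    have b4 : nq v' ^ 2 ≤ nq v * nq (P *ᵥ v') := by
      have h1 : star v ⬝ᵥ (P *ᵥ v') = (nq v' : ℂ) := by
        rw [← IsPr.dot h, hPv, hv', IsPr.dot_self ha.compl]
      have h2 := cs v (P *ᵥ v')
      rw [h1, Complex.norm_real, Real.norm_of_nonneg (nq_nonneg _)] at h2
      exact h2
    have n1 := nq_nonneg v
    have n2 := nq_nonneg v'
    have n3 := nq_nonneg (P *ᵥ v')
    have n4 := nq_nonneg (a *ᵥ v)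
    have n5 := nq_nonneg w
    have b5 := num_p (q := q) n2 n3 b4 (by linarith) (by linarith)
    have b6 : ‖star v' ⬝ᵥ w‖ ^ 2 ≤ (q * nq v') * nq w := by
      have h1 : star v' ⬝ᵥ w = star ((1 - P) *ᵥ v') ⬝ᵥ w := by
        rw [IsPr.dot h.compl, hPw]
      rw [h1]
      exact (cs _ _).trans (mul_le_mul_of_nonneg_right (by linarith) n5)
    have b7 : -‖star v' ⬝ᵥ w‖ ≤ (star v' ⬝ᵥ w).re :=
      (abs_le.mp (Complex.abs_re_le_norm _)).1
    have hq0 : 0 ≤ q := by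
      rw [hq]
      exact re_tr_mul_nonneg h.psd ha.psd
    rw [← hv, ← hw, ← hv']
    have n6 := norm_nonneg (star v' ⬝ᵥ w)
    have b8 : 2 * ‖star v' ⬝ᵥ w‖ ≤ nq v' + q * nq w := by
      have h1 : (2 * ‖star v' ⬝ᵥ w‖) ^ 2 ≤ (nq v' + q * nq w) ^ 2 := by
        nlinarith [sq_nonneg (nq v' - q * nq w)]
      exact (pow_le_pow_iff_left₀ (by positivity) (by positivity) two_ne_zero).mp h1
    linarith

theorem pa_kron (P a : Matrix X X ℂ) (c : Matrix Y Y ℂ) : pa P (a ⊗ₖ c) = (P * a).trace • c := by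
  ext b b'
  simp only [pa, kroneckerMap_apply, Matrix.smul_apply, smul_eq_mul, Matrix.trace, Matrix.diag,
    Matrix.mul_apply, Finset.sum_mul]
  exact Finset.sum_congr rfl fun x _ => Finset.sum_congr rfl fun x' _ => by ring

theorem pa_smul (P : Matrix X X ℂ) (t : ℂ) (Z : Matrix (X × Y) (X × Y) ℂ) :
    pa P (t • Z) = t • pa P Z := by
  ext b b'
  simp only [pa, Matrix.smul_apply, smul_eq_mul, Finset.mul_sum]
  exact Finset.sum_congr rfl fun x _ => Finset.sum_congr rfl fun x' _ => by ring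

theorem pa_sum {L : Type} (s : Finset L) (P : Matrix X X ℂ)
    (Z : L → Matrix (X × Y) (X × Y) ℂ) : pa P (∑ l ∈ s, Z l) = ∑ l ∈ s, pa P (Z l) := by
  ext b b'
  simp only [pa, Matrix.sum_apply, Finset.mul_sum]
  calc ∑ x, ∑ x', ∑ l ∈ s, P x x' * Z l (x', b) (x, b') =
        ∑ x, ∑ l ∈ s, ∑ x', P x x' * Z l (x', b) (x, b') :=
        Finset.sum_congr rfl fun x _ => Finset.sum_comm
    _ = _ := Finset.sum_comm

variable {L : Type} [Fintype L] [DecidableEq L]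

/-- The properties of the labels of one copy. -/
structure Lay (α : L → Matrix X X ℂ) (c : L → Matrix Y Y ℂ) (ν : L → ℝ) (κ : ℝ) : Prop where
  pr : ∀ l, IsPr (α l)
  pc : ∀ l, IsPr (c l)
  nn : ∀ l, 0 ≤ ν l
  two : ((2 : ℂ) • 1 - ∑ l, (ν l : ℂ) • ((1 - α l) ⊗ₖ c l)).PosSemidef
  one : ∑ l, (ν l : ℂ) • c l = (κ : ℂ) • 1

theorem one_step {α : L → Matrix X X ℂ} {c : L → Matrix Y Y ℂ} {ν : L → ℝ} {κ : ℝ}
    (hl : Lay α c ν κ) {P : Matrix X X ℂ} (h : IsPr P) {m : ℝ} (hm : P.trace.re ≤ m) :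
    (∑ l, (ν l : ℂ) • (sh1 P (1 - α l) ⊗ₖ c l) -
      ((κ - 2 * m - 2 : ℝ) : ℂ) • ((1 - P) ⊗ₖ (1 : Matrix Y Y ℂ))).PosSemidef := by
  obtain ⟨Q, hQ⟩ : ∃ Q, Q = 1 - P := ⟨_, rfl⟩
  have hQp : IsPr Q := hQ ▸ h.compl
  obtain ⟨Z, hZ⟩ : ∃ Z : Matrix (X × Y) (X × Y) ℂ, Z = ∑ l, (ν l : ℂ) • ((1 - α l) ⊗ₖ c l) :=
    ⟨_, rfl⟩
  have h2 := hl.two
  rw [← hZ] at h2
  have hpa : pa P ((2 : ℂ) • 1 - Z) = (2 * P.trace) • (1 : Matrix Y Y ℂ) -
      ∑ l, ((ν l : ℂ) * (P * (1 - α l)).trace) • c l := by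
    rw [PC.pa_sub, PC.pa_smul_one, hZ, pa_sum]
    congr 1
    refine Finset.sum_congr rfl fun l _ => ?_
    rw [pa_smul, pa_kron, smul_smul]
  have h3 := PC.pa_psd h.psd h2
  rw [hpa] at h3
  have htr : ∀ l, (P * (1 - α l)).trace = (((P * (1 - α l)).trace.re : ℝ) : ℂ) := by
    intro l
    have h4 : star (P * (1 - α l)).trace = (P * (1 - α l)).trace := by
      rw [← trace_conjTranspose, conjTranspose_mul, h.1, (hl.pr l).compl.1, trace_mul_comm]
    exact (Complex.conj_eq_iff_re.mp h4).symm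
  have htrP : P.trace = ((P.trace.re : ℝ) : ℂ) := by
    have h4 : star P.trace = P.trace := by
      rw [← trace_conjTranspose, h.1]
    exact (Complex.conj_eq_iff_re.mp h4).symm
  have e1 : ∑ l, (ν l : ℂ) • (sh1 P (1 - α l) ⊗ₖ c l) =
      Q ⊗ₖ (∑ l, (ν l : ℂ) • c l - ∑ l, ((ν l : ℂ) * (P * (1 - α l)).trace) • c l) -
        (Q ⊗ₖ 1) * Z * (Q ⊗ₖ 1) := by
    rw [← Finset.sum_sub_distrib, hZ, Matrix.mul_sum, Matrix.sum_mul]
    have e2 : ∀ (N : L → Matrix Y Y ℂ), Q ⊗ₖ (∑ l, N l) = ∑ l, Q ⊗ₖ N l := by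
      intro N
      ext p q
      simp only [kroneckerMap_apply, Matrix.sum_apply, Finset.mul_sum]
    rw [e2, ← Finset.sum_sub_distrib]
    refine Finset.sum_congr rfl fun l _ => ?_
    rw [Matrix.mul_smul, Matrix.smul_mul, ← mul_kronecker_mul, ← mul_kronecker_mul, one_mul,
      mul_one, htr, sh1, ← hQ]
    ext p q
    simp only [Matrix.smul_apply, kroneckerMap_apply, Matrix.sub_apply, smul_eq_mul]
    push_cast
    ring
  have e3 : ∑ l, (ν l : ℂ) • (sh1 P (1 - α l) ⊗ₖ c l) -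
      ((κ - 2 * m - 2 : ℝ) : ℂ) • (Q ⊗ₖ (1 : Matrix Y Y ℂ)) =
      Q ⊗ₖ ((2 * P.trace) • (1 : Matrix Y Y ℂ) -
        ∑ l, ((ν l : ℂ) * (P * (1 - α l)).trace) • c l) +
      ((2 * (m - P.trace.re) : ℝ) : ℂ) • (Q ⊗ₖ (1 : Matrix Y Y ℂ)) +
      (Q ⊗ₖ 1) * ((2 : ℂ) • 1 - Z) * (Q ⊗ₖ 1)ᴴ := by
    rw [e1, hl.one, conjTranspose_kronecker, hQp.1, conjTranspose_one, Matrix.mul_sub,
      Matrix.sub_mul, Matrix.mul_smul, mul_one, Matrix.smul_mul, ← mul_kronecker_mul, hQp.2,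
      one_mul]
    conv_rhs => rw [htrP]
    rw [Complex.ofReal_re]
    ext p q
    simp only [Matrix.smul_apply, kroneckerMap_apply, Matrix.sub_apply, Matrix.add_apply,
      smul_eq_mul]
    push_cast
    ring
  rw [← hQ, e3]
  exact ((hQp.psd.kronecker h3).add ((hQp.psd.kronecker PosSemidef.one).smul
    (Complex.zero_le_real.mpr (by linarith)))).add (h2.mul_mul_conjTranspose_same _)

end step

end Vale.Agent.P372.Ou
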