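import Vale.Agent.P372.R2.helper492.Ou.Dep4

/-! The second bound for projections of any small rank. -/

open Matrix Kronecker
open scoped ComplexOrder MatrixOrder

set_option linter.unusedSectionVars false

namespace Vale.Agent.P372.Ou

open Vale.Agent.P372.PC (IsPr)

section lay

variable {X Y L : Type} [Fintype X] [DecidableEq X] [Fintype Y] [DecidableEq Y] [Fintype L]
  [DecidableEq L]

/-- The second bound. -/
theorem bound_pr {α α' : L → Matrix X X ℂ} {c : L → Matrix Y Y ℂ} {ν : L → ℝ} {κ ε r m : ℝ}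
    (hl : Lay α c ν κ) (hb : ∀ l, Bd (α' l - α l) ε) (hε : 0 ≤ ε) (hm0 : 0 ≤ m)
    (hκ : 1 ≤ κ - 2 * m - 2)
    (hr1 : r ≤ 1) (hεr : 2 * ε ≤ r / (8 * κ)) {P : Matrix X X ℂ} (hP : IsPr P)
    (hPt : P.trace.re ≤ m) (hj : ∀ l, (P * α l * P - (r : ℂ) • P).PosSemidef)
    {χ : L → X × Y → ℂ} (hχ : ∀ l, (P ⊗ₖ (1 : Matrix Y Y ℂ)) *ᵥ χ l = χ l)
    (ζ : X × Y → ℂ) :
    r / (8 * κ) * ∑ l, qf ((ν l : ℂ) • ((1 : Matrix X X ℂ) ⊗ₖ c l))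
      (χ l - (P ⊗ₖ (1 : Matrix Y Y ℂ)) *ᵥ ζ) ≤
      ∑ l, qf (((ν l : ℂ) • α' l) ⊗ₖ c l) (χ l - ζ) := by
  have hκ0 : 0 < κ := by linarith
  obtain ⟨b, hbd⟩ : ∃ b, b = (P ⊗ₖ (1 : Matrix Y Y ℂ)) *ᵥ ζ := ⟨_, rfl⟩
  obtain ⟨ζ', hζ'⟩ : ∃ ζ', ζ' = ((1 - P) ⊗ₖ (1 : Matrix Y Y ℂ)) *ᵥ ζ := ⟨_, rfl⟩
  have hone1 : (P ⊗ₖ (1 : Matrix Y Y ℂ)) + ((1 - P) ⊗ₖ (1 : Matrix Y Y ℂ)) = 1 := by
    rw [← add_kronecker, add_sub_cancel, one_kronecker_one]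
  have hsumζ : b + ζ' = ζ := by
    rw [hbd, hζ', ← add_mulVec, hone1, one_mulVec]
  obtain ⟨x, hxd⟩ : ∃ x : L → X × Y → ℂ, x = fun l => χ l - b := ⟨_, rfl⟩
  have hx : ∀ l, χ l - ζ = x l - ζ' := by
    intro l
    rw [hxd, ← hsumζ]
    beta_reduce
    abel
  have hPP1 : (P ⊗ₖ (1 : Matrix Y Y ℂ)) * (P ⊗ₖ (1 : Matrix Y Y ℂ)) =
      P ⊗ₖ (1 : Matrix Y Y ℂ) := by
    rw [← mul_kronecker_mul, hP.2, one_mul]
  have hxP : ∀ l, (P ⊗ₖ (1 : Matrix Y Y ℂ)) *ᵥ x l = x l := by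
    intro l
    rw [hxd]
    beta_reduce
    rw [mulVec_sub, hχ, hbd, mulVec_mulVec, hPP1]
  have hTk : ∀ l, ((1 - P) ⊗ₖ (1 : Matrix Y Y ℂ)) *ᵥ x l = 0 := by
    intro l
    rw [← hxP l, mulVec_mulVec, ← mul_kronecker_mul, Matrix.sub_mul, one_mul, hP.2, sub_self,
      zero_kronecker, zero_mulVec]
  have hTζ : ((1 - P) ⊗ₖ (1 : Matrix Y Y ℂ)) *ᵥ ζ' = ζ' := by
    rw [hζ', mulVec_mulVec, ← mul_kronecker_mul, hP.compl.2, one_mul]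
  simp only [hx]
  have hxx : ∀ l, χ l - (P ⊗ₖ (1 : Matrix Y Y ℂ)) *ᵥ ζ = x l := by
    intro l
    rw [hxd, hbd]
  simp only [hxx]
  -- the corrections
  obtain ⟨S, hS⟩ : ∃ S : L → Matrix X X ℂ, S = fun l => sh1 P (1 - α l) := ⟨_, rfl⟩
  have hSP : ∀ l, S l * P = 0 := by
    intro l
    rw [hS]
    exact sh1_mul hP
  have hSH : ∀ l, (S l)ᴴ = S l := by
    intro l
    rw [hS]
    exact sh1_herm hP (hl.pr l).compl
  have hPS : ∀ l, P * S l = 0 := by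
    intro l
    have h := congrArg conjTranspose (hSP l)
    rwa [conjTranspose_mul, hSH, hP.1, conjTranspose_zero] at h
  have hM : ∀ l, (α l - S l).PosSemidef := by
    intro l
    have h := sh1_le hP (hl.pr l).compl
    rw [sub_sub_cancel] at h
    rw [hS]
    exact h
  have hSum : (∑ l, (ν l : ℂ) • (S l ⊗ₖ c l) -
      ((κ - 2 * m - 2 : ℝ) : ℂ) • ((1 - P) ⊗ₖ (1 : Matrix Y Y ℂ))).PosSemidef := by
    have h := one_step hl hP (m := m) hPt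
    rw [hS]
    exact h
  have hMp : ∀ l, ((ν l : ℂ) • ((α l - S l) ⊗ₖ c l)).PosSemidef := fun l =>
    ((hM l).kronecker (hl.pc l).psd).smul (Complex.zero_le_real.mpr (hl.nn l))
  obtain ⟨n, hn⟩ : ∃ n, n = nq ζ' := ⟨_, rfl⟩
  have hn0 : 0 ≤ n := by rw [hn]; exact nq_nonneg _
  obtain ⟨G, hG⟩ : ∃ G, G = ∑ l, qf ((ν l : ℂ) • ((1 : Matrix X X ℂ) ⊗ₖ c l)) (x l) := ⟨_, rfl⟩
  have hG0 : 0 ≤ G := by
    rw [hG]
    exact Finset.sum_nonneg fun l _ => qf_nonneg ((PosSemidef.one.kronecker (hl.pc l).psd).smul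
      (Complex.zero_le_real.mpr (hl.nn l))) _
  rw [← hG]
  -- splitting
  have hsplit : ∀ l, qf ((ν l : ℂ) • (α l ⊗ₖ c l)) (x l - ζ') =
      qf ((ν l : ℂ) • ((α l - S l) ⊗ₖ c l)) (x l - ζ') +
        qf ((ν l : ℂ) • (S l ⊗ₖ c l)) ζ' := by
    intro l
    have e1 : (ν l : ℂ) • (α l ⊗ₖ c l) = (ν l : ℂ) • ((α l - S l) ⊗ₖ c l) +
        (ν l : ℂ) • (S l ⊗ₖ c l) := by
      ext p q
      simp only [Matrix.smul_apply, Matrix.sub_apply, Matrix.add_apply, kroneckerMap_apply,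
        smul_eq_mul]
      ring
    have e2 : (ν l : ℂ) • (S l ⊗ₖ c l) = ((1 - P) ⊗ₖ (1 : Matrix Y Y ℂ)) *
        ((ν l : ℂ) • (S l ⊗ₖ c l)) * ((1 - P) ⊗ₖ (1 : Matrix Y Y ℂ))ᴴ := by
      rw [conjTranspose_kronecker, hP.compl.1, conjTranspose_one, Matrix.mul_smul,
        Matrix.smul_mul, ← mul_kronecker_mul, ← mul_kronecker_mul, one_mul, mul_one,
        Matrix.sub_mul, one_mul, hPS, sub_zero, Matrix.mul_sub, mul_one, hSP, sub_zero]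
    have e3 : qf ((ν l : ℂ) • (S l ⊗ₖ c l)) (x l - ζ') =
        qf ((ν l : ℂ) • (S l ⊗ₖ c l)) ζ' := by
      rw [e2, qf_conj, qf_conj, conjTranspose_kronecker, hP.compl.1, conjTranspose_one,
        mulVec_sub, hTk, hTζ, zero_sub, qf_neg]
    rw [e1, qf_add, e3]
  have hsum1 : (κ - 2 * m - 2) * n ≤ ∑ l, qf ((ν l : ℂ) • (S l ⊗ₖ c l)) ζ' := by
    have h1 := qf_le hSum ζ'
    rw [qf_smul, qf_sum] at h1
    have h2 : qf ((1 - P) ⊗ₖ (1 : Matrix Y Y ℂ)) ζ' = n := by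
      rw [qf, hTζ, dot_self, Complex.ofReal_re, hn]
    rwa [h2] at h1
  have hsum2 : ∑ l, qf ((ν l : ℂ) • ((α l - S l) ⊗ₖ c l)) ζ' ≤ κ * n := by
    have h1 : ∀ l, qf ((ν l : ℂ) • ((α l - S l) ⊗ₖ c l)) ζ' ≤
        qf ((ν l : ℂ) • ((1 : Matrix X X ℂ) ⊗ₖ c l)) ζ' -
          qf ((ν l : ℂ) • (S l ⊗ₖ c l)) ζ' := by
      intro l
      rw [← qf_sub]
      refine qf_le ?_ _
      have e : (ν l : ℂ) • ((1 : Matrix X X ℂ) ⊗ₖ c l) - (ν l : ℂ) • (S l ⊗ₖ c l) -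
          (ν l : ℂ) • ((α l - S l) ⊗ₖ c l) = (ν l : ℂ) • ((1 - α l) ⊗ₖ c l) := by
        ext p q
        simp only [Matrix.smul_apply, Matrix.sub_apply, kroneckerMap_apply, smul_eq_mul]
        ring
      rw [e]
      exact ((hl.pr l).compl.psd.kronecker (hl.pc l).psd).smul
        (Complex.zero_le_real.mpr (hl.nn l))
    have h2 := Finset.sum_le_sum fun l (_ : l ∈ Finset.univ) => h1 l
    rw [Finset.sum_sub_distrib, ← qf_sum Finset.univ fun l =>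
      (ν l : ℂ) • ((1 : Matrix X X ℂ) ⊗ₖ c l), lay_total hl, qf_smul, qf_one, ← hn] at h2
    have h3 : 0 ≤ (κ - 2 * m - 2) * n := mul_nonneg (by linarith) hn0
    linarith
  have hsum3 : ∀ l, r * qf ((ν l : ℂ) • ((1 : Matrix X X ℂ) ⊗ₖ c l)) (x l) ≤
      qf ((ν l : ℂ) • ((α l - S l) ⊗ₖ c l)) (x l) := by
    intro l
    have e1 : ∀ M : Matrix X X ℂ, qf ((ν l : ℂ) • (M ⊗ₖ c l)) (x l) =
        qf ((ν l : ℂ) • ((P * M * P) ⊗ₖ c l)) (x l) := by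
      intro M
      conv_lhs => rw [← hxP l]
      have e2 := qf_conj (P ⊗ₖ (1 : Matrix Y Y ℂ)) ((ν l : ℂ) • (M ⊗ₖ c l)) (x l)
      rw [conjTranspose_kronecker, hP.1, conjTranspose_one] at e2
      rw [← e2, Matrix.mul_smul, Matrix.smul_mul, ← mul_kronecker_mul, ← mul_kronecker_mul,
        one_mul, mul_one]
    rw [e1, e1 (α l - S l), ← qf_smul]
    refine qf_le ?_ _
    have e3 : (ν l : ℂ) • ((P * (α l - S l) * P) ⊗ₖ c l) -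
        (r : ℂ) • ((ν l : ℂ) • ((P * 1 * P) ⊗ₖ c l)) =
        (ν l : ℂ) • ((P * α l * P - (r : ℂ) • P) ⊗ₖ c l) := by
      rw [Matrix.mul_sub, hPS, sub_zero, mul_one, hP.2]
      ext p q
      simp only [Matrix.smul_apply, Matrix.sub_apply, kroneckerMap_apply, smul_eq_mul]
      ring
    rw [e3]
    exact ((hj l).kronecker (hl.pc l).psd).smul (Complex.zero_le_real.mpr (hl.nn l))
  have hlow : ∀ l, 1 / (2 * κ) * (1 / 2 * (r *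
      qf ((ν l : ℂ) • ((1 : Matrix X X ℂ) ⊗ₖ c l)) (x l)) -
      qf ((ν l : ℂ) • ((α l - S l) ⊗ₖ c l)) ζ') ≤
      qf ((ν l : ℂ) • ((α l - S l) ⊗ₖ c l)) (x l - ζ') := by
    intro l
    have k1 := qf_low (hMp l) (x l) ζ'
    have k2 := qf_nonneg (hMp l) (x l - ζ')
    have k3 := hsum3 l
    have k4 : 1 / (2 * κ) ≤ 1 := by
      rw [div_le_one (by linarith)]
      linarith
    have k5 : 0 ≤ 1 / (2 * κ) := by positivity
    have k6 : 1 / 2 * (r * qf ((ν l : ℂ) • ((1 : Matrix X X ℂ) ⊗ₖ c l)) (x l)) -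
      qf ((ν l : ℂ) • ((α l - S l) ⊗ₖ c l)) ζ' ≤
      qf ((ν l : ℂ) • ((α l - S l) ⊗ₖ c l)) (x l - ζ') := by linarith
    nlinarith
  have hζ2 : ∑ l, qf ((ν l : ℂ) • ((1 : Matrix X X ℂ) ⊗ₖ c l)) ζ' = κ * n := by
    rw [← qf_sum, lay_total hl, qf_smul, qf_one, hn]
  have h5 := Finset.sum_le_sum fun l (_ : l ∈ Finset.univ) =>
    pert_low hl hb hε l (x l) ζ'
  have h6 := Finset.sum_le_sum fun l (_ : l ∈ Finset.univ) => hlow l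
  simp only [Finset.sum_sub_distrib, ← Finset.mul_sum, hsplit, Finset.sum_add_distrib]
    at h5 h6
  rw [hζ2, ← hG] at h5
  rw [← hG] at h6
  obtain ⟨M₁, hM₁⟩ : ∃ M₁, M₁ = ∑ l, qf ((ν l : ℂ) • ((α l - S l) ⊗ₖ c l))
    (x l - ζ') := ⟨_, rfl⟩
  obtain ⟨M₂, hM₂⟩ : ∃ M₂, M₂ = ∑ l, qf ((ν l : ℂ) • ((α l - S l) ⊗ₖ c l)) ζ' := ⟨_, rfl⟩
  obtain ⟨M₃, hM₃⟩ : ∃ M₃, M₃ = ∑ l, qf ((ν l : ℂ) • (S l ⊗ₖ c l)) ζ' := ⟨_, rfl⟩
  rw [← hM₁, ← hM₃] at h5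
  rw [← hM₁, ← hM₂] at h6
  rw [← hM₂] at hsum2
  rw [← hM₃] at hsum1
  have h7 : 1 / (2 * κ) * (1 / 2 * (r * G) - M₂) ≥ 2 * (r / (8 * κ)) * G - 1 / 2 * n := by
    have k1 : 1 / (2 * κ) * M₂ ≤ 1 / 2 * n := by
      have := mul_le_mul_of_nonneg_left hsum2 (by positivity : 0 ≤ 1 / (2 * κ))
      have e : 1 / (2 * κ) * (κ * n) = 1 / 2 * n := by field_simp
      linarith
    have e : 1 / (2 * κ) * (1 / 2 * (r * G)) = 2 * (r / (8 * κ)) * G := by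
      field_simp
      ring
    rw [mul_sub]
    linarith
  have h8 : 2 * ε * (κ * n) ≤ 1 / 8 * n := by
    have k1 : 2 * ε * κ ≤ 1 / 8 := by
      have := mul_le_mul_of_nonneg_right hεr hκ0.le
      have e : r / (8 * κ) * κ = r / 8 := by field_simp
      linarith
    nlinarith
  have h9 : 2 * ε * G ≤ r / (8 * κ) * G := mul_le_mul_of_nonneg_right hεr hG0
  have h10 : n ≤ (κ - 2 * m - 2) * n := by nlinarith
  linarith

end lay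

end Vale.Agent.P372.Ou
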