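import Vale.Agent.P372.R2.helper492.Ou.Un1
import Vale.Agent.P372.R2.helper492.Ou.Defs4

/-! The certificate after general noise, for one copy. -/

open Matrix Kronecker
open scoped ComplexOrder MatrixOrder

set_option linter.unusedSectionVars false

namespace Vale.Agent.P372.Ou

open Vale.Agent.P372.PC (IsPr)

section gen

variable {E : Type} [Fintype E] [DecidableEq E]

theorem qf_expand {M : Matrix E E ℂ} (hM : M.IsHermitian) (x y : E → ℂ) :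
    qf M (x - y) = qf M x - 2 * (star x ⬝ᵥ (M *ᵥ y)).re + qf M y := by
  have h1 : (star y ⬝ᵥ (M *ᵥ x)).re = (star x ⬝ᵥ (M *ᵥ y)).re := by
    have : star (star x ⬝ᵥ (M *ᵥ y)) = star y ⬝ᵥ (M *ᵥ x) := by
      rw [← star_dotProduct_star, star_star, star_mulVec, hM.eq, ← dotProduct_mulVec]
    rw [← this, RCLike.star_def, Complex.conj_re]
  simp only [qf, mulVec_sub, star_sub, sub_dotProduct, dotProduct_sub, Complex.sub_re]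
  linarith

end gen

section site

variable {X Y L J : Type} [Fintype X] [DecidableEq X] [Fintype Y] [DecidableEq Y] [Fintype L]
  [DecidableEq L] [Fintype J]

/-- Recombination. -/
theorem comb {K : J → Matrix X X ℂ} {t : ℝ}
    (hT : (∑ j, K j * (K j)ᴴ - (t : ℂ) • 1).PosSemidef) {c : Matrix Y Y ℂ} (hc : c.PosSemidef)
    (u : X × Y → ℂ) (y : J → X × Y → ℂ)
    (hu : ((∑ j, K j * (K j)ᴴ) ⊗ₖ (1 : Matrix Y Y ℂ)) *ᵥ u =
      ∑ j, (K j ⊗ₖ (1 : Matrix Y Y ℂ)) *ᵥ y j) :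
    t * qf ((1 : Matrix X X ℂ) ⊗ₖ c) u ≤ ∑ j, qf ((1 : Matrix X X ℂ) ⊗ₖ c) (y j) := by
  obtain ⟨M, hM⟩ : ∃ M : Matrix (X × Y) (X × Y) ℂ, M = (1 : Matrix X X ℂ) ⊗ₖ c := ⟨_, rfl⟩
  have hMp : M.PosSemidef := by rw [hM]; exact PosSemidef.one.kronecker hc
  obtain ⟨T, hTd⟩ : ∃ T, T = ∑ j, K j * (K j)ᴴ := ⟨_, rfl⟩
  rw [← hTd] at hT hu
  rw [← hM]
  have h1 : ∀ j, 0 ≤ qf M (y j) -
      2 * (star ((K j ⊗ₖ (1 : Matrix Y Y ℂ)) *ᵥ y j) ⬝ᵥ (M *ᵥ u)).re +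
      qf ((K j * (K j)ᴴ) ⊗ₖ c) u := by
    intro j
    have k1 := qf_nonneg hMp (y j - (K j ⊗ₖ (1 : Matrix Y Y ℂ))ᴴ *ᵥ u)
    rw [qf_expand hMp.isHermitian] at k1
    have k2 : qf M ((K j ⊗ₖ (1 : Matrix Y Y ℂ))ᴴ *ᵥ u) = qf ((K j * (K j)ᴴ) ⊗ₖ c) u := by
      rw [← qf_conj, hM, conjTranspose_kronecker, conjTranspose_one, ← mul_kronecker_mul,
        ← mul_kronecker_mul, mul_one, one_mul, mul_one]
    have k3 : star (y j) ⬝ᵥ (M *ᵥ ((K j ⊗ₖ (1 : Matrix Y Y ℂ))ᴴ *ᵥ u)) =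
        star ((K j ⊗ₖ (1 : Matrix Y Y ℂ)) *ᵥ y j) ⬝ᵥ (M *ᵥ u) := by
      rw [star_mulVec, ← dotProduct_mulVec, mulVec_mulVec, mulVec_mulVec]
      congr 2
      rw [hM, conjTranspose_kronecker, conjTranspose_one, ← mul_kronecker_mul,
        ← mul_kronecker_mul, one_mul, mul_one, one_mul, mul_one]
    rw [k2, k3] at k1
    exact k1
  have h2 := Finset.sum_nonneg fun j (_ : j ∈ Finset.univ) => h1 j
  rw [Finset.sum_add_distrib, Finset.sum_sub_distrib, ← Finset.mul_sum, ← Complex.re_sum,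
    ← sum_dotProduct, ← star_sum, ← hu, ← qf_sum] at h2
  have h3 : ∑ j, (K j * (K j)ᴴ) ⊗ₖ c = T ⊗ₖ c := by
    rw [hTd]
    ext p q
    simp only [Matrix.sum_apply, kroneckerMap_apply, Finset.sum_mul]
  rw [h3] at h2
  have h4 : (star ((T ⊗ₖ (1 : Matrix Y Y ℂ)) *ᵥ u) ⬝ᵥ (M *ᵥ u)).re = qf (T ⊗ₖ c) u := by
    have hTH : Tᴴ = T := by
      rw [hTd, conjTranspose_sum]
      refine Finset.sum_congr rfl fun j _ => ?_
      rw [conjTranspose_mul, conjTranspose_conjTranspose]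
    rw [star_mulVec, ← dotProduct_mulVec, mulVec_mulVec, conjTranspose_kronecker, hTH,
      conjTranspose_one, hM, ← mul_kronecker_mul, mul_one, one_mul, qf]
  rw [h4] at h2
  have h5 : t * qf M u ≤ qf (T ⊗ₖ c) u := by
    rw [← qf_smul]
    refine qf_le ?_ _
    have e : T ⊗ₖ c - (t : ℂ) • M = (T - (t : ℂ) • 1) ⊗ₖ c := by
      rw [hM]
      ext p q
      simp only [Matrix.sub_apply, Matrix.smul_apply, kroneckerMap_apply, smul_eq_mul]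
      ring
    rw [e]
    exact hT.kronecker hc
  linarith

theorem gn_none (η : ℝ) (K : J → Matrix X X ℂ) (ψ : L × (X × Y) → ℂ) :
    ((1 : Matrix L L ℂ) ⊗ₖ (noise η K none ⊗ₖ (1 : Matrix Y Y ℂ)))ᴴ *ᵥ ψ =
      ((√(1 - η) : ℝ) : ℂ) • ψ := by
  rw [noise, Option.elim_none, smul_kronecker, one_kronecker_one, kronecker_smul,
    one_kronecker_one, conjTranspose_smul, conjTranspose_one, smul_mulVec, one_mulVec,
    RCLike.star_def, Complex.conj_ofReal]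

theorem gn_some (η : ℝ) (K : J → Matrix X X ℂ) (ψ : L × (X × Y) → ℂ) (j : J) :
    ((1 : Matrix L L ℂ) ⊗ₖ (noise η K (some j) ⊗ₖ (1 : Matrix Y Y ℂ)))ᴴ *ᵥ ψ =
      ((√η : ℝ) : ℂ) • fun q : L × (X × Y) =>
        (((K j)ᴴ ⊗ₖ (1 : Matrix Y Y ℂ)) *ᵥ fun p => ψ (q.1, p)) q.2 := by
  rw [noise, Option.elim_some, smul_kronecker, kronecker_smul, conjTranspose_smul, smul_mulVec,
    RCLike.star_def, Complex.conj_ofReal]
  congr 1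
  funext q
  obtain ⟨l, p⟩ := q
  rw [conjTranspose_kronecker, conjTranspose_kronecker, conjTranspose_one, conjTranspose_one]
  simp only [mulVec, dotProduct]
  rw [Fintype.sum_prod_type, Finset.sum_eq_single l]
  · refine Finset.sum_congr rfl fun p' _ => ?_
    rw [kroneckerMap_apply, one_apply_eq, one_mul]
  · intro l' _ hl
    refine Finset.sum_eq_zero fun p' _ => ?_
    rw [kroneckerMap_apply, one_apply_ne (Ne.symm hl), zero_mul, zero_mul]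
  · simp

/-- The bounds imply positivity after the noise. -/
theorem noise_core' {Q : Matrix (L × (X × Y)) (L × (X × Y)) ℂ} {c : L → Matrix Y Y ℂ} {ν : L → ℝ}
    {σ : L → Matrix (X × Y) (X × Y) ℂ} {K P : J → Matrix X X ℂ} {C₁ κ₂ η t : ℝ} (hη0 : 0 ≤ η)
    (hη1 : η ≤ 1) (hC0 : 0 ≤ C₁) (hκ2 : 0 ≤ κ₂) (ht : 0 < t) (hC : C₁ ≤ η * t * κ₂)
    (hν : ∀ l, 0 ≤ ν l) (hc : ∀ l, (c l).PosSemidef) (hherm : Q.IsHermitian)
    (hT : (∑ j, K j * (K j)ᴴ - (t : ℂ) • 1).PosSemidef) (hKP : ∀ j, K j * P j = K j)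
    (hq : ∀ χ : L × (X × Y) → ℂ, ∃ w : X × Y → ℂ, qf Q χ =
      ∑ l, qf (σ l) ((fun p => χ (l, p)) - w))
    (hb1 : ∀ (ψ : L → X × Y → ℂ) (ξ ξ' : X × Y → ℂ),
      -(C₁ * ∑ l, qf ((ν l : ℂ) • ((1 : Matrix X X ℂ) ⊗ₖ c l)) (ψ l - ξ')) ≤
        ∑ l, qf (σ l) (ψ l - ξ))
    (hb2 : ∀ (j : J) (φ : L → X × Y → ℂ) (ζ : X × Y → ℂ),
      κ₂ * ∑ l, qf ((ν l : ℂ) • ((1 : Matrix X X ℂ) ⊗ₖ c l))
        (((K j)ᴴ ⊗ₖ (1 : Matrix Y Y ℂ)) *ᵥ φ l - (P j ⊗ₖ (1 : Matrix Y Y ℂ)) *ᵥ ζ) ≤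
        ∑ l, qf (σ l) (((K j)ᴴ ⊗ₖ (1 : Matrix Y Y ℂ)) *ᵥ φ l - ζ)) :
    (∑ v : Option J, ((1 : Matrix L L ℂ) ⊗ₖ (noise η K v ⊗ₖ (1 : Matrix Y Y ℂ))) * Q *
      ((1 : Matrix L L ℂ) ⊗ₖ (noise η K v ⊗ₖ (1 : Matrix Y Y ℂ)))ᴴ).PosSemidef := by
  refine psd_of_qf ?_ fun ψ => ?_
  · rw [IsHermitian, conjTranspose_sum]
    refine Finset.sum_congr rfl fun v _ => ?_
    rw [conjTranspose_mul, conjTranspose_mul, conjTranspose_conjTranspose, hherm.eq,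
      Matrix.mul_assoc]
  · rw [qf_sum]
    simp only [qf_conj]
    rw [Fintype.sum_option, gn_none, qf_scale, Real.sq_sqrt (by linarith)]
    simp only [gn_some, qf_scale]
    rw [Real.sq_sqrt hη0, ← Finset.mul_sum]
    choose w hw using hq
    obtain ⟨φ, hφ⟩ : ∃ φ : L → X × Y → ℂ, φ = fun l p => ψ (l, p) := ⟨_, rfl⟩
    obtain ⟨ζ, hζ⟩ : ∃ ζ : J → X × Y → ℂ, ζ = fun j => w (fun q : L × (X × Y) =>
      (((K j)ᴴ ⊗ₖ (1 : Matrix Y Y ℂ)) *ᵥ fun p => ψ (q.1, p)) q.2) := ⟨_, rfl⟩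
    obtain ⟨y, hy⟩ : ∃ y : L → J → X × Y → ℂ, y = fun l j =>
      ((K j)ᴴ ⊗ₖ (1 : Matrix Y Y ℂ)) *ᵥ φ l - (P j ⊗ₖ (1 : Matrix Y Y ℂ)) *ᵥ ζ j := ⟨_, rfl⟩
    have k2 : ∀ j, κ₂ * ∑ l, qf ((ν l : ℂ) • ((1 : Matrix X X ℂ) ⊗ₖ c l)) (y l j) ≤
        qf Q (fun q : L × (X × Y) =>
          (((K j)ᴴ ⊗ₖ (1 : Matrix Y Y ℂ)) *ᵥ fun p => ψ (q.1, p)) q.2) := by
      intro j
      rw [hw, hy]
      refine (hb2 j φ (ζ j)).trans (le_of_eq ?_)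
      rw [hζ, hφ]
    obtain ⟨T, hTd⟩ : ∃ T, T = ∑ j, K j * (K j)ᴴ := ⟨_, rfl⟩
    have hTp : T.PosDef := by
      have h1 : ((t : ℂ) • (1 : Matrix X X ℂ)).PosDef :=
        PosDef.one.smul (Complex.zero_lt_real.mpr ht)
      have h2 := h1.add_posSemidef hT
      rwa [add_sub_cancel, ← hTd] at h2
    have hdet : IsUnit T.det := (Matrix.isUnit_iff_isUnit_det _).mp hTp.isUnit
    obtain ⟨ξ', hξ'⟩ : ∃ ξ' : X × Y → ℂ, ξ' = (T⁻¹ ⊗ₖ (1 : Matrix Y Y ℂ)) *ᵥ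
      ∑ j, (K j ⊗ₖ (1 : Matrix Y Y ℂ)) *ᵥ ζ j := ⟨_, rfl⟩
    have hTξ : (T ⊗ₖ (1 : Matrix Y Y ℂ)) *ᵥ ξ' = ∑ j, (K j ⊗ₖ (1 : Matrix Y Y ℂ)) *ᵥ ζ j := by
      rw [hξ', mulVec_mulVec, ← mul_kronecker_mul, Matrix.mul_nonsing_inv _ hdet, one_mul,
        one_kronecker_one, one_mulVec]
    have k3 : ∀ l, t * qf ((ν l : ℂ) • ((1 : Matrix X X ℂ) ⊗ₖ c l)) (φ l - ξ') ≤
        ∑ j, qf ((ν l : ℂ) • ((1 : Matrix X X ℂ) ⊗ₖ c l)) (y l j) := by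
      intro l
      have h1 := comb hT (hc l) (φ l - ξ') (y l) (by
        rw [← hTd, mulVec_sub, hTξ, ← Finset.sum_congr rfl fun j _ => (by
          rw [hy, mulVec_sub, mulVec_mulVec, mulVec_mulVec, ← mul_kronecker_mul,
            ← mul_kronecker_mul, hKP, one_mul] :
            ((K j * (K j)ᴴ) ⊗ₖ (1 : Matrix Y Y ℂ)) *ᵥ φ l -
              (K j ⊗ₖ (1 : Matrix Y Y ℂ)) *ᵥ ζ j =
            (K j ⊗ₖ (1 : Matrix Y Y ℂ)) *ᵥ y l j), Finset.sum_sub_distrib]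
        congr 1
        rw [← sum_mulVec]
        congr 1
        rw [hTd]
        ext p q
        simp only [Matrix.sum_apply, kroneckerMap_apply, Finset.sum_mul])
      simp only [qf_smul]
      rw [← Finset.mul_sum]
      have h2 := mul_le_mul_of_nonneg_left h1 (hν l)
      linarith
    obtain ⟨G, hG⟩ : ∃ G, G = ∑ l, qf ((ν l : ℂ) • ((1 : Matrix X X ℂ) ⊗ₖ c l)) (φ l - ξ') :=
      ⟨_, rfl⟩
    have hG0 : 0 ≤ G := by
      rw [hG]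
      exact Finset.sum_nonneg fun l _ => qf_nonneg ((PosSemidef.one.kronecker (hc l)).smul
        (Complex.zero_le_real.mpr (hν l))) _
    have k4 : -(C₁ * G) ≤ qf Q ψ := by
      rw [hw ψ, hG]
      refine (hb1 φ (w ψ) ξ').trans (le_of_eq ?_)
      rw [hφ]
    have k5 : κ₂ * (t * G) ≤ ∑ j, qf Q (fun q : L × (X × Y) =>
          (((K j)ᴴ ⊗ₖ (1 : Matrix Y Y ℂ)) *ᵥ fun p => ψ (q.1, p)) q.2) := by
      refine le_trans ?_ (Finset.sum_le_sum fun j _ => k2 j)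
      rw [← Finset.mul_sum]
      refine mul_le_mul_of_nonneg_left ?_ hκ2
      rw [Finset.sum_comm, hG, Finset.mul_sum]
      exact Finset.sum_le_sum fun l _ => k3 l
    have k6 := mul_le_mul_of_nonneg_left k5 hη0
    have k7 := mul_le_mul_of_nonneg_left k4 (sub_nonneg.mpr hη1)
    have k8 := mul_le_mul_of_nonneg_right hC hG0
    have k9 := mul_nonneg hη0 (mul_nonneg hC0 hG0)
    nlinarith

/-- The certificate survives the noise. -/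
theorem site_noise' {α α' : L → Matrix X X ℂ} {c : L → Matrix Y Y ℂ} {ν : L → ℝ}
    {κ ε r η t m : ℝ} {K P : J → Matrix X X ℂ}
    (hl : Lay α c ν κ) (hb : ∀ l, Bd (α' l - α l) ε) (hε : 0 ≤ ε) (hm0 : 0 ≤ m)
    (hκ : 1 ≤ κ - 2 * m - 2) (hr : 0 ≤ r) (hr1 : r ≤ 1) (hη0 : 0 ≤ η) (hη1 : η ≤ 1) (ht : 0 < t)
    (hεr : 2 * ε ≤ r / (8 * κ)) (h4 : 4 * ε * κ ≤ κ - 2)
    (hC : 4 * ε * κ / (κ - 2) + 2 * ε ≤ η * t * (r / (8 * κ)))
    (hT : (∑ j, K j * (K j)ᴴ - (t : ℂ) • 1).PosSemidef) (hP : ∀ j, IsPr (P j))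
    (hPt : ∀ j, (P j).trace.re ≤ m) (hKP : ∀ j, K j * P j = K j)
    (hj : ∀ j l, (P j * α l * P j - (r : ℂ) • P j).PosSemidef)
    {R : Matrix (X × Y) (X × Y) ℂ} (hR : R.PosDef)
    (hsum : ∑ l, ((ν l : ℂ) • α' l) ⊗ₖ c l = R) :
    (∑ v : Option J, ((1 : Matrix L L ℂ) ⊗ₖ (noise η K v ⊗ₖ (1 : Matrix Y Y ℂ))) *
      (Dm (fun l => ((ν l : ℂ) • α' l) ⊗ₖ c l) 1 -
        Hm (fun l => ((ν l : ℂ) • α' l) ⊗ₖ c l)
          (fun l => R⁻¹ * (((ν l : ℂ) • α' l) ⊗ₖ c l)) 1) *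
      ((1 : Matrix L L ℂ) ⊗ₖ (noise η K v ⊗ₖ (1 : Matrix Y Y ℂ)))ᴴ).PosSemidef := by
  have hα'H : ∀ l, (α' l)ᴴ = α' l := by
    intro l
    have h1 := (hb l).herm
    rw [conjTranspose_sub, (hl.pr l).1] at h1
    exact sub_left_injective h1
  have hσH : ∀ l, (((ν l : ℂ) • α' l) ⊗ₖ c l)ᴴ = ((ν l : ℂ) • α' l) ⊗ₖ c l := by
    intro l
    rw [conjTranspose_kronecker, conjTranspose_smul, hα'H, (hl.pc l).1, RCLike.star_def,
      Complex.conj_ofReal]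
  have hκ2 : 0 < κ - 2 := by linarith
  have hκ0 : 0 < κ := by linarith
  refine noise_core' (P := P) (C₁ := 4 * ε * κ / (κ - 2) + 2 * ε) (κ₂ := r / (8 * κ)) hη0 hη1
    (by positivity) (by positivity) ht hC hl.nn (fun l => (hl.pc l).psd)
    (dmhm_herm hR hσH) hT hKP (q_eq hR hσH hsum)
    (fun ψ ξ ξ' => bound_one hl hb hε (by linarith) h4 ψ ξ ξ')
    (fun j φ ζ => ?_)
  refine bound_pr hl hb hε hm0 hκ hr1 hεr (hP j) (hPt j) (hj j) (fun l => ?_) ζ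
  rw [mulVec_mulVec, ← mul_kronecker_mul, one_mul]
  have h1 := congrArg conjTranspose (hKP j)
  rw [conjTranspose_mul, (hP j).1] at h1
  rw [h1]

end site

end Vale.Agent.P372.Ou
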