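import Vale.Agent.P372.R2.helper492.Ou.Un2
import Mathlib.Analysis.Convex.Caratheodory
import Mathlib.LinearAlgebra.AffineSpace.FiniteDimensional

/-! The number of the Kraus operators. -/

open Matrix Kronecker
open scoped ComplexOrder MatrixOrder

set_option linter.unusedSectionVars false

namespace Vale.Agent.P372.Ou

variable {A : Type} [Fintype A] [DecidableEq A]

/-- The products of the entries. -/
def pp (K : Matrix A A ℂ) : (A × A) × (A × A) → ℂ :=
  fun p => star (K p.1.1 p.1.2) * K p.2.1 p.2.2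

theorem pp_scale {c : ℝ} (hc : 0 ≤ c) (K : Matrix A A ℂ) :
    pp (((√c : ℝ) : ℂ) • K) = c • pp K := by
  funext p
  simp only [pp, Matrix.smul_apply, smul_eq_mul, Pi.smul_apply, star_mul']
  rw [RCLike.star_def, Complex.conj_ofReal, mul_mul_mul_comm, ← Complex.ofReal_mul,
    Real.mul_self_sqrt hc, Complex.real_smul]

theorem pp_zero : pp (0 : Matrix A A ℂ) = 0 := by
  funext p
  simp [pp]

theorem rank_scale_le (c : ℂ) (K : Matrix A A ℂ) : (c • K).rank ≤ K.rank := by
  have : c • K = (c • (1 : Matrix A A ℂ)) * K := by rw [Matrix.smul_mul, one_mul]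
  rw [this]
  exact rank_mul_le_right _ _

/-- A sufficient number of Kraus operators. -/
noncomputable def mm (A : Type) [Fintype A] : ℕ :=
  Module.finrank ℝ ((A × A) × (A × A) → ℂ) + 1

theorem exists_few {M m : ℕ} {K : Fin M → Matrix A A ℂ} (hK : ∀ j, (K j).rank ≤ m) :
    ∃ K' : Fin (mm A) → Matrix A A ℂ, (∀ j, (K' j).rank ≤ m) ∧
      ∑ j, pp (K' j) = ∑ j, pp (K j) := by
  rcases Nat.eq_zero_or_pos M with h0 | h0
  · subst h0
    refine ⟨fun _ => 0, fun j => by rw [rank_zero]; exact Nat.zero_le _, ?_⟩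
    simp only [pp_zero, Finset.sum_const_zero, Finset.univ_eq_empty, Finset.sum_empty]
  · have hM : (0 : ℝ) < M := by exact_mod_cast h0
    have hmem : ∑ j, pp (K j) ∈ convexHull ℝ {x | ∃ V : Matrix A A ℂ, V.rank ≤ m ∧ pp V = x} := by
      have e : ∑ j, pp (K j) = ∑ j : Fin M, (1 / (M : ℝ)) • pp (((√(M : ℝ) : ℝ) : ℂ) • K j) := by
        refine Finset.sum_congr rfl fun j _ => ?_
        rw [pp_scale hM.le, smul_smul, one_div, inv_mul_cancel₀ hM.ne', one_smul]
      rw [e]
      refine (convex_convexHull ℝ _).sum_mem (fun _ _ => by positivity) ?_ fun j _ => ?_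
      · rw [Finset.sum_const, Finset.card_univ, Fintype.card_fin, nsmul_eq_mul]
        field_simp
      · exact subset_convexHull ℝ _ ⟨_, (rank_scale_le _ _).trans (hK j), rfl⟩
    obtain ⟨ι, _, z, w, hz, hai, hw, -, hx⟩ := eq_pos_convex_span_of_mem_convexHull hmem
    have hz' : ∀ i, ∃ V : Matrix A A ℂ, V.rank ≤ m ∧ pp V = z i := fun i => hz ⟨i, rfl⟩
    choose V hV1 hV2 using hz'
    have hcard : Fintype.card ι ≤ Fintype.card (Fin (mm A)) := by
      rw [Fintype.card_fin, mm]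
      exact hai.card_le_finrank_succ.trans (Nat.add_le_add_right (Submodule.finrank_le _) 1)
    obtain ⟨e⟩ := Function.Embedding.nonempty_of_card_le hcard
    obtain ⟨K', hK'⟩ : ∃ K', K' = Function.extend e (fun i => ((√(w i) : ℝ) : ℂ) • V i)
      (fun _ => 0) := ⟨_, rfl⟩
    have h1 : ∀ i, K' (e i) = ((√(w i) : ℝ) : ℂ) • V i := by
      intro i
      rw [hK', e.injective.extend_apply]
    have h2 : ∀ j ∉ Set.range e, K' j = 0 := by
      intro j hj
      rw [hK', Function.extend_apply' _ _ _ fun ⟨i, hi⟩ => hj ⟨i, hi⟩]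
    refine ⟨K', fun j => ?_, ?_⟩
    · by_cases hj : j ∈ Set.range e
      · obtain ⟨i, rfl⟩ := hj
        rw [h1]
        exact (rank_scale_le _ _).trans (hV1 i)
      · rw [h2 j hj, rank_zero]
        exact Nat.zero_le _
    · rw [← hx]
      refine (Fintype.sum_of_injective e e.injective (fun i => w i • z i) (fun j => pp (K' j))
        (fun j hj => ?_) fun i => ?_).symm
      · rw [h2 j hj, pp_zero]
      · rw [h1, pp_scale (hw i).le, hV2]

theorem left_pp {J : Type} [Fintype J] (K : J → Matrix A A ℂ) :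
    ∑ j, (K j)ᴴ * K j = Matrix.of fun a b => ∑ c, (∑ j, pp (K j)) ((c, a), (c, b)) := by
  ext a b
  rw [Matrix.sum_apply, Matrix.of_apply]
  simp only [Matrix.mul_apply, conjTranspose_apply, Finset.sum_apply, pp]
  exact Finset.sum_comm

theorem right_pp {J : Type} [Fintype J] (K : J → Matrix A A ℂ) :
    ∑ j, K j * (K j)ᴴ = Matrix.of fun a b => ∑ c, (∑ j, pp (K j)) ((b, c), (a, c)) := by
  ext a b
  rw [Matrix.sum_apply, Matrix.of_apply]
  simp only [Matrix.mul_apply, conjTranspose_apply, Finset.sum_apply, pp]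
  rw [Finset.sum_comm]
  exact Finset.sum_congr rfl fun c _ => Finset.sum_congr rfl fun j _ => mul_comm _ _

theorem tens_pp {n : ℕ} {W : Type} [Fintype W] (V : Fin n → W → Matrix A A ℂ)
    (Z : Matrix (Fin n → A) (Fin n → A) ℂ) :
    ∑ w : Fin n → W, (tens fun i => V i (w i))ᴴ * Z * (tens fun i => V i (w i)) =
      Matrix.of fun x y => ∑ q, ∑ p, Z p q * ∏ i, (∑ v, pp (V i v)) ((p i, x i), (q i, y i)) := by
  ext x y
  rw [Matrix.sum_apply, Matrix.of_apply]
  simp only [Matrix.mul_apply, conjTranspose_apply, Finset.sum_mul]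
  rw [Finset.sum_comm]
  refine Finset.sum_congr rfl fun q _ => ?_
  rw [Finset.sum_comm]
  refine Finset.sum_congr rfl fun p _ => ?_
  simp only [Finset.sum_apply, pp]
  rw [Finset.prod_univ_sum, Fintype.piFinset_univ, Finset.mul_sum]
  refine Finset.sum_congr rfl fun w _ => ?_
  rw [Finset.prod_mul_distrib, tens, tens, star_prod]
  ring

theorem noise_pp {J : Type} [Fintype J] {η : ℝ} (hη : 0 ≤ η) (K : J → Matrix A A ℂ) :
    ∑ v : Option J, pp (noise η K v) =
      pp (((√(1 - η) : ℝ) : ℂ) • (1 : Matrix A A ℂ)) + η • ∑ j, pp (K j) := by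
  rw [Fintype.sum_option, Finset.smul_sum]
  congr 1
  refine Finset.sum_congr rfl fun j _ => ?_
  rw [noise, Option.elim_some, pp_scale hη]

/-- Few Kraus operators suffice. -/
theorem after_few {κ : Type} {n m : ℕ} {η t : ℝ} (hη : 0 ≤ η) {S : Finset (Fin n)}
    {Q : κ → Matrix (Fin n → A) (Fin n → A) ℂ} (h : AfterNoise m η t S Q) :
    ∃ K : Fin n → Fin (mm A) → Matrix A A ℂ,
    (∀ i ∈ S, (∀ j, (K i j).rank ≤ m) ∧ ∑ j, (K i j)ᴴ * K i j = 1 ∧
      (∑ j, K i j * (K i j)ᴴ - (t : ℂ) • 1).PosSemidef) ∧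
    ∀ k, ∃ Z : Matrix (Fin n → A) (Fin n → A) ℂ, Z.PosSemidef ∧
      Q k = ∑ w : Fin n → Option (Fin (mm A)), (tens fun i =>
        noise (if i ∈ S then η else 0) (K i) (w i))ᴴ * Z *
        tens fun i => noise (if i ∈ S then η else 0) (K i) (w i) := by
  obtain ⟨M, K, hK, hQ⟩ := h
  have hex : ∀ i, ∃ K' : Fin (mm A) → Matrix A A ℂ, i ∈ S →
      (∀ j, (K' j).rank ≤ m) ∧ ∑ j, pp (K' j) = ∑ j, pp (K i j) := by
    intro i
    by_cases hi : i ∈ S
    · obtain ⟨K', h1, h2⟩ := exists_few (hK i hi).1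
      exact ⟨K', fun _ => ⟨h1, h2⟩⟩
    · exact ⟨fun _ => 0, fun h => absurd h hi⟩
  choose K' hK' using hex
  refine ⟨K', fun i hi => ⟨(hK' i hi).1, ?_, ?_⟩, fun k => ?_⟩
  · rw [left_pp, (hK' i hi).2, ← left_pp]
    exact (hK i hi).2.1
  · rw [right_pp, (hK' i hi).2, ← right_pp]
    exact (hK i hi).2.2
  · obtain ⟨Z, hZ, hQk⟩ := hQ k
    refine ⟨Z, hZ, ?_⟩
    rw [hQk, tens_pp (fun i => noise (if i ∈ S then η else 0) (K i)),
      tens_pp (fun i => noise (if i ∈ S then η else 0) (K' i))]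
    have e : ∀ i, ∑ v, pp (noise (if i ∈ S then η else 0) (K i) v) =
        ∑ v, pp (noise (if i ∈ S then η else 0) (K' i) v) := by
      intro i
      by_cases hi : i ∈ S
      · rw [if_pos hi, noise_pp hη, noise_pp hη, (hK' i hi).2]
      · rw [if_neg hi, noise_pp le_rfl, noise_pp le_rfl, zero_smul, zero_smul]
    simp only [e]

end Vale.Agent.P372.Ou
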