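import Vale.Agent.P372.R2.helper492.Ou.Un3

/-! Protocols on copies with general noise. -/

open Matrix Kronecker
open scoped ComplexOrder MatrixOrder

set_option linter.unusedSectionVars false

namespace Vale.Agent.P372.Ou

open Vale.Agent.P372.Half (tf)
open Vale.Agent.P372.PC (IsPr tf_apply tf_kron tf_sum)

section dat

variable {A B : Type} [Fintype A] [DecidableEq A] [Fintype B] [DecidableEq B]
variable {V W : Type} [Fintype V] [Fintype W]

/-- The joint Kraus operators. -/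
def jt (TA : V → Matrix A A ℂ) (TB : W → Matrix B B ℂ) (p : V × W) : Matrix (A × B) (A × B) ℂ :=
  TA p.1 ⊗ₖ TB p.2

/-- Labelled decompositions which exclude key after noise. -/
def NDatG {L : Type} [Fintype L] [DecidableEq L] (TA : V → Matrix A A ℂ) (TB : W → Matrix B B ℂ)
    (R : Matrix (A × B) (A × B) ℂ)
    (α : L → Matrix A A ℂ) (β : L → Matrix B B ℂ) (K : L → Matrix (A × B) (A × B) ℂ) : Prop :=
  (∀ l, (α l)ᴴ = α l) ∧ (∀ l, (β l)ᴴ = β l) ∧ ∑ l, α l ⊗ₖ β l = R ∧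
    (∀ l, R * K l = α l ⊗ₖ β l) ∧ (∀ l, (lam TA (α l)).PosSemidef) ∧
    (∀ l, (lam TB (β l)).PosSemidef) ∧ CtL (lam (jt TA TB)) (fun l => α l ⊗ₖ β l) K

theorem ndatG_swap {L : Type} [Fintype L] [DecidableEq L] {TA : V → Matrix B B ℂ}
    {TB : W → Matrix A A ℂ} {R : Matrix (A × B) (A × B) ℂ} {α : L → Matrix B B ℂ}
    {β : L → Matrix A A ℂ} {K : L → Matrix (B × A) (B × A) ℂ}
    (h : NDatG TA TB (R.submatrix Prod.swap Prod.swap) α β K) :
    NDatG TB TA R β α (fun l => (K l).submatrix Prod.swap Prod.swap) := by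
  obtain ⟨h1, h2, h3, h4, h5, h6, h7, h8⟩ := h
  have hmul : ∀ X Y : Matrix (B × A) (B × A) ℂ, (X * Y).submatrix Prod.swap Prod.swap =
      X.submatrix Prod.swap Prod.swap * Y.submatrix Prod.swap Prod.swap := fun X Y =>
    (submatrix_mul_equiv X Y Prod.swap (Equiv.prodComm A B) Prod.swap).symm
  have hkr : ∀ (X : Matrix B B ℂ) (Y : Matrix A A ℂ),
      (X ⊗ₖ Y).submatrix Prod.swap Prod.swap = Y ⊗ₖ X := by
    intro X Y
    ext x y
    simp only [submatrix_apply, kroneckerMap_apply, Prod.fst_swap, Prod.snd_swap]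
    exact mul_comm _ _
  have hR : (R.submatrix Prod.swap Prod.swap).submatrix Prod.swap Prod.swap = R := by
    ext x y
    simp only [submatrix_apply, Prod.swap_swap]
  have hlam : ∀ X : Matrix (B × A) (B × A) ℂ, lam (jt TB TA)
      (X.submatrix Prod.swap Prod.swap) = (lam (jt TA TB) X).submatrix Prod.swap Prod.swap := by
    intro X
    have e1 : (lam (jt TA TB) X).submatrix (Prod.swap : A × B → B × A)
        Prod.swap = ∑ p, (jt TA TB p * X * (jt TA TB p)ᴴ).submatrix Prod.swap Prod.swap := by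
      ext x y
      simp only [lam, submatrix_apply, Matrix.sum_apply]
    rw [e1, lam, ← (Equiv.prodComm V W).sum_comp]
    refine Finset.sum_congr rfl fun p _ => ?_
    rw [hmul, hmul, ← conjTranspose_submatrix]
    have e2 : (jt TA TB p).submatrix (Prod.swap : A × B → B × A) Prod.swap =
        jt TB TA (Equiv.prodComm V W p) := by
      rw [jt, jt, hkr]
      rfl
    rw [e2]
  refine ⟨h2, h1, ?_, fun l => ?_, h6, h5, ?_⟩
  · rw [← hR, ← h3]
    ext x y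
    simp only [submatrix_apply, Matrix.sum_apply, kroneckerMap_apply, Prod.fst_swap, Prod.snd_swap]
    exact Finset.sum_congr rfl fun l _ => mul_comm _ _
  · have h9 := congrArg (fun Z => Z.submatrix (Prod.swap : A × B → B × A) Prod.swap) (h4 l)
    beta_reduce at h9
    rw [hmul, hR, hkr] at h9
    exact h9
  · have e1 : HL (lam (jt TB TA)) (fun l => β l ⊗ₖ α l)
        (fun l => (K l).submatrix Prod.swap Prod.swap) =
        (HL (lam (jt TA TB)) (fun l => α l ⊗ₖ β l) K).submatrix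
          (fun x => (x.1, x.2.swap)) (fun x => (x.1, x.2.swap)) := by
      ext x y
      rw [submatrix_apply, HL, HL, ← hkr, ← hmul, hlam]
      rfl
    have e2 : DL (lam (jt TB TA)) (fun l => β l ⊗ₖ α l) =
        (DL (lam (jt TA TB)) (fun l => α l ⊗ₖ β l)).submatrix
          (fun x => (x.1, x.2.swap)) (fun x => (x.1, x.2.swap)) := by
      ext x y
      rw [submatrix_apply, DL, DL, ← hkr, hlam]
      rfl
    refine ⟨?_, ?_⟩
    · rw [e1]
      exact h7.submatrix _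
    · rw [e1, e2]
      exact h8.submatrix (fun x : L × (A × B) => ((x.1, x.2.swap) : L × (B × A)))

/-- From labelled decompositions to the test. -/
theorem tt_noise {L : Type} [Fintype L] [DecidableEq L] {R : Matrix (A × B) (A × B) ℂ}
    (hR : R.PosSemidef) {n : ℕ} (TA : Fin n → V → Matrix A A ℂ) (TB : Fin n → W → Matrix B B ℂ)
    (hex : ∀ i, ∃ (α : L → Matrix A A ℂ) (β : L → Matrix B B ℂ)
      (K : L → Matrix (A × B) (A × B) ℂ), NDatG (TA i) (TB i) R α β K)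
    (X : Bool → Matrix (Fin n → A) (Fin n → A) ℂ) (Y : Bool → Matrix (Fin n → B) (Fin n → B) ℂ)
    (hX : ∀ b, ∃ Z : Matrix (Fin n → A) (Fin n → A) ℂ, Z.PosSemidef ∧ (X b)ᴴ * X b =
      ∑ w : Fin n → V, (piT fun i => TA i (w i))ᴴ * Z * piT fun i => TA i (w i))
    (hY : ∀ b, ∃ Z : Matrix (Fin n → B) (Fin n → B) ℂ, Z.PosSemidef ∧ (Y b)ᴴ * Y b =
      ∑ w : Fin n → W, (piT fun i => TB i (w i))ᴴ * Z * piT fun i => TB i (w i)) :
    PC.TT (tf fun _ : Fin n => R) (X false) (X true) (Y false) (Y true) := by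
  choose ZX hZX hXe using hX
  choose ZY hZY hYe using hY
  choose α₀ β₀ K₀ h1 h2 h3 h4 h5 h6 h7 using hex
  have hRn : (tf fun _ : Fin n => R).PosSemidef := PC.tf_posSemidef fun _ => hR
  have hscA : ∀ (b : Bool) (x : ℝ), 0 ≤ x → ∃ Z : Matrix (Fin n → A) (Fin n → A) ℂ,
      Z.PosSemidef ∧ (x : ℂ) • ((X b)ᴴ * X b) =
      ∑ w : Fin n → V, (piT fun i => TA i (w i))ᴴ * Z * piT fun i => TA i (w i) := by
    intro b x hx
    refine ⟨(x : ℂ) • ZX b, (hZX b).smul (Complex.zero_le_real.mpr hx), ?_⟩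
    rw [hXe b, Finset.smul_sum]
    refine Finset.sum_congr rfl fun w _ => ?_
    rw [Matrix.mul_smul, Matrix.smul_mul]
  have hscB : ∀ (b : Bool) (x : ℝ), 0 ≤ x → ∃ Z : Matrix (Fin n → B) (Fin n → B) ℂ,
      Z.PosSemidef ∧ (x : ℂ) • ((Y b)ᴴ * Y b) =
      ∑ w : Fin n → W, (piT fun i => TB i (w i))ᴴ * Z * piT fun i => TB i (w i) := by
    intro b x hx
    refine ⟨(x : ℂ) • ZY b, (hZY b).smul (Complex.zero_le_real.mpr hx), ?_⟩
    rw [hYe b, Finset.smul_sum]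
    refine Finset.sum_congr rfl fun w _ => ?_
    rw [Matrix.mul_smul, Matrix.smul_mul]
  refine TT_of_SO hRn _ _ _ _ fun a b ha hb => ?_
  obtain ⟨Z₀, hZ₀, hP₀⟩ := hscA false a ha.le
  obtain ⟨Z₁, hZ₁, hP₁⟩ := hscA true a⁻¹ (inv_nonneg.mpr ha.le)
  obtain ⟨Z₂, hZ₂, hQ₀⟩ := hscB false b hb.le
  obtain ⟨Z₃, hZ₃, hQ₁⟩ := hscB true b⁻¹ (inv_nonneg.mpr hb.le)
  have kA : ∀ (Z : Matrix (Fin n → A) (Fin n → A) ℂ), Z.PosSemidef → ∀ z : Fin n → L,
      0 ≤ ((∑ w : Fin n → V, (piT fun i => TA i (w i))ᴴ * Z * piT fun i => TA i (w i)) *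
        piT fun i => α₀ i (z i)).trace := by
    intro Z hZ z
    rw [trace_lam TA Z]
    exact tr_mul_psd hZ (piT_posSemidef fun i => h5 i (z i))
  have kB : ∀ (Z : Matrix (Fin n → B) (Fin n → B) ℂ), Z.PosSemidef → ∀ z : Fin n → L,
      0 ≤ ((∑ w : Fin n → W, (piT fun i => TB i (w i))ᴴ * Z * piT fun i => TB i (w i)) *
        piT fun i => β₀ i (z i)).trace := by
    intro Z hZ z
    rw [trace_lam TB Z]
    exact tr_mul_psd hZ (piT_posSemidef fun i => h6 i (z i))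
  refine so_abs h1 h2 h3 h4 (fun z => ?_) (fun z => ?_) (fun z => ?_) (fun z => ?_)
    fun u => ?_
  · rw [hP₀]; exact kA Z₀ hZ₀ z
  · rw [hP₁]; exact kA Z₁ hZ₁ z
  · rw [hQ₀]; exact kB Z₂ hZ₂ z
  · rw [hQ₁]; exact kB Z₃ hZ₃ z
  · have e1 : (a : ℂ) • ((X false)ᴴ * X false) + ((a⁻¹ : ℝ) : ℂ) • ((X true)ᴴ * X true) =
        ∑ w : Fin n → V, (piT fun i => TA i (w i))ᴴ * (Z₀ + Z₁) * piT fun i => TA i (w i) := by
      rw [hP₀, hP₁, ← Finset.sum_add_distrib]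
      refine Finset.sum_congr rfl fun w _ => ?_
      rw [Matrix.mul_add, Matrix.add_mul]
    have e2 : (b : ℂ) • ((Y false)ᴴ * Y false) + ((b⁻¹ : ℝ) : ℂ) • ((Y true)ᴴ * Y true) =
        ∑ w : Fin n → W, (piT fun i => TB i (w i))ᴴ * (Z₂ + Z₃) * piT fun i => TB i (w i) := by
      rw [hQ₀, hQ₁, ← Finset.sum_add_distrib]
      refine Finset.sum_congr rfl fun w _ => ?_
      rw [Matrix.mul_add, Matrix.add_mul]
    rw [e1, e2]
    have k1 := contrL (Λ := fun i => lam (jt (TA i) (TB i))) h7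
      ((hZ₀.add hZ₁).kronecker (hZ₂.add hZ₃)) u
    have k2 : ∀ M : Fin n → Matrix (A × B) (A × B) ℂ, (((∑ w : Fin n → V,
        (piT fun i => TA i (w i))ᴴ * (Z₀ + Z₁) * piT fun i => TA i (w i)) ⊗ₖ
        (∑ w : Fin n → W, (piT fun i => TB i (w i))ᴴ * (Z₂ + Z₃) *
          piT fun i => TB i (w i))) * tf M).trace =
        (((Z₀ + Z₁) ⊗ₖ (Z₂ + Z₃)) * tf fun i => lam (jt (TA i) (TB i)) (M i)).trace := fun M =>
      trace_lam2 TA TB (Z₀ + Z₁) (Z₂ + Z₃) M
    simp only [k2]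
    exact k1

/-- From labelled decompositions to protocols on noisy copies. -/
theorem noKeyAfter_of {L : Type} [Fintype L] [DecidableEq L] {R : Matrix (A × B) (A × B) ℂ}
    {c η t : ℝ} {m : ℕ} (hc : 0 ≤ c) (hη : 0 ≤ η) (hR : R.PosSemidef)
    (hA : ∀ K : Fin (mm A) → Matrix A A ℂ, (∀ j, (K j).rank ≤ m) → ∑ j, (K j)ᴴ * K j = 1 →
      (∑ j, K j * (K j)ᴴ - (t : ℂ) • 1).PosSemidef → ∃ (α : L → Matrix A A ℂ)
        (β : L → Matrix B B ℂ) (K' : L → Matrix (A × B) (A × B) ℂ), ∀ K₂ : Fin (mm B) →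
        Matrix B B ℂ, NDatG (noise η K) (noise 0 K₂) R α β K')
    (hB : ∀ K : Fin (mm B) → Matrix B B ℂ, (∀ j, (K j).rank ≤ m) → ∑ j, (K j)ᴴ * K j = 1 →
      (∑ j, K j * (K j)ᴴ - (t : ℂ) • 1).PosSemidef → ∃ (α : L → Matrix A A ℂ)
        (β : L → Matrix B B ℂ) (K' : L → Matrix (A × B) (A × B) ℂ), ∀ K₁ : Fin (mm A) →
        Matrix A A ℂ, NDatG (noise 0 K₁) (noise η K) R α β K') :
    NoKeyAfter ((c : ℂ) • R) m η t := by
  intro E _ _ Ψ hΨ n ℓ hℓ T _ f g hL hS herr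
  obtain ⟨hf, hg⟩ := PC.locc_psd hL
  obtain ⟨τ, X, Y, hX, hY, hlt⟩ := PC.test_of_keyError (copies n Ψ) ⟨0, hℓ⟩ f g hf hg herr
  rw [PC.copies_mul, hΨ, PC.tpow_smul] at hlt
  obtain ⟨S, hSA, hSB⟩ := hS τ
  obtain ⟨KA, hKA, hZA⟩ := after_few hη hSA
  obtain ⟨KB, hKB, hZB⟩ := after_few hη hSB
  choose ZA hZA1 hZA2 using hZA
  choose ZB hZB1 hZB2 using hZB
  have hsumN : ∀ {A' V' : Type} [Fintype A'] [DecidableEq A'] [Fintype V']
      (U : Fin n → V' → Matrix A' A' ℂ)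
      (Z : (Fin ℓ → Bool) → Matrix (Fin n → A') (Fin n → A') ℂ) (s : Finset (Fin ℓ → Bool)),
      ∑ k ∈ s, (∑ w : Fin n → V', (tens fun i => U i (w i))ᴴ * Z k * tens fun i => U i (w i)) =
      ∑ w : Fin n → V', (tens fun i => U i (w i))ᴴ * (∑ k ∈ s, Z k) *
        tens fun i => U i (w i) := by
    intro A' V' _ _ _ U Z s
    rw [Finset.sum_comm]
    refine Finset.sum_congr rfl fun w _ => ?_
    rw [Matrix.mul_sum, Matrix.sum_mul]
  have hXn : ∀ b, ∃ Z : Matrix (Fin n → A) (Fin n → A) ℂ, Z.PosSemidef ∧ (X b)ᴴ * X b =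
      ∑ w : Fin n → Option (Fin (mm A)),
        (piT fun i => noise (if i ∈ S then η else 0) (KA i) (w i))ᴴ * Z *
        piT fun i => noise (if i ∈ S then η else 0) (KA i) (w i) := by
    intro b
    refine ⟨_, posSemidef_sum (Finset.univ.filter fun k : Fin ℓ → Bool => k ⟨0, hℓ⟩ = b)
      fun k _ => hZA1 k, ?_⟩
    rw [hX b, ← Finset.sum_filter]
    refine (Finset.sum_congr rfl fun k _ => hZA2 k).trans ?_
    exact hsumN (fun i => noise (if i ∈ S then η else 0) (KA i)) ZA _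
  have hYn : ∀ b, ∃ Z : Matrix (Fin n → B) (Fin n → B) ℂ, Z.PosSemidef ∧ (Y b)ᴴ * Y b =
      ∑ w : Fin n → Option (Fin (mm B)),
        (piT fun i => noise (if i ∈ Sᶜ then η else 0) (KB i) (w i))ᴴ * Z *
        piT fun i => noise (if i ∈ Sᶜ then η else 0) (KB i) (w i) := by
    intro b
    refine ⟨_, posSemidef_sum (Finset.univ.filter fun k : Fin ℓ → Bool => k ⟨0, hℓ⟩ = b)
      fun k _ => hZB1 k, ?_⟩
    rw [hY b, ← Finset.sum_filter]
    refine (Finset.sum_congr rfl fun k _ => hZB2 k).trans ?_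
    exact hsumN (fun i => noise (if i ∈ Sᶜ then η else 0) (KB i)) ZB _
  have hex : ∀ i : Fin n, ∃ (α : L → Matrix A A ℂ) (β : L → Matrix B B ℂ)
      (K : L → Matrix (A × B) (A × B) ℂ), NDatG (noise (if i ∈ S then η else 0) (KA i))
        (noise (if i ∈ Sᶜ then η else 0) (KB i)) R α β K := by
    intro i
    by_cases hi : i ∈ S
    · have hi' : i ∉ Sᶜ := fun h => (Finset.mem_compl.mp h) hi
      rw [if_pos hi, if_neg hi']
      obtain ⟨α, β, K, h⟩ := hA (KA i) (hKA i hi).1 (hKA i hi).2.1 (hKA i hi).2.2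
      exact ⟨α, β, K, h (KB i)⟩
    · have hi' : i ∈ Sᶜ := Finset.mem_compl.mpr hi
      rw [if_neg hi, if_pos hi']
      obtain ⟨α, β, K, h⟩ := hB (KB i) (hKB i hi').1 (hKB i hi').2.1 (hKB i hi').2.2
      exact ⟨α, β, K, h (KA i)⟩
  have hTT := tt_noise hR (fun i => noise (if i ∈ S then η else 0) (KA i))
    (fun i => noise (if i ∈ Sᶜ then η else 0) (KB i)) hex X Y hXn hYn
  exact absurd hlt (not_lt.mpr (PC.TT_smul (pow_nonneg hc n) hTT))

end dat

end Vale.Agent.P372.Ou
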