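import Vale.Agent.P372.R2.helper492.Ou.Un4
import Vale.Agent.P372.R2.helper492.Ou.Dep5

/-! States near the separable boundary state under general noise. -/

open Matrix Kronecker
open scoped ComplexOrder MatrixOrder

set_option linter.unusedSectionVars false

namespace Vale.Agent.P372.Ou

open Vale.Agent.P372.Half (tf)
open Vale.Agent.P372.PC (IsPr tf_apply tf_kron tf_sum)

section lam

variable {A B L J J' : Type} [Fintype A] [DecidableEq A] [Fintype B] [DecidableEq B] [Fintype L]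
  [DecidableEq L] [Fintype J] [Fintype J']

theorem noise_zero_none (K : J → Matrix A A ℂ) : noise 0 K none = 1 := by
  rw [noise, Option.elim_none, sub_zero, Real.sqrt_one, Complex.ofReal_one, one_smul]

theorem noise_zero_some (K : J → Matrix A A ℂ) (j : J) : noise 0 K (some j) = 0 := by
  rw [noise, Option.elim_some, Real.sqrt_zero, Complex.ofReal_zero, zero_smul]

theorem lam_noise_zero (K : J → Matrix A A ℂ) (X : Matrix A A ℂ) : lam (noise 0 K) X = X := by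
  rw [lam, Fintype.sum_option, noise_zero_none, one_mul, conjTranspose_one, mul_one]
  simp only [noise_zero_some, Matrix.zero_mul, Finset.sum_const_zero, add_zero]

theorem lam_noise {η : ℝ} (hη0 : 0 ≤ η) (hη1 : η ≤ 1) (K : J → Matrix A A ℂ)
    (X : Matrix A A ℂ) : lam (noise η K) X = ((1 - η : ℝ) : ℂ) • X +
      (η : ℂ) • ∑ j, K j * X * (K j)ᴴ := by
  have h1 : 0 ≤ 1 - η := by linarith
  rw [lam, Fintype.sum_option, Finset.smul_sum]
  congr 1
  · rw [noise, Option.elim_none, conjTranspose_smul, conjTranspose_one, Matrix.smul_mul, one_mul,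
      Matrix.mul_smul, mul_one, smul_smul, RCLike.star_def, Complex.conj_ofReal,
      ← Complex.ofReal_mul, Real.mul_self_sqrt h1]
  · refine Finset.sum_congr rfl fun j _ => ?_
    rw [noise, Option.elim_some, conjTranspose_smul, Matrix.smul_mul, Matrix.smul_mul,
      Matrix.mul_smul, smul_smul, RCLike.star_def, Complex.conj_ofReal,
      ← Complex.ofReal_mul, Real.mul_self_sqrt hη0]

theorem jt_sum (η : ℝ) (K : J → Matrix A A ℂ) (K₂ : J' → Matrix B B ℂ)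
    (Q : Matrix (L × (A × B)) (L × (A × B)) ℂ) :
    ∑ p : Option J × Option J', ((1 : Matrix L L ℂ) ⊗ₖ jt (noise η K) (noise 0 K₂) p) * Q *
      ((1 : Matrix L L ℂ) ⊗ₖ jt (noise η K) (noise 0 K₂) p)ᴴ =
    ∑ v : Option J, ((1 : Matrix L L ℂ) ⊗ₖ (noise η K v ⊗ₖ (1 : Matrix B B ℂ))) * Q *
      ((1 : Matrix L L ℂ) ⊗ₖ (noise η K v ⊗ₖ (1 : Matrix B B ℂ)))ᴴ := by
  rw [Fintype.sum_prod_type]
  refine Finset.sum_congr rfl fun v _ => ?_
  rw [Fintype.sum_option]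
  have e : ∀ x : J', ((1 : Matrix L L ℂ) ⊗ₖ jt (noise η K) (noise 0 K₂) (v, some x)) * Q *
      ((1 : Matrix L L ℂ) ⊗ₖ jt (noise η K) (noise 0 K₂) (v, some x))ᴴ = 0 := by
    intro x
    rw [jt, noise_zero_some, kronecker_zero, kronecker_zero, Matrix.zero_mul, Matrix.zero_mul]
  simp only [e, Finset.sum_const_zero, add_zero]
  rw [jt, noise_zero_none]

/-- Positivity of the labels after the noise. -/
theorem label_noise {η t r ε : ℝ} (hη0 : 0 ≤ η) (hη1 : η ≤ 1) {K P : J → Matrix A A ℂ}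
    {α α' : Matrix A A ℂ} (hα : α.PosSemidef) (hb : Bd (α' - α) ε) (hεr : ε ≤ r)
    (hnum : (1 - η) * ε ≤ η * (r - ε) * t)
    (hT : (∑ j, K j * (K j)ᴴ - (t : ℂ) • 1).PosSemidef) (hPH : ∀ j, (P j)ᴴ = P j)
    (hPP : ∀ j, P j * P j = P j)
    (hKP : ∀ j, K j * P j = K j) (hj : ∀ j, (P j * α * P j - (r : ℂ) • P j).PosSemidef) :
    (lam (noise η K) α').PosSemidef := by
  obtain ⟨T, hTd⟩ : ∃ T, T = ∑ j, K j * (K j)ᴴ := ⟨_, rfl⟩
  obtain ⟨S₁, hS₁⟩ : ∃ S₁, S₁ = ∑ j, K j * α' * (K j)ᴴ := ⟨_, rfl⟩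
  obtain ⟨S₂, hS₂⟩ : ∃ S₂, S₂ = ∑ j, K j * α * (K j)ᴴ := ⟨_, rfl⟩
  obtain ⟨S₃, hS₃⟩ : ∃ S₃, S₃ = ∑ j, K j * (P j * α * P j - (r : ℂ) • P j) * (K j)ᴴ := ⟨_, rfl⟩
  have hS₃p : S₃.PosSemidef := by
    rw [hS₃]
    exact posSemidef_sum _ fun j _ => (hj j).mul_mul_conjTranspose_same _
  have hPK : ∀ j, P j * (K j)ᴴ = (K j)ᴴ := by
    intro j
    have h1 := congrArg conjTranspose (hKP j)
    rwa [conjTranspose_mul, hPH j] at h1
  have e3 : S₃ = S₂ - (r : ℂ) • T := by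
    rw [hS₃, hS₂, hTd, Finset.smul_sum, ← Finset.sum_sub_distrib]
    refine Finset.sum_congr rfl fun j _ => ?_
    calc K j * (P j * α * P j - (r : ℂ) • P j) * (K j)ᴴ =
        (K j * P j) * α * (P j * (K j)ᴴ) - (r : ℂ) • ((K j * P j) * (K j)ᴴ) := by
          simp only [Matrix.mul_sub, Matrix.sub_mul, Matrix.mul_smul, Matrix.smul_mul,
            Matrix.mul_assoc]
      _ = _ := by rw [hKP, hPK]
  have e1 : ∑ j, K j * ((ε : ℂ) • 1 + (α' - α)) * (K j)ᴴ = (ε : ℂ) • T + (S₁ - S₂) := by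
    rw [hTd, hS₁, hS₂, Finset.smul_sum, ← Finset.sum_sub_distrib, ← Finset.sum_add_distrib]
    refine Finset.sum_congr rfl fun j _ => ?_
    simp only [Matrix.mul_add, Matrix.add_mul, Matrix.mul_sub, Matrix.sub_mul, Matrix.mul_smul,
      Matrix.smul_mul, mul_one]
  have e2 : lam (noise η K) α' = lam (noise η K) ((ε : ℂ) • 1 + (α' - α)) +
      (((1 - η : ℝ) : ℂ) • α + ((η : ℂ) • S₃ + (((η * (r - ε) : ℝ) : ℂ) • (T - (t : ℂ) • 1) +
        ((η * (r - ε) * t - (1 - η) * ε : ℝ) : ℂ) • (1 : Matrix A A ℂ)))) := by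
    rw [lam_noise hη0 hη1, lam_noise hη0 hη1, e1, ← hS₁, e3]
    push_cast
    module
  rw [e2]
  have hT' : (T - (t : ℂ) • 1).PosSemidef := by rw [hTd]; exact hT
  refine (lam_psd _ hb.2).add (PosSemidef.add ?_ (PosSemidef.add ?_ (PosSemidef.add ?_ ?_)))
  · exact hα.smul (Complex.zero_le_real.mpr (by linarith))
  · exact hS₃p.smul (Complex.zero_le_real.mpr hη0)
  · exact hT'.smul (Complex.zero_le_real.mpr (mul_nonneg hη0 (by linarith)))
  · exact PosSemidef.one.smul (Complex.zero_le_real.mpr (by linarith))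

end lam

/-- The uniform rotation for one copy. -/
theorem unif_one {g k : ℕ} (J L : Type) [Fintype J] [Fintype L] {m : ℕ} (hmk : m + 1 ≤ k)
    {b : L → Fin k → ℂ} (hb : ∀ l, b l ≠ 0)
    (hpr : ∀ (U : Matrix (Fin k) (Fin k) ℂ) l, Uᴴ * U = 1 → IsPr (alp g (U *ᵥ b l))) :
    ∃ r : ℝ, 0 < r ∧ r ≤ 1 ∧ ∀ P : J → Matrix (Fin g × Fin k) (Fin g × Fin k) ℂ,
      (∀ j, IsPr (P j)) → (∀ j, (P j).trace.re ≤ m) →
      ∃ U : Matrix (Fin k) (Fin k) ℂ, (Uᴴ * U = 1 ∧ U * Uᴴ = 1) ∧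
        ∀ j l, (P j * alp g (U *ᵥ b l) * P j - (r : ℂ) • P j).PosSemidef := by
  obtain ⟨r, hr0, hr1, h⟩ := exists_unifs (g := g) 1 J L hmk hb hpr
  refine ⟨r, hr0, hr1, fun P hP hPt => ?_⟩
  obtain ⟨e, he⟩ : ∃ e : Fin g × Fin k ≃ (Fin 1 → Fin g × Fin k),
      e = (Equiv.funUnique (Fin 1) (Fin g × Fin k)).symm := ⟨_, rfl⟩
  have he0 : ∀ x i, e x i = x := by
    intro x i
    rw [he]
    rfl
  obtain ⟨U, hU, hUl⟩ := h (fun j => (P j).submatrix e.symm e.symm) fun j => by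
    refine ⟨?_, ?_, ?_⟩
    · rw [conjTranspose_submatrix, (hP j).1]
    · rw [submatrix_mul_equiv, (hP j).2]
    · have : ((P j).submatrix e.symm e.symm).trace = (P j).trace := by
        simp only [Matrix.trace, Matrix.diag, submatrix_apply]
        exact e.symm.sum_comp fun x => P j x x
      rw [this]
      exact hPt j
  refine ⟨U 0, hU 0, fun j l => ?_⟩
  have h1 := (hUl j (fun _ => l)).submatrix e
  have hPe : ((P j).submatrix e.symm e.symm).submatrix e e = P j := by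
    ext x y
    simp only [submatrix_apply, Equiv.symm_apply_apply]
  have hpi : (piT fun i : Fin 1 => alp g (U i *ᵥ b l)).submatrix e e = alp g (U 0 *ᵥ b l) := by
    ext x y
    rw [submatrix_apply, piT_apply, Fin.prod_univ_one, he0, he0]
  have e1 : ((P j).submatrix e.symm e.symm * (piT fun i : Fin 1 => alp g (U i *ᵥ b l)) *
      (P j).submatrix e.symm e.symm - (r : ℂ) • (P j).submatrix e.symm e.symm).submatrix e e =
      P j * alp g (U 0 *ᵥ b l) * P j - (r : ℂ) • P j := by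
    conv_rhs => rw [← hPe, ← hpi, submatrix_mul_equiv, submatrix_mul_equiv]
    rfl
  rwa [e1] at h1

/-- The neighbourhood theorem for noisy copies. -/
theorem nb_after (g k m : ℕ) (hg : 0 < g) (hk : 2 * m + 2 ≤ k) :
    ∃ e₀ : ℝ, 0 < e₀ ∧ ∀ η : ℝ, 0 < η → η ≤ 1 → ∀ t : ℝ, 0 < t → t ≤ 1 →
      ∀ R, Bd (R - base g k) (e₀ * (η * t)) →
      ∀ c : ℝ, 0 ≤ c → NoKeyAfter ((c : ℂ) • R) m η t := by
  have hk0 : 0 < k := by omega
  have hk2 : (2 : ℝ) ≤ k := by exact_mod_cast (by omega : 2 ≤ k)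
  have hkm : (2 * m + 2 : ℝ) ≤ k := by exact_mod_cast hk
  have hm0 : (0 : ℝ) ≤ m := Nat.cast_nonneg m
  have hdes := isDes hk0
  have hdes' := isDes hg
  have hb0 : ∀ l, dv k l ≠ 0 := by
    intro l h
    have h1 := hdes.unit l
    rw [h] at h1
    simp at h1
  obtain ⟨r, hr0, hr1, hrU⟩ := unif_one (g := g) (Fin (mm (Fin g × Fin k)))
    (Fin k ⊕ (Fin k → Fin 4)) (m := m) (by omega) hb0
    (fun U l hU => alp_pr (rot_unit hU (hdes.unit l)))
  obtain ⟨κ, hκd⟩ : ∃ κ : ℝ, κ = k + 1 := ⟨_, rfl⟩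
  have hκ3 : 3 ≤ κ := by rw [hκd]; linarith
  refine ⟨r / (112 * κ) / (4 * (g + 1)), by positivity,
    fun η hη hη1 t ht ht1 R hR c hc => ?_⟩
  obtain ⟨ε₁, hε₁⟩ : ∃ ε₁ : ℝ, ε₁ = η * t * r / (112 * κ) := ⟨_, rfl⟩
  have hε₁g : r / (112 * κ) / (4 * (g + 1)) * (η * t) = ε₁ / (4 * (g + 1)) := by
    rw [hε₁]
    ring
  rw [hε₁g] at hR
  have hε₁0 : 0 < ε₁ := by rw [hε₁]; positivity
  have hmain : 14 * ε₁ = η * t * (r / (8 * κ)) := by
    rw [hε₁]
    field_simp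
    norm_num
  have hηt0 : 0 < η * t := mul_pos hη ht
  have hηt : η * t ≤ 1 := mul_le_one₀ hη1 ht.le ht1
  have hrκ : r / (8 * κ) ≤ 1 / 24 := by
    rw [div_le_div_iff₀ (by positivity) (by norm_num)]
    nlinarith
  have hrκ0 : 0 < r / (8 * κ) := by positivity
  have h14 : 14 * ε₁ ≤ r / (8 * κ) := by
    rw [hmain]
    exact mul_le_of_le_one_left hrκ0.le hηt
  have hε₁1 : ε₁ ≤ 1 / 8 := by linarith
  have hrr : r / (8 * κ) ≤ r := div_le_self hr0.le (by linarith)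
  have h14' : 14 * ε₁ ≤ η * t * r := by
    rw [hmain]
    exact mul_le_mul_of_nonneg_left hrr hηt0.le
  have hε₁r : ε₁ ≤ r := by linarith
  have hnum : (1 - η) * ε₁ ≤ η * (r - ε₁) * t := by
    have h1 : ε₁ * (1 - η + η * t) ≤ ε₁ * 1 := by
      refine mul_le_mul_of_nonneg_left ?_ hε₁0.le
      nlinarith
    nlinarith
  have h4 : 4 * ε₁ * κ ≤ κ - 2 := by
    have h1 : ε₁ * κ ≤ 1 / 112 := by
      have e : ε₁ * κ = η * t * r / 112 := by
        rw [hε₁]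
        field_simp
      rw [e]
      have : η * t * r ≤ 1 := mul_le_one₀ hηt hr0.le hr1
      linarith
    linarith
  have hC : 4 * ε₁ * κ / (κ - 2) + 2 * ε₁ ≤ η * t * (r / (8 * κ)) := by
    rw [← hmain]
    have hκ2 : 0 < κ - 2 := by linarith
    have : 4 * ε₁ * κ / (κ - 2) ≤ 12 * ε₁ := by
      rw [div_le_iff₀ hκ2]
      nlinarith
    linarith
  have hg0 : (0 : ℝ) ≤ g := Nat.cast_nonneg g
  have key : ∀ R : Matrix ((Fin g × Fin k) × (Fin g × Fin k))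
      ((Fin g × Fin k) × (Fin g × Fin k)) ℂ, Bd (R - base g k) (ε₁ / (4 * (g + 1))) →
      R.PosDef ∧ ∀ K : Fin (mm (Fin g × Fin k)) → Matrix (Fin g × Fin k) (Fin g × Fin k) ℂ,
        (∀ j, (K j).rank ≤ m) → (∑ j, K j * (K j)ᴴ - (t : ℂ) • 1).PosSemidef →
        ∃ (α β : (Fin k ⊕ (Fin k → Fin 4)) × (Fin g ⊕ (Fin g → Fin 4)) →
        Matrix (Fin g × Fin k) (Fin g × Fin k) ℂ)
        (K' : (Fin k ⊕ (Fin k → Fin 4)) × (Fin g ⊕ (Fin g → Fin 4)) →
        Matrix ((Fin g × Fin k) × (Fin g × Fin k)) ((Fin g × Fin k) × (Fin g × Fin k)) ℂ),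
        ∀ K₂ : Fin (mm (Fin g × Fin k)) → Matrix (Fin g × Fin k) (Fin g × Fin k) ℂ,
        NDatG (noise η K) (noise 0 K₂) R α β K' := by
    intro R hR
    have hεε : ε₁ / (4 * (g + 1)) ≤ ε₁ := div_le_self hε₁0.le (by linarith)
    have hpd : R.PosDef := by
      have h1 := hR.2.add (base_low (g := g) (k := k))
      have e : ((ε₁ / (4 * (g + 1)) : ℝ) : ℂ) • 1 + (R - base g k) +
            (base g k - ((k - 1 : ℝ) : ℂ) • 1) =
            R - ((k - 1 - ε₁ / (4 * (g + 1)) : ℝ) : ℂ) • 1 := by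
        rw [Complex.ofReal_sub ((k : ℝ) - 1), sub_smul]
        abel
      rw [e] at h1
      have h2 : (((k - 1 - ε₁ / (4 * (g + 1)) : ℝ) : ℂ) •
          (1 : Matrix ((Fin g × Fin k) × (Fin g × Fin k)) _ ℂ)).PosDef :=
        PosDef.one.smul (Complex.zero_lt_real.mpr (by linarith))
      have h3 := h2.add_posSemidef h1
      rwa [add_sub_cancel] at h3
    refine ⟨hpd, fun K hK hT => ?_⟩
    choose P hP hKP hPt using fun j => exists_supp (K j)
    have hPt' : ∀ j, (P j).trace.re ≤ m := by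
      intro j
      rw [hPt j, Complex.ofReal_re]
      exact_mod_cast hK j
    obtain ⟨U, hU, hUj⟩ := hrU P hP hPt'
    have hd : IsDes (dw k) (fun l => U *ᵥ dv k l) := hdes.rotate hU.1 hU.2
    obtain ⟨α, hα⟩ : ∃ α : (Fin k ⊕ (Fin k → Fin 4)) × (Fin g ⊕ (Fin g → Fin 4)) →
        Matrix (Fin g × Fin k) (Fin g × Fin k) ℂ, α = fun l => alp g (U *ᵥ dv k l.1) :=
      ⟨_, rfl⟩
    obtain ⟨α', hα'⟩ : ∃ α' : (Fin k ⊕ (Fin k → Fin 4)) × (Fin g ⊕ (Fin g → Fin 4)) →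
        Matrix (Fin g × Fin k) (Fin g × Fin k) ℂ, α' = fun l => alp g (U *ᵥ dv k l.1) +
        ((g + 1 : ℝ) : ℂ) • tb (du g k (dv g l.2) (U *ᵥ dv k l.1)) (R - base g k) :=
      ⟨_, rfl⟩
    obtain ⟨c, hc⟩ : ∃ c : (Fin k ⊕ (Fin k → Fin 4)) × (Fin g ⊕ (Fin g → Fin 4)) →
        Matrix (Fin g × Fin k) (Fin g × Fin k) ℂ,
        c = fun l => pj (dv g l.2) ⊗ₖ pj (U *ᵥ dv k l.1) := ⟨_, rfl⟩
    obtain ⟨ν, hν⟩ : ∃ ν : (Fin k ⊕ (Fin k → Fin 4)) × (Fin g ⊕ (Fin g → Fin 4)) → ℝ,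
        ν = fun l => dw k l.1 * (dw g l.2 / (g + 1)) := ⟨_, rfl⟩
    have k1 : Lay α c ν κ := by
      have h := lay (g := g) hd hdes'
      rw [hα, hc, hν, hκd]
      exact h
    have k2 : ∀ l, Bd (α' l - α l) ε₁ := by
      intro l
      rw [hα, hα']
      beta_reduce
      rw [add_sub_cancel_left]
      have hεg : (g + 1 : ℝ) * (4 * (ε₁ / (4 * (g + 1)))) = ε₁ := by field_simp
      rw [← hεg]
      exact (du_bd (hdes'.unit l.2) (hd.unit l.1) (by positivity) hR).smul (by positivity)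
    have k3 : ∑ l, ((ν l : ℂ) • α' l) ⊗ₖ c l = R := by
      have h := pert_eq hg hd R
      rw [hν, hα', hc]
      exact h
    have k4 : ∀ l, (α' l)ᴴ = α' l := by
      intro l
      have h1 := (k2 l).herm
      rw [conjTranspose_sub, (k1.pr l).1] at h1
      exact sub_left_injective h1
    have k5 : ∀ j l, (P j * α l * P j - (r : ℂ) • P j).PosSemidef := by
      intro j l
      rw [hα]
      exact hUj j l.1
    clear hα hα' hc hν
    have hσH : ∀ l, (((ν l : ℂ) • α' l) ⊗ₖ c l)ᴴ = ((ν l : ℂ) • α' l) ⊗ₖ c l := by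
      intro l
      rw [conjTranspose_kronecker, conjTranspose_smul, k4, (k1.pc l).1, RCLike.star_def,
        Complex.conj_ofReal]
    have hdet : IsUnit R.det := (Matrix.isUnit_iff_isUnit_det _).mp hpd.isUnit
    refine ⟨fun l => (ν l : ℂ) • α' l, c, fun l => R⁻¹ * (((ν l : ℂ) • α' l) ⊗ₖ c l),
      fun K₂ => ⟨fun l => ?_, fun l => (k1.pc l).1, k3, fun l => ?_, fun l => ?_, fun l => ?_,
        ?_⟩⟩
    · rw [conjTranspose_smul, k4, RCLike.star_def, Complex.conj_ofReal]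
    · rw [← Matrix.mul_assoc, Matrix.mul_nonsing_inv _ hdet, one_mul]
    · have e1 : lam (noise η K) ((ν l : ℂ) • α' l) = (ν l : ℂ) • lam (noise η K) (α' l) := by
        rw [lam, lam, Finset.smul_sum]
        refine Finset.sum_congr rfl fun v _ => ?_
        rw [Matrix.mul_smul, Matrix.smul_mul]
      rw [e1]
      exact (label_noise hη.le hη1 (k1.pr l).psd (k2 l) hε₁r hnum hT (fun j => (hP j).1)
        (fun j => (hP j).2) hKP fun j => k5 j l).smul (Complex.zero_le_real.mpr (k1.nn l))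
    · rw [lam_noise_zero]
      exact (k1.pc l).psd
    · refine ctL_lam hpd hσH _ ?_
      rw [jt_sum]
      exact site_noise' k1 k2 hε₁0.le hm0 (by rw [hκd]; linarith) hr0.le hr1 hη.le hη1 ht
        (by linarith) h4 hC hT hP hPt' hKP k5 hpd k3
  obtain ⟨hpd, hA⟩ := key R hR
  have hRs : Bd (R.submatrix Prod.swap Prod.swap - base g k) (ε₁ / (4 * (g + 1))) := by
    have h1 := hR.subm (Y := (Fin g × Fin k) × (Fin g × Fin k)) (e := Prod.swap)
      Prod.swap_injective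
    have e : (R - base g k).submatrix Prod.swap Prod.swap =
        R.submatrix Prod.swap Prod.swap - base g k := by
      conv_rhs => rw [← base_swap]
      rfl
    rwa [e] at h1
  obtain ⟨-, hB⟩ := key _ hRs
  refine noKeyAfter_of hc hη.le hpd.posSemidef (fun K h1 _ h3 => hA K h1 h3)
    fun K h1 _ h3 => ?_
  obtain ⟨α, β, K', h⟩ := hB K h1 h3
  exact ⟨β, α, _, fun K₁ => ndatG_swap (h K₁)⟩

/-- Near entries. -/
theorem after_entries (g k m : ℕ) (hg : 0 < g) (hk : 2 * m + 2 ≤ k) :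
    ∃ C : ℝ, 0 < C ∧ ∀ η : ℝ, 0 < η → η ≤ 1 → ∀ t : ℝ, 0 < t → t ≤ 1 →
      ∀ ρ : Matrix ((Fin g × Fin k) × (Fin g × Fin k)) ((Fin g × Fin k) × (Fin g × Fin k)) ℂ,
        ρ.PosSemidef → ρ.trace = 1 → (∀ p q, ‖ρ p q - sepState g k p q‖ ≤ C * η * t) →
        NoKeyAfter ρ m η t := by
  obtain ⟨e₀, he₀, h⟩ := nb_after g k m hg hk
  obtain ⟨C, hC, hC'⟩ := close_bd' (g := g) (k := k) hg (by omega)
  refine ⟨C * e₀, by positivity, fun η hη hη1 t ht ht1 ρ hρ _ hc => ?_⟩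
  obtain ⟨c, R, hc0, hR, hcR⟩ := hC' (e₀ * (η * t)) (by positivity) ρ hρ fun p q => by
    rw [← mul_assoc, ← mul_assoc]
    exact hc p q
  rw [hcR]
  exact h η hη hη1 t ht ht1 R hR c hc0

end Vale.Agent.P372.Ou
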