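import Vale.Agent.P372.R2.helper492.Ou.Nb

/-! Entangled states near the separable boundary state. -/

open Matrix Kronecker
open scoped ComplexOrder MatrixOrder

set_option linter.unusedSectionVars false

namespace Vale.Agent.P372.Ou

open Vale.Agent.P372.PC (IsPr)

variable {g k : ℕ}

/-- `tr (F Z)`. -/
def ff (Z : Matrix ((Fin g × Fin k) × (Fin g × Fin k)) ((Fin g × Fin k) × (Fin g × Fin k)) ℂ) : ℂ :=
  ∑ x, ∑ y, Z (x, y) (y, x)

/-- `tr (swapK Z)`. -/
def fs (Z : Matrix ((Fin g × Fin k) × (Fin g × Fin k)) ((Fin g × Fin k) × (Fin g × Fin k)) ℂ) : ℂ :=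
  ∑ s, ∑ t, ∑ i, ∑ j, Z ((s, i), (t, j)) ((s, j), (t, i))

theorem ff_add (Z W : Matrix ((Fin g × Fin k) × (Fin g × Fin k))
    ((Fin g × Fin k) × (Fin g × Fin k)) ℂ) : ff (Z + W) = ff Z + ff W := by
  simp only [ff, Matrix.add_apply, Finset.sum_add_distrib]

theorem fs_add (Z W : Matrix ((Fin g × Fin k) × (Fin g × Fin k))
    ((Fin g × Fin k) × (Fin g × Fin k)) ℂ) : fs (Z + W) = fs Z + fs W := by
  simp only [fs, Matrix.add_apply, Finset.sum_add_distrib]

theorem ff_smul (c : ℂ) (Z : Matrix ((Fin g × Fin k) × (Fin g × Fin k))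
    ((Fin g × Fin k) × (Fin g × Fin k)) ℂ) : ff (c • Z) = c * ff Z := by
  simp only [ff, Matrix.smul_apply, smul_eq_mul, Finset.mul_sum]

theorem fs_smul (c : ℂ) (Z : Matrix ((Fin g × Fin k) × (Fin g × Fin k))
    ((Fin g × Fin k) × (Fin g × Fin k)) ℂ) : fs (c • Z) = c * fs Z := by
  simp only [fs, Matrix.smul_apply, smul_eq_mul, Finset.mul_sum]

theorem ff_sum {J : Type} (s : Finset J) (Z : J → Matrix ((Fin g × Fin k) × (Fin g × Fin k))
    ((Fin g × Fin k) × (Fin g × Fin k)) ℂ) : ff (∑ r ∈ s, Z r) = ∑ r ∈ s, ff (Z r) := by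
  classical
  induction s using Finset.induction_on with
  | empty => simp [ff]
  | insert a s ha ih => rw [Finset.sum_insert ha, Finset.sum_insert ha, ff_add, ih]

theorem fs_sum {J : Type} (s : Finset J) (Z : J → Matrix ((Fin g × Fin k) × (Fin g × Fin k))
    ((Fin g × Fin k) × (Fin g × Fin k)) ℂ) : fs (∑ r ∈ s, Z r) = ∑ r ∈ s, fs (Z r) := by
  classical
  induction s using Finset.induction_on with
  | empty => simp [fs]
  | insert a s ha ih => rw [Finset.sum_insert ha, Finset.sum_insert ha, fs_add, ih]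

/-- The swap of the two systems `C^g ⊗ C^k`. -/
def fu (g k : ℕ) :
    Matrix ((Fin g × Fin k) × (Fin g × Fin k)) ((Fin g × Fin k) × (Fin g × Fin k)) ℂ :=
  fun p q => if p.1 = q.2 ∧ p.2 = q.1 then 1 else 0

theorem ff_one : ff (1 : Matrix ((Fin g × Fin k) × (Fin g × Fin k)) _ ℂ) = g * k := by
  simp only [ff, one_apply, Prod.mk.injEq]
  have : ∀ x y : Fin g × Fin k, (if x = y ∧ y = x then (1 : ℂ) else 0) = if x = y then 1 else 0 := by
    intro x y
    by_cases h : x = y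
    · simp [h]
    · simp [h]
  simp only [this]
  simp

theorem ff_swapK : ff (swapK g k) = g * k ^ 2 := by
  have e : ∀ x y : Fin g × Fin k, swapK g k (x, y) (y, x) = if x.1 = y.1 then 1 else 0 := by
    intro x y
    by_cases h : x.1 = y.1
    · simp [swapK, h]
    · simp [swapK, h]
  have e2 : ∀ a : Fin g, ∑ b : Fin g, ∑ _j : Fin k, (if a = b then (1 : ℂ) else 0) = k := by
    intro a
    rw [Finset.sum_comm]
    simp
  simp only [ff, e, Fintype.sum_prod_type, e2]
  simp only [Finset.sum_const, Finset.card_univ, Fintype.card_fin, nsmul_eq_mul]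
  ring

theorem ff_fu : ff (fu g k) = g ^ 2 * k ^ 2 := by
  simp only [ff, fu]
  simp
  ring

theorem fs_one : fs (1 : Matrix ((Fin g × Fin k) × (Fin g × Fin k)) _ ℂ) = g ^ 2 * k := by
  have e : ∀ (s t : Fin g) (i j : Fin k), (1 : Matrix ((Fin g × Fin k) × (Fin g × Fin k)) _ ℂ)
      ((s, i), (t, j)) ((s, j), (t, i)) = if i = j then 1 else 0 := by
    intro s t i j
    by_cases h : i = j
    · rw [h, if_pos rfl]
      exact one_apply_eq _
    · rw [if_neg h]
      exact one_apply_ne fun h' => h (congrArg (fun p => p.1.2) h')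
  simp only [fs, e]
  simp
  ring

theorem fs_swapK : fs (swapK g k) = g ^ 2 * k ^ 2 := by
  simp only [fs, swapK]
  simp
  ring

theorem fs_fu : fs (fu g k) = g * k ^ 2 := by
  have e : ∀ (s t : Fin g) (i j : Fin k), fu g k ((s, i), (t, j)) ((s, j), (t, i)) =
      if s = t then 1 else 0 := by
    intro s t i j
    by_cases h : s = t
    · simp [fu, h]
    · simp [fu, h]
  have e2 : ∀ s : Fin g, ∑ t : Fin g, ∑ _i : Fin k, ∑ _j : Fin k,
      (if s = t then (1 : ℂ) else 0) = k ^ 2 := by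
    intro s
    rw [Finset.sum_eq_single s]
    · simp
      ring
    · intro t _ ht
      simp [Ne.symm ht]
    · simp
  simp only [fs, e, e2]
  simp

/-- The matrix of overlaps. -/
def ov (a b : Fin g × Fin k → ℂ) : Matrix (Fin g) (Fin g) ℂ :=
  fun s t => ∑ i, a (s, i) * star (b (t, i))

theorem ov_rank (a b : Fin g × Fin k → ℂ) : (ov a b).rank ≤ k := by
  have e : ov a b = (Matrix.of fun s i => a (s, i) : Matrix (Fin g) (Fin k) ℂ) *
      (Matrix.of fun i t => star (b (t, i)) : Matrix (Fin k) (Fin g) ℂ) := by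
    ext s t
    simp only [ov, Matrix.mul_apply, Matrix.of_apply]
  rw [e]
  refine (rank_mul_le_left _ _).trans ?_
  exact (rank_le_width _)

theorem ov_trace (a b : Fin g × Fin k → ℂ) : ‖(ov a b).trace‖ ^ 2 ≤ k * hs (ov a b) := by
  obtain ⟨P, G, hP, h1, h2, h3⟩ := exists_range (ov a b)
  have h4 := norm_trace_mul_le_hs P (ov a b)
  rw [h1] at h4
  have h5 : hs P = ((ov a b).rank : ℝ) := by
    rw [hs_eq_re, hP.1, hP.2, h3, Complex.ofReal_re]
  have h6 : hs P ≤ k := by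
    rw [h5]
    exact_mod_cast ov_rank a b
  have n1 := hs_nonneg P
  have n2 := hs_nonneg (ov a b)
  calc ‖(ov a b).trace‖ ^ 2 ≤ (√(hs P) * √(hs (ov a b))) ^ 2 :=
        pow_le_pow_left₀ (norm_nonneg _) h4 2
    _ = hs P * hs (ov a b) := by rw [mul_pow, Real.sq_sqrt n1, Real.sq_sqrt n2]
    _ ≤ k * hs (ov a b) := mul_le_mul_of_nonneg_right h6 n2

theorem ff_pj (a b : Fin g × Fin k → ℂ) :
    ff (pj a ⊗ₖ pj b) = ((‖(ov a b).trace‖ ^ 2 : ℝ) : ℂ) := by
  have e1 : (ov a b).trace = ∑ x, a x * star (b x) := by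
    simp only [Matrix.trace, Matrix.diag, ov, Fintype.sum_prod_type]
  have e2 : ((‖(ov a b).trace‖ ^ 2 : ℝ) : ℂ) = (ov a b).trace * star (ov a b).trace := by
    rw [RCLike.star_def, RCLike.mul_conj]
    norm_cast
  rw [e2, e1, ff, star_sum, Finset.sum_mul_sum]
  refine Finset.sum_congr rfl fun x _ => Finset.sum_congr rfl fun y _ => ?_
  rw [kroneckerMap_apply, pj_apply, pj_apply, star_mul', star_star]
  ring

theorem fs_pj (a b : Fin g × Fin k → ℂ) : fs (pj a ⊗ₖ pj b) = (hs (ov a b) : ℂ) := by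
  rw [fs, hs]
  push_cast
  refine Finset.sum_congr rfl fun s _ => Finset.sum_congr rfl fun t _ => ?_
  have e2 : ((‖ov a b s t‖ : ℂ) ^ 2) = ov a b s t * star (ov a b s t) := by
    rw [RCLike.star_def, RCLike.mul_conj]
    norm_cast
  rw [e2, ov, star_sum, Finset.sum_mul_sum]
  refine Finset.sum_congr rfl fun i _ => Finset.sum_congr rfl fun j _ => ?_
  rw [kroneckerMap_apply, pj_apply, pj_apply, star_mul', star_star]
  ring

theorem psd_sum_pj {X : Type} [Fintype X] [DecidableEq X] {α : Matrix X X ℂ} (h : α.PosSemidef) :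
    ∃ a : X → X → ℂ, α = ∑ r, pj (a r) := by
  obtain ⟨C, rfl⟩ := exists_eq_conjTranspose_mul_self h
  refine ⟨fun r x => star (C r x), ?_⟩
  ext x y
  rw [Matrix.mul_apply, Matrix.sum_apply]
  refine Finset.sum_congr rfl fun r _ => ?_
  rw [pj_apply, star_star, conjTranspose_apply]

theorem kron_wit {α β : Matrix (Fin g × Fin k) (Fin g × Fin k) ℂ} (hα : α.PosSemidef)
    (hβ : β.PosSemidef) : 0 ≤ (ff (α ⊗ₖ β)).re ∧ (ff (α ⊗ₖ β)).re ≤ k * (fs (α ⊗ₖ β)).re := by
  obtain ⟨a, rfl⟩ := psd_sum_pj hα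
  obtain ⟨b, rfl⟩ := psd_sum_pj hβ
  have e : (∑ r, pj (a r)) ⊗ₖ (∑ r, pj (b r)) = ∑ r, ∑ r', pj (a r) ⊗ₖ pj (b r') := by
    ext p q
    simp only [kroneckerMap_apply, Matrix.sum_apply, Finset.sum_mul_sum]
  rw [e]
  simp only [ff_sum, fs_sum, ff_pj, fs_pj, Complex.re_sum, Complex.ofReal_re]
  refine ⟨Finset.sum_nonneg fun r _ => Finset.sum_nonneg fun r' _ => by positivity, ?_⟩
  rw [Finset.mul_sum]
  refine Finset.sum_le_sum fun r _ => ?_
  rw [Finset.mul_sum]
  exact Finset.sum_le_sum fun r' _ => ov_trace _ _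

theorem sep_wit {R : Matrix ((Fin g × Fin k) × (Fin g × Fin k)) _ ℂ} (h : IsSep R) :
    0 ≤ (ff R).re ∧ (ff R).re ≤ k * (fs R).re := by
  obtain ⟨n, M, N, hM, hN, rfl⟩ := h
  simp only [ff_sum, fs_sum, Complex.re_sum]
  refine ⟨Finset.sum_nonneg fun r _ => (kron_wit (hM r) (hN r)).1, ?_⟩
  rw [Finset.mul_sum]
  exact Finset.sum_le_sum fun r _ => (kron_wit (hM r) (hN r)).2

end Vale.Agent.P372.Ou
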